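import Mathlib

/-!
Extension of a partially additive and multiplicative map to a ring homomorphism.
-/

namespace Vale.Agent.P019

theorem extend_hom {K L : Type*} [Field K] [Field L] (G : Set K) (Ind : K → K → Prop)
    (α : K → L) (hsymm : ∀ x y, Ind x y → Ind y x)
    (hadd : ∀ x y, x ∈ G → y ∈ G → x + y ∈ G → Ind x y → α (x + y) = α x + α y)
    (hmul : ∀ x y, x ∈ G → y ∈ G → x * y ∈ G → Ind x y → α (x * y) = α x * α y)
    (hne : ∀ x ∈ G, α x ≠ 0)
    (hgen : ∀ (A B : Finset K), (∀ b ∈ B, b ∈ G) →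
      ∃ t, ∀ a ∈ A, a + t ∈ G ∧ ∀ b ∈ B, Ind (a + t) b)
    (hgenmul : ∀ h t, t ∈ G → ∃ s, s ∈ G ∧ h + s ∈ G ∧ s * t ∈ G ∧ (h + s) * t ∈ G ∧
      Ind s t ∧ Ind (h + s) t) :
    ∃ A : K →+* L, ∀ x ∈ G, A x = α x := by
  classical
  -- a reference shift for each `h`
  have h0 : ∀ h : K, ∃ t, t ∈ G ∧ h + t ∈ G := by
    intro h
    obtain ⟨t, ht⟩ := hgen {0, h} ∅ (by simp)
    refine ⟨t, ?_, (ht h (by simp)).1⟩
    simpa using (ht 0 (by simp)).1
  choose τ hτ1 hτ2 using h0
  -- the difference does not depend on the shift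
  have key : ∀ h t, t ∈ G → h + t ∈ G → α (h + t) = (α (h + τ h) - α (τ h)) + α t := by
    intro h t ht1 ht2
    obtain ⟨s, hs⟩ := hgen {0, t, h, h + t, τ h, h + τ h} {t, h + t, τ h, h + τ h} (by
      intro b hb
      simp only [Finset.mem_insert, Finset.mem_singleton] at hb
      rcases hb with rfl | rfl | rfl | rfl
      exacts [ht1, ht2, hτ1 h, hτ2 h])
    have s0 := hs 0 (by simp)
    rw [zero_add] at s0
    have sh := hs h (by simp)
    -- comparison lemma
    have cmp : ∀ u, u ∈ G → h + u ∈ G → h + u + s ∈ G → Ind s (h + u) → Ind (h + s) u →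
        α (h + u) + α s = α (h + s) + α u := by
      intro u hu1 hu2 hu3 hu4 hu5
      have e1 := hadd (h + u) s hu2 s0.1 hu3 (hsymm _ _ hu4)
      have e2 := hadd (h + s) u sh.1 hu1 (by
        have : h + s + u = h + u + s := by ring
        rw [this]; exact hu3) hu5
      have e3 : h + s + u = h + u + s := by ring
      rw [e3] at e2
      rw [← e1, ← e2]
    have c1 := cmp t ht1 ht2 (hs (h + t) (by simp)).1 (s0.2 (h + t) (by simp))
      (sh.2 t (by simp))
    have c2 := cmp (τ h) (hτ1 h) (hτ2 h) (hs (h + τ h) (by simp)).1 (s0.2 (h + τ h) (by simp))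
      (sh.2 (τ h) (by simp))
    linear_combination c1 - c2
  set A : K → L := fun h => α (h + τ h) - α (τ h) with hA
  have key' : ∀ h t, t ∈ G → h + t ∈ G → α (h + t) = A h + α t := key
  -- additivity
  have Aadd : ∀ x y, A (x + y) = A x + A y := by
    intro x y
    obtain ⟨t, ht⟩ := hgen {0, y, τ x, x + y + τ x} {τ x, x + τ x} (by
      intro b hb
      simp only [Finset.mem_insert, Finset.mem_singleton] at hb
      rcases hb with rfl | rfl
      exacts [hτ1 x, hτ2 x])
    have t0 := ht 0 (by simp)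
    rw [zero_add] at t0
    have ty := ht y (by simp)
    have tt := ht (τ x) (by simp)
    have txy := ht (x + y + τ x) (by simp)
    have e1 : x + y + (τ x + t) = (x + τ x) + (y + t) := by ring
    have e2 : x + y + τ x + t = (x + τ x) + (y + t) := by ring
    have hin : (x + τ x) + (y + t) ∈ G := by rw [← e2]; exact txy.1
    have a1 := hadd (x + τ x) (y + t) (hτ2 x) ty.1 hin (hsymm _ _ (ty.2 (x + τ x) (by simp)))
    have a2 := key' (x + y) (τ x + t) tt.1 (by rw [e1]; exact hin)
    have a3 := hadd (τ x) t (hτ1 x) t0.1 tt.1 (hsymm _ _ (t0.2 (τ x) (by simp)))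
    have a4 := key' x (τ x) (hτ1 x) (hτ2 x)
    have a5 := key' y t t0.1 ty.1
    rw [e1, a1, a3, a4, a5] at a2
    linear_combination -a2
  -- the value on `G`
  have AG : ∀ x ∈ G, A x = α x := by
    intro x hx
    obtain ⟨t, ht⟩ := hgen {0, x} {x} (by simpa using hx)
    have t0 := ht 0 (by simp)
    rw [zero_add] at t0
    have tx := ht x (by simp)
    have a1 := hadd x t hx t0.1 tx.1 (hsymm _ _ (t0.2 x (by simp)))
    have a2 := key' x t t0.1 tx.1
    rw [a1] at a2
    linear_combination -a2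
  -- multiplicativity against `G`
  have AmG : ∀ h, ∀ t ∈ G, A (h * t) = A h * A t := by
    intro h t ht
    obtain ⟨s, hs1, hs2, hs3, hs4, hs5, hs6⟩ := hgenmul h t ht
    have a1 := hmul (h + s) t hs2 ht hs4 hs6
    have a2 := hmul s t hs1 ht hs3 hs5
    have a3 := Aadd (h * t) (s * t)
    rw [← add_mul, AG _ hs4, AG _ hs3, a1, a2] at a3
    have a4 := key' h s hs1 hs2
    rw [AG t ht]
    rw [a4] at a3
    linear_combination -a3
  have Amul : ∀ x y, A (x * y) = A x * A y := by
    intro x y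
    have a1 := AmG x (y + τ y) (hτ2 y)
    have a2 := AmG x (τ y) (hτ1 y)
    rw [mul_add, Aadd, a2, Aadd y (τ y)] at a1
    linear_combination a1
  have A1 : A 1 = 1 := by
    have a1 := AmG 1 (τ 0) (hτ1 0)
    rw [one_mul] at a1
    have hn : A (τ 0) ≠ 0 := by rw [AG _ (hτ1 0)]; exact hne _ (hτ1 0)
    have := mul_right_cancel₀ hn (a1.symm.trans (one_mul _).symm)
    exact this
  have A0 : A 0 = 0 := by
    have := Aadd 0 0
    rw [add_zero] at this
    linear_combination -this
  exact ⟨{ toFun := A, map_one' := A1, map_mul' := Amul, map_zero' := A0, map_add' := Aadd },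
    fun x hx => AG x hx⟩

end Vale.Agent.P019
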