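import Vale.Agent.P019.SigB
import Vale.Agent.P019.ExtendHom

/-!
# The embedding of function fields
-/

namespace Vale.Agent.P019

open Polynomial Filter

variable {K L : Type*} [Field K] [Field L] [CharZero K] [CharZero L] {ℓ : ℕ} [Fact ℓ.Prime]
  {k : Subfield K} {l : Subfield L} {Θ : V ℓ K ≃ₗ[ZMod ℓ] V ℓ L}

omit [CharZero K] [CharZero L] in
/-- the isomorphism of the constants preserves cofiniteness. -/
theorem IsoOn.tendsto {σ : K → L} (hσ : IsoOn k l σ) : Tendsto σ (ae k) (ae l) := by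
  intro S hS
  have h1 : ∀ᶠ β in ae l, β ∈ S := hS
  change ∀ᶠ a in ae k, σ a ∈ S
  rw [ae_iff] at h1 ⊢
  refine Set.Finite.of_finite_image (f := σ) (h1.subset ?_) ?_
  · rintro _ ⟨a, ⟨ha, ha'⟩, rfl⟩
    exact ⟨hσ.mem a ha, ha'⟩
  · rintro a ⟨ha, -⟩ b ⟨hb, -⟩ hab
    exact hσ.inj ha hb hab

omit [CharZero L] in
theorem IsoOn.quad_zero {σ : K → L} (hσ : IsoOn k l σ) {u v w : L}
    (h : ∀ᶠ b in ae k, u * σ b ^ 2 + v * σ b + w = 0) : u = 0 ∧ v = 0 ∧ w = 0 := by
  have hp : (C u * X ^ 2 + C v * X + C w : L[X]) = 0 := by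
    by_contra hp
    have hfin : {x | (C u * X ^ 2 + C v * X + C w : L[X]).IsRoot x}.Finite := by
      by_contra hinf
      exact hp (eq_zero_of_infinite_isRoot _ hinf)
    have h1 : ∀ᶠ β in ae l, ¬ (C u * X ^ 2 + C v * X + C w : L[X]).IsRoot β := by
      rw [ae_iff]
      refine hfin.subset ?_
      rintro x ⟨-, hx⟩
      rw [not_not] at hx
      exact hx
    have h2 := hσ.tendsto.eventually h1
    have := ae_neBot k
    obtain ⟨b, hb1, hb2⟩ := (h.and h2).exists
    apply hb2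
    rw [IsRoot.def]
    simpa using hb1
  have h0 := congrArg (fun p => p.coeff 0) hp
  have h1 := congrArg (fun p => p.coeff 1) hp
  have h2 := congrArg (fun p => p.coeff 2) hp
  simp [coeff_X, coeff_C] at h0 h1 h2
  exact ⟨h2, h1, h0⟩

theorem Hyp.Nm_add (H : Hyp ℓ k l Θ) {σ : K → L} (hσ : IsoOn k l σ) {e : ZMod ℓ} (he : e ≠ 0)
    {t s : K} {t' s' z' : L} (hts : Ind k s t) (ht : Nm k l Θ σ e t t') (hs : Nm k l Θ σ e s s')
    (hz : Nm k l Θ σ e (t + s) z') : z' = t' + s' := by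
  obtain ⟨G', hG', hrel⟩ := H.rel hts.2 ht.rt hs.rt hz.rt (shift_add H.ack hts.1 t)
    (ht.psi hσ he) (hs.psi hσ he) (hz.psi hσ he)
  by_contra hne
  have hne' : z' - s' - t' ≠ 0 := by
    intro h
    apply hne
    linear_combination h
  have hle : l ≤ adj G' s' := hG'.le.trans (le_adj G' s')
  have hun := hσ.tendsto.eventually ((hG'.unit hne').filter_mono (ae_mono hle))
  have := ae_neBot k
  obtain ⟨a, ⟨⟨hrel, hun⟩, hak⟩⟩ := ((hrel.and hun).and (ae_mem k)).exists
  obtain ⟨A, hA, B, hB, C, hC, D, hD, hdet, hmob, W, hW, hval⟩ := hrel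
  have hq : C = 0 ∧ σ a * C + D - A = 0 ∧ σ a * D - B = 0 := by
    refine hσ.quad_zero ?_
    filter_upwards [hmob, ae_mem k] with b hb hbk
    have h1 := hb.1
    rw [hσ.add a hak b hbk] at h1
    linear_combination h1
  obtain ⟨hC0, hDA, hBD⟩ := hq
  have hD0 : D ≠ 0 := by
    rintro rfl
    apply hdet
    rw [hC0]
    ring
  have hAD : A = D := by linear_combination σ a * hC0 - hDA
  have hBD' : B = σ a * D := by linear_combination -hBD
  have hDu : W.valuation D = 1 := hW.triv.eq_one (hle hD) hD0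
  have h1 : W.valuation (z' - s' - σ a) < 1 := by
    have e1 : z' * (C * s' + D) - (A * s' + B) = D * (z' - s' - σ a) := by
      rw [hC0, hAD, hBD']
      ring
    rwa [e1, map_mul, hDu, one_mul] at hval
  have h2 : W.valuation (z' - s' - t') < 1 := by
    have e1 : z' - s' - t' = (z' - s' - σ a) - (t' - σ a) := by ring
    rw [e1]
    exact lt_of_le_of_lt (Valuation.map_sub _ _ _) (max_lt h1 hW.lt)
  exact h2.ne (hun W hW)

theorem Hyp.Nm_mul (H : Hyp ℓ k l Θ) {σ : K → L} (hσ : IsoOn k l σ) {e : ZMod ℓ} (he : e ≠ 0)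
    {t s : K} {t' s' z' : L} (hts : Ind k s t) (ht : Nm k l Θ σ e t t') (hs : Nm k l Θ σ e s s')
    (hz : Nm k l Θ σ e (t * s) z') : z' = t' * s' := by
  obtain ⟨G', hG', hrel⟩ := H.rel hts.2 ht.rt hs.rt hz.rt (shift_mul H.ack hts.1 t)
    (ht.psi hσ he) (hs.psi hσ he) (hz.psi hσ he)
  by_contra hne
  have hne' : z' - t' * s' ≠ 0 := sub_ne_zero.2 hne
  have hle : l ≤ adj G' s' := hG'.le.trans (le_adj G' s')
  have hun := hσ.tendsto.eventually ((hG'.unit hne').filter_mono (ae_mono hle))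
  have := ae_neBot k
  have hne0 : ∀ᶠ a in ae k, a ≠ 0 := by
    rw [ae_iff]
    refine (Set.finite_singleton (0 : K)).subset ?_
    rintro a ⟨-, ha⟩
    rw [not_not] at ha
    exact ha
  obtain ⟨a, ⟨⟨⟨hrel, hun⟩, hak⟩, ha0⟩⟩ := (((hrel.and hun).and (ae_mem k)).and hne0).exists
  obtain ⟨A, hA, B, hB, C, hC, D, hD, hdet, hmob, W, hW, hval⟩ := hrel
  have hσ0 : σ 0 = 0 := by
    have h1 := hσ.add 0 k.zero_mem 0 k.zero_mem
    rw [add_zero] at h1
    linear_combination -h1
  have hσa : σ a ≠ 0 := by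
    intro h
    apply ha0
    exact hσ.inj hak k.zero_mem (h.trans hσ0.symm)
  have hq : σ a * C = 0 ∧ σ a * D - A = 0 ∧ - B = 0 := by
    refine hσ.quad_zero ?_
    filter_upwards [hmob, ae_mem k] with b hb hbk
    have h1 := hb.1
    rw [hσ.mul a hak b hbk] at h1
    linear_combination h1
  obtain ⟨hC0, hDA, hB0⟩ := hq
  have hC0 : C = 0 := (mul_eq_zero.1 hC0).resolve_left hσa
  have hAD : A = σ a * D := by linear_combination -hDA
  have hB0 : B = 0 := neg_eq_zero.1 hB0
  have hD0 : D ≠ 0 := by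
    rintro rfl
    apply hdet
    rw [hC0]
    ring
  have hDu : W.valuation D = 1 := hW.triv.eq_one (hle hD) hD0
  have h1 : W.valuation (z' - σ a * s') < 1 := by
    have e1 : z' * (C * s' + D) - (A * s' + B) = D * (z' - σ a * s') := by
      rw [hC0, hAD, hB0]
      ring
    rwa [e1, map_mul, hDu, one_mul] at hval
  have hs1 : W.valuation s' ≤ 1 := (W.valuation_le_one_iff _).2 (hW.triv _ (mem_adj G' s'))
  have h2 : W.valuation (z' - t' * s') < 1 := by
    have e1 : z' - t' * s' = (z' - σ a * s') - (t' - σ a) * s' := by ring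
    rw [e1]
    refine lt_of_le_of_lt (Valuation.map_sub _ _ _) (max_lt h1 ?_)
    rw [map_mul]
    exact lt_of_le_of_lt (mul_le_of_le_one_right' hs1) hW.lt
  exact h2.ne (hun W hW)

theorem Hyp.exists_alpha (H : Hyp ℓ k l Θ) : ∃ (σ : K → L) (e : ZMod ℓ) (A : K →+* L),
    IsoOn k l σ ∧ e ≠ 0 ∧ (∀ b ∈ k, A b = σ b) ∧ ∀ s, Good k s → Nm k l Θ σ e s (A s) := by
  classical
  obtain ⟨σ, e, hσ, he, hall⟩ := H.exists_sigma
  let α : K → L := fun s => if h : Good k s then (hall s h).choose else 0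
  have hα : ∀ s, Good k s → Nm k l Θ σ e s (α s) := by
    intro s hs
    have h1 : α s = (hall s hs).choose := dif_pos hs
    rw [h1]
    exact (hall s hs).choose_spec
  obtain ⟨A, hA⟩ := extend_hom {s | Good k s} (Ind k) α (fun x y h => h.symm H.ack)
    (fun x y hx hy hxy hind => by
      have h1 : Good k (y + x) := by rw [add_comm]; exact hxy
      have h2 := H.Nm_add hσ he hind (hα y hy) (hα x hx) (hα (y + x) h1)
      rw [add_comm x y, h2, add_comm])
    (fun x y hx hy hxy hind => by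
      have h1 : Good k (y * x) := by rw [mul_comm]; exact hxy
      have h2 := H.Nm_mul hσ he hind (hα y hy) (hα x hx) (hα (y * x) h1)
      rw [mul_comm x y, h2, mul_comm])
    (fun x hx h0 => by
      have h1 := (hα x hx).rt.good'.1
      apply h1
      rw [h0]
      exact l.zero_mem)
    (fun A B hB => exists_gen_add H.ack H.fgk H.trk A B hB)
    (fun h t ht => exists_gen_mul H.ack H.fgk H.trk h t ht)
  have hAN : ∀ s, Good k s → Nm k l Θ σ e s (A s) := by
    intro s hs
    rw [hA s hs]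
    exact hα s hs
  refine ⟨σ, e, A, hσ, he, ?_, hAN⟩
  intro b hb
  obtain ⟨t, ht⟩ := exists_gen_add H.ack H.fgk H.trk {0} ∅ (by simp)
  have hs : Good k (0 + t) := (ht 0 (by simp)).1
  have h1 := (hAN _ hs).add_const H.ack H.acl hσ he hb
  have h2 := (hAN _ h1.rt.good).unique H.ack H.acl H.fgl hσ he h1
  rw [map_add] at h2
  exact add_left_cancel h2

end Vale.Agent.P019
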