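import Vale.Agent.P019.PlCore

/-!
# Bertini
-/

namespace Vale.Agent.P019

set_option linter.style.haveILetI false

open Polynomial

/-- the relative algebraic closure of a subfield in a finitely generated extension has only
finitely many intermediate fields. -/
theorem bert_finite {F L : Type*} [Field F] [Field L] [Algebra F L] [CharZero F]
    [Algebra.EssFiniteType F L] :
    Finite (IntermediateField F (algebraicClosure F L)) := by
  classical
  obtain ⟨S, hS⟩ := exists_isTranscendenceBasis F L
  haveI : Algebra.IsAlgebraic (IntermediateField.adjoin F (Set.range ((↑) : S → L))) L :=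
    hS.isAlgebraic_field
  haveI : Algebra.EssFiniteType (IntermediateField.adjoin F (Set.range ((↑) : S → L))) L :=
    Algebra.EssFiniteType.of_comp F _ L
  haveI : Module.Finite (IntermediateField.adjoin F (Set.range ((↑) : S → L))) L :=
    Algebra.finite_of_essFiniteType_of_isAlgebraic
  have hr : Module.rank F (algebraicClosure F L) ≤
      Module.finrank (IntermediateField.adjoin F (Set.range ((↑) : S → L))) L := by
    refine rank_le (fun s hs => ?_)
    let w : Fin s.card → L := fun i => ((s.equivFin.symm i : algebraicClosure F L) : L)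
    have hw : LinearIndependent F w := by
      have h1 := hs.comp (s.equivFin.symm) s.equivFin.symm.injective
      exact h1.map' (algebraicClosure F L).val.toLinearMap
        (LinearMap.ker_eq_bot.2 (algebraicClosure F L).val.injective)
    have h2 := linearIndependent_adjoin hS.1 (w := w) (fun i =>
      mem_algebraicClosure_iff.1 (s.equivFin.symm i : algebraicClosure F L).2) hw
    have h3 := h2.fintype_card_le_finrank
    rwa [Fintype.card_fin] at h3
  haveI : Module.Finite F (algebraicClosure F L) := by
    rw [← Module.rank_lt_aleph0_iff]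
    exact lt_of_le_of_lt hr (Cardinal.natCast_lt_aleph0)
  exact Field.finite_intermediateField_of_exists_primitive_element F _
    (Field.exists_primitive_element F _)

/-- `K` is essentially of finite type over any subfield containing `k`. -/
theorem bert_ess {K : Type*} [Field K] {k F : Subfield K} (hkF : k ≤ F)
    (hfg : FG k (⊤ : Subfield K)) : Algebra.EssFiniteType F K := by
  obtain ⟨S, hS⟩ := hfg
  have h1 : (IntermediateField.adjoin F (S : Set K)) = ⊤ := by
    rw [← top_le_iff]
    intro z _
    have hz : z ∈ (k ⊔ Subfield.closure (S : Set K) : Subfield K) := by rw [← hS]; trivial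
    have h2 : (k ⊔ Subfield.closure (S : Set K) : Subfield K) ≤
        (IntermediateField.adjoin F (S : Set K)).toSubfield := by
      refine sup_le ?_ (Subfield.closure_le.2 (IntermediateField.subset_adjoin _ _))
      intro a ha
      exact (IntermediateField.adjoin F (S : Set K)).algebraMap_mem ⟨a, hkF ha⟩
    exact h2 hz
  rw [← IntermediateField.fg_top_iff]
  exact ⟨S, h1⟩

/-- S20 Bertini. -/
theorem bertini {K : Type*} [Field K] [CharZero K] {k : Subfield K} (hk : IsAlgClosed k)
    (hfg : FG k (⊤ : Subfield K)) {x y : K} (hx : x ∉ k) (hy : ¬ IsAlgebraic (adj k x) y) :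
    {c : K | c ∈ k ∧ ¬ Good k (x + c * y)}.Finite := by
  classical
  set F : Subfield K := adj (adj k x) y with hF
  have hkF : k ≤ F := (le_adj k x).trans (le_adj _ y)
  have hxF : x ∈ F := le_adj _ y (mem_adj k x)
  have hyF : y ∈ F := mem_adj _ y
  haveI : Algebra.EssFiniteType F K := bert_ess hkF hfg
  haveI : Finite (IntermediateField F (algebraicClosure F K)) := bert_finite
  let E : K → Subfield K := fun c => rac (adj k (x + c * y))
  let L : K → IntermediateField F (algebraicClosure F K) := fun c =>
    Subfield.toIntermediateField ((E c ⊔ F).comap (algebraMap (algebraicClosure F K) K))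
      (fun a => by
        rw [Subfield.mem_comap]
        exact (le_sup_right : F ≤ E c ⊔ F) a.2)
  have hnk : ∀ c ∈ k, x + c * y ∉ k := by
    intro c hc h
    by_cases hc0 : c = 0
    · rw [hc0, zero_mul, add_zero] at h; exact hx h
    · apply hy
      refine isAlgebraic_of_mem ?_
      have : y = (x + c * y - x) / c := by field_simp; ring
      rw [this]
      exact (adj k x).div_mem ((adj k x).sub_mem (le_adj k x h) (mem_adj k x)) (le_adj k x hc)
  by_contra hinf
  obtain ⟨c, hc, c', hc', hne, hL⟩ :=
    Set.Infinite.exists_ne_map_eq_of_mapsTo (f := L) (t := Set.univ) hinf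
      (fun _ _ => Set.mem_univ _) (Set.toFinite _)
  obtain ⟨hck, hcb⟩ := hc
  obtain ⟨hck', hcb'⟩ := hc'
  set u : K := x + c * y with hu
  set z : K := x + c' * y with hz
  have huE : u ∈ E c := le_rac _ (mem_adj k u)
  -- every element of `E c'` lies in `E c ⊔ F`
  have hsub : E c' ≤ E c ⊔ F := by
    intro h hh
    have hFz : adj k z ≤ F := adj_le hkF (F.add_mem hxF (F.mul_mem (hkF hck') hyF))
    have halg : IsAlgebraic F h := isAlgebraic_mono hFz (mem_rac.1 hh)
    let h' : algebraicClosure F K := ⟨h, mem_algebraicClosure_iff.2 halg⟩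
    have h1 : h' ∈ L c' := by
      change algebraMap (algebraicClosure F K) K h' ∈ E c' ⊔ F
      exact (le_sup_left : E c' ≤ E c' ⊔ F) hh
    rw [← hL] at h1
    exact h1
  have hcc : c - c' ≠ 0 := sub_ne_zero.2 hne
  have hyeq : y = (u - z) / (c - c') := by rw [hu, hz]; field_simp; ring
  have hFle : E c ⊔ F ≤ adj k z ⊔ E c := by
    refine sup_le le_sup_right ?_
    have hkl : k ≤ adj k z ⊔ E c := (le_adj k z).trans le_sup_left
    have huz : u ∈ adj k z ⊔ E c := (le_sup_right : E c ≤ adj k z ⊔ E c) huE
    have hzz : z ∈ adj k z ⊔ E c := (le_sup_left : adj k z ≤ adj k z ⊔ E c) (mem_adj k z)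
    have hyy : y ∈ adj k z ⊔ E c := by
      rw [hyeq]
      exact (adj k z ⊔ E c).div_mem ((adj k z ⊔ E c).sub_mem huz hzz)
        ((adj k z ⊔ E c).sub_mem (hkl hck) (hkl hck'))
    have hxx : x ∈ adj k z ⊔ E c := by
      have : x = u - c * y := by rw [hu]; ring
      rw [this]
      exact (adj k z ⊔ E c).sub_mem huz ((adj k z ⊔ E c).mul_mem (hkl hck) hyy)
    exact adj_le (adj_le hkl hxx) hyy
  have hlA : k ≤ adj k z := le_adj k z
  have hlB : k ≤ E c := (le_adj k u).trans (le_rac _)
  -- `u` is not algebraic over `k(z)`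
  have hunalg : ¬ IsAlgebraic (adj k z) u := by
    intro hua
    have hmem : ∀ w, w ∈ adj k z → w ∈ rac (adj k z) := fun w hw => le_rac _ hw
    have hyr : y ∈ rac (adj k z) := by
      rw [hyeq]
      exact (rac (adj k z)).div_mem ((rac (adj k z)).sub_mem (mem_rac.2 hua)
        (hmem _ (mem_adj k z))) ((rac (adj k z)).sub_mem (hmem _ (hlA hck)) (hmem _ (hlA hck')))
    have hxr : x ∈ rac (adj k z) := by
      have : x = u - c * y := by rw [hu]; ring
      rw [this]
      exact (rac (adj k z)).sub_mem (mem_rac.2 hua)
        ((rac (adj k z)).mul_mem (hmem _ (hlA hck)) hyr)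
    have hxk : ¬ IsAlgebraic k x := fun h => hx (RAC_of_isAlgClosed k hk x h)
    have h1 : IsAlgebraic (adj k x) z := exchange hxk (mem_rac.1 hxr)
    have h2 : adj k z ≤ rac (adj k x) :=
      adj_le ((le_adj k x).trans (le_rac _)) (mem_rac.2 h1)
    have h3 : IsAlgebraic (rac (adj k x)) y := isAlgebraic_mono h2 (mem_rac.1 hyr)
    exact hy (isAlgebraic_rac h3)
  apply hcb'
  refine ⟨hnk c' hck', ?_⟩
  intro h hh
  have h1 : h ∈ E c' := mem_rac.2 hh
  have h2 : h ∈ adj k z ⊔ E c := hFle (hsub h1)
  exact rac_sup hk hlA hlB huE hunalg (fun b hb => mem_rac.1 hb) h2 hh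

end Vale.Agent.P019
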