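import Mathlib

/-!
# Extension of homomorphisms to places with values in an algebraically closed field
-/

namespace Vale.Agent.P019

set_option linter.style.haveILetI false

/-- A finite type algebra over a field has a point in any algebraically closed extension. -/
theorem exists_algHom_of_finiteType (Q T C : Type*) [Field Q] [CommRing T] [Nontrivial T]
    [Algebra Q T] [Algebra.FiniteType Q T] [Field C] [Algebra Q C] [IsAlgClosed C] :
    Nonempty (T →ₐ[Q] C) := by
  obtain ⟨M, hM⟩ := Ideal.exists_maximal T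
  letI : Field (T ⧸ M) := Ideal.Quotient.field M
  haveI : Algebra.FiniteType Q (T ⧸ M) :=
    Algebra.FiniteType.of_surjective (Ideal.Quotient.mkₐ Q M) (Ideal.Quotient.mkₐ_surjective Q M)
  haveI : Module.Finite Q (T ⧸ M) := finite_of_finite_type_of_isJacobsonRing Q (T ⧸ M)
  haveI : Algebra.IsAlgebraic Q (T ⧸ M) := Algebra.IsAlgebraic.of_finite Q (T ⧸ M)
  exact ⟨(IsAlgClosed.lift : (T ⧸ M) →ₐ[Q] C).comp (Ideal.Quotient.mkₐ Q M)⟩

section

variable {F C : Type*} [Field F] [Field C]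

/-- graphs of partially defined homomorphisms. -/
def IsGr (G : Subring (F × C)) : Prop := ∀ c : C, ((0 : F), c) ∈ G → c = 0

theorem IsGr.unique {G : Subring (F × C)} (hG : IsGr G) {x : F} {c d : C}
    (hc : (x, c) ∈ G) (hd : (x, d) ∈ G) : c = d := by
  have h := G.sub_mem hc hd
  rw [Prod.mk_sub_mk, sub_self] at h
  exact sub_eq_zero.1 (hG _ h)

/-- localization step. -/
theorem isGr_inv {G : Subring (F × C)} (hG : Maximal (fun G : Subring (F × C) => IsGr G) G)
    {y : F} {c : C} (hy : (y, c) ∈ G) (hc : c ≠ 0) : (y⁻¹, c⁻¹) ∈ G := by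
  have hy0 : y ≠ 0 := by
    rintro rfl
    exact hc (hG.1 _ hy)
  have hpow : ∀ n : ℕ, (y ^ n, c ^ n) ∈ G := fun n => by
    have := G.pow_mem hy n
    rwa [Prod.pow_mk] at this
  let G' : Subring (F × C) :=
    { carrier := {p | ∃ (n : ℕ) (a : F) (d : C), (a, d) ∈ G ∧ p = (a / y ^ n, d / c ^ n)}
      mul_mem' := by
        rintro _ _ ⟨n, a, d, h, rfl⟩ ⟨m, b, e, h', rfl⟩
        refine ⟨n + m, a * b, d * e, by simpa using G.mul_mem h h', ?_⟩
        rw [Prod.mk_mul_mk, pow_add, pow_add, div_mul_div_comm, div_mul_div_comm]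
      one_mem' := ⟨0, 1, 1, G.one_mem, by simp; rfl⟩
      add_mem' := by
        rintro _ _ ⟨n, a, d, h, rfl⟩ ⟨m, b, e, h', rfl⟩
        refine ⟨n + m, a * y ^ m + y ^ n * b, d * c ^ m + c ^ n * e, ?_, ?_⟩
        · simpa using G.add_mem (G.mul_mem h (hpow m)) (G.mul_mem (hpow n) h')
        · rw [Prod.mk_add_mk, pow_add, pow_add, div_add_div _ _ (pow_ne_zero n hy0)
            (pow_ne_zero m hy0), div_add_div _ _ (pow_ne_zero n hc) (pow_ne_zero m hc)]
      zero_mem' := ⟨0, 0, 0, G.zero_mem, by simp; rfl⟩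
      neg_mem' := by
        rintro _ ⟨n, a, d, h, rfl⟩
        exact ⟨n, -a, -d, by simpa using G.neg_mem h, by simp [neg_div]⟩ }
  have hle : G ≤ G' := by
    rintro ⟨a, d⟩ h
    exact ⟨0, a, d, h, by simp⟩
  have hG' : IsGr G' := by
    rintro e ⟨n, a, d, h, he⟩
    rw [Prod.mk.injEq] at he
    have ha : a = 0 := by
      have := he.1.symm
      rw [div_eq_zero_iff] at this
      exact this.resolve_right (pow_ne_zero n hy0)
    subst ha
    rw [he.2, hG.1 _ h, zero_div]
  have := hG.2 hG' hle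
  exact this ⟨1, 1, 1, G.one_mem, by simp⟩

/-- **Extension theorem for places.** -/
theorem exists_place [IsAlgClosed C] (A : Subring F) (φ : A →+* C) :
    ∃ (O : ValuationSubring F) (ψ : O →+* C),
      (∀ (a : F) (h : a ∈ A), ∃ h' : a ∈ O, ψ ⟨a, h'⟩ = φ ⟨a, h⟩) ∧
      (∀ x : O, ψ x = 0 ↔ O.valuation (x : F) < 1) := by
  classical
  -- the initial graph
  let G₀ : Subring (F × C) := (RingHom.prod A.subtype φ).range
  have hG₀ : IsGr G₀ := by
    rintro c ⟨a, ha⟩
    rw [RingHom.prod_apply, Prod.mk.injEq] at ha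
    have : a = 0 := Subtype.ext ha.1
    rw [← ha.2, this, map_zero]
  obtain ⟨G, hle, hG⟩ : ∃ G, G₀ ≤ G ∧ Maximal (fun G : Subring (F × C) => IsGr G) G := by
    refine zorn_le_nonempty₀ {G : Subring (F × C) | IsGr G} ?_ G₀ hG₀
    intro c hc hch y hy
    refine ⟨sSup c, ?_, fun z hz => le_sSup hz⟩
    intro d hd
    rw [Subring.mem_sSup_of_directedOn ⟨y, hy⟩ hch.directedOn] at hd
    obtain ⟨s, hs, hd⟩ := hd
    exact hc hs _ hd
  -- the domain
  let p : G →+* F := (RingHom.fst F C).comp G.subtype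
  have hp : Function.Injective p := by
    intro ⟨⟨x, c⟩, hx⟩ ⟨⟨y, d⟩, hy⟩ hxy
    have hxy' : x = y := hxy
    subst hxy'
    exact Subtype.ext (Prod.ext rfl (hG.1.unique hx hy))
  let R : Subring F := p.range
  let e : G ≃+* R := RingEquiv.ofBijective p.rangeRestrict
    ⟨fun a b h => hp (congrArg Subtype.val h), p.rangeRestrict_surjective⟩
  let ψ : R →+* C := ((RingHom.snd F C).comp G.subtype).comp e.symm.toRingHom
  have hψ : ∀ (x : F) (hx : x ∈ R), (x, ψ ⟨x, hx⟩) ∈ G := by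
    intro x hx
    have h1 : p (e.symm ⟨x, hx⟩) = x := by
      have := congrArg Subtype.val (e.apply_symm_apply ⟨x, hx⟩)
      exact this
    have h2 : ((e.symm ⟨x, hx⟩ : G) : F × C) = (x, ψ ⟨x, hx⟩) := Prod.ext h1 rfl
    rw [← h2]
    exact (e.symm ⟨x, hx⟩).2
  have hψ' : ∀ (x : F) (c : C) (h : (x, c) ∈ G), ∃ hx : x ∈ R, ψ ⟨x, hx⟩ = c := by
    intro x c h
    have hx : x ∈ R := ⟨⟨(x, c), h⟩, rfl⟩
    exact ⟨hx, hG.1.unique (hψ x hx) h⟩
  -- inverses
  have hinv : ∀ (x : F) (hx : x ∈ R), ψ ⟨x, hx⟩ ≠ 0 → x⁻¹ ∈ R := by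
    intro x hx h
    obtain ⟨h', -⟩ := hψ' _ _ (isGr_inv hG (hψ x hx) h)
    exact h'
  -- a dominating valuation ring
  have hI : RingHom.ker ψ ≠ ⊤ := RingHom.ker_ne_top ψ
  obtain ⟨B, hRB, hIB⟩ := Ideal.image_subset_nonunits_valuationSubring (RingHom.ker ψ) hI
  let j : R →+* IsLocalRing.ResidueField B :=
    (IsLocalRing.residue B).comp (Subring.inclusion hRB)
  have hj : ∀ x : R, j x = 0 ↔ ψ x = 0 := by
    intro x
    change IsLocalRing.residue B (Subring.inclusion hRB x) = 0 ↔ _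
    rw [IsLocalRing.residue_eq_zero_iff]
    constructor
    · intro h
      by_contra hne
      have hx0 : (x : F) ≠ 0 := by
        intro h0
        have : x = 0 := Subtype.ext h0
        rw [this, map_zero] at hne
        exact hne rfl
      have h1 := hinv x x.2 hne
      rw [IsLocalRing.mem_maximalIdeal, mem_nonunits_iff] at h
      apply h
      refine IsUnit.of_mul_eq_one (⟨(x : F)⁻¹, hRB h1⟩ : B) ?_
      exact Subtype.ext (mul_inv_cancel₀ hx0)
    · intro h
      have h1 : (x : F) ∈ B.nonunits := hIB ⟨x, h, rfl⟩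
      have h2 := ValuationSubring.mem_nonunits_iff_exists_mem_maximalIdeal.1 h1
      obtain ⟨h3, h4⟩ := h2
      exact h4
  let Q := R ⧸ RingHom.ker ψ
  haveI hmax : (RingHom.ker ψ).IsMaximal := by
    rw [Ideal.isMaximal_iff]
    refine ⟨?_, ?_⟩
    · rw [RingHom.mem_ker, map_one]; exact one_ne_zero
    · intro J x hJ hx hxJ
      rw [RingHom.mem_ker] at hx
      have hx0 : (x : F) ≠ 0 := by
        intro h0
        have : x = 0 := Subtype.ext h0
        rw [this, map_zero] at hx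
        exact hx rfl
      have h1 := hinv x x.2 hx
      have : (1 : R) = (⟨(x : F)⁻¹, h1⟩ : R) * x := Subtype.ext (inv_mul_cancel₀ hx0).symm
      rw [this]
      exact J.mul_mem_left _ hxJ
  letI : Field Q := Ideal.Quotient.field _
  let iC : Q →+* C := Ideal.Quotient.lift _ ψ (fun a ha => ha)
  let iB : Q →+* IsLocalRing.ResidueField B :=
    Ideal.Quotient.lift _ j (fun a ha => (hj a).2 ha)
  letI : Algebra Q C := iC.toAlgebra
  letI : Algebra Q (IsLocalRing.ResidueField B) := iB.toAlgebra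
  -- show `B ≤ R`
  have hBR : B.toSubring ≤ R := by
    intro x hx
    let T : Subalgebra Q (IsLocalRing.ResidueField B) :=
      Algebra.adjoin Q {IsLocalRing.residue B ⟨x, hx⟩}
    haveI : Algebra.FiniteType Q T :=
      (Subalgebra.fg_iff_finiteType T).1
        ⟨{IsLocalRing.residue B ⟨x, hx⟩}, by rw [Finset.coe_singleton]⟩
    obtain ⟨τ⟩ := exists_algHom_of_finiteType Q T C
    let U : Subring B := T.toSubring.comap (IsLocalRing.residue B)
    let r : U →+* T :=
      RingHom.codRestrict ((IsLocalRing.residue B).comp U.subtype) T.toSubring (fun u => u.2)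
    let q : U →+* F × C := RingHom.prod (B.subtype.comp U.subtype) (τ.toRingHom.comp r)
    have hq : IsGr q.range := by
      rintro c ⟨u, hu⟩
      rw [RingHom.prod_apply, Prod.mk.injEq] at hu
      have : u = 0 := Subtype.ext (Subtype.ext hu.1)
      rw [← hu.2, this, map_zero]
    have hGq : G ≤ q.range := by
      rintro ⟨a, c⟩ hac
      obtain ⟨haR, hc⟩ := hψ' a c hac
      have haU : (⟨a, hRB haR⟩ : B) ∈ U := by
        change IsLocalRing.residue B ⟨a, hRB haR⟩ ∈ T
        have : IsLocalRing.residue B ⟨a, hRB haR⟩ = algebraMap Q _ (Ideal.Quotient.mk _ ⟨a, haR⟩) :=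
          rfl
        rw [this]
        exact T.algebraMap_mem _
      refine ⟨⟨⟨a, hRB haR⟩, haU⟩, ?_⟩
      rw [RingHom.prod_apply]
      refine Prod.ext rfl ?_
      have h1 : r ⟨⟨a, hRB haR⟩, haU⟩ = algebraMap Q T (Ideal.Quotient.mk _ ⟨a, haR⟩) :=
        Subtype.ext rfl
      change τ (r ⟨⟨a, hRB haR⟩, haU⟩) = c
      rw [h1, AlgHom.commutes]
      exact hc
    have hle' := hG.2 hq hGq
    have hxU : (⟨x, hx⟩ : B) ∈ U := by
      change IsLocalRing.residue B ⟨x, hx⟩ ∈ T
      exact Algebra.subset_adjoin (Set.mem_singleton _)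
    have hmem : q ⟨⟨x, hx⟩, hxU⟩ ∈ G := hle' ⟨_, rfl⟩
    obtain ⟨h1, -⟩ := hψ' x _ hmem
    exact h1
  refine ⟨B, ψ.comp (Subring.inclusion hBR), ?_, ?_⟩
  · intro a ha
    have hmem : (a, φ ⟨a, ha⟩) ∈ G := hle ⟨⟨a, ha⟩, rfl⟩
    obtain ⟨haR, hval⟩ := hψ' _ _ hmem
    exact ⟨hRB haR, hval⟩
  · intro x
    have h1 : j (Subring.inclusion hBR x) = IsLocalRing.residue B x := rfl
    change ψ (Subring.inclusion hBR x) = 0 ↔ _
    rw [← hj, h1, IsLocalRing.residue_eq_zero_iff, ValuationSubring.valuation_lt_one_iff]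

end

end Vale.Agent.P019
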