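import Vale.Agent.P019.PlCore
import Vale.Agent.P019.Place

/-!
# Linear disjointness and specialization of constants
-/

namespace Vale.Agent.P019

set_option linter.style.haveILetI false

open Polynomial

open scoped TensorProduct

section helpers

variable {K Ω : Type*} [Field K] [Field Ω]

theorem Pl.ev_sum' (P : Pl K Ω) {ι : Type*} (s : Finset ι) (f : ι → K)
    (h : ∀ i ∈ s, f i ∈ P.O) :
    ∑ i ∈ s, f i ∈ P.O ∧ P.ev (∑ i ∈ s, f i) = ∑ i ∈ s, P.ev (f i) := by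
  classical
  induction s using Finset.induction_on with
  | empty => exact ⟨by rw [Finset.sum_empty]; exact P.O.zero_mem, by simp [P.ev_zero]⟩
  | insert a s ha ih =>
    have h1 := ih (fun i hi => h i (Finset.mem_insert_of_mem hi))
    have h2 := h a (Finset.mem_insert_self a s)
    rw [Finset.sum_insert ha, Finset.sum_insert ha]
    exact ⟨P.O.add_mem _ _ h2 h1.1, by rw [P.ev_add h2 h1.1, h1.2]⟩

theorem Pl.U_of_pow (P : Pl K Ω) {x : K} {n : ℕ} (hn : n ≠ 0) (h : P.U (x ^ n)) : P.U x := by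
  rw [P.U_iff] at h ⊢
  rw [map_pow] at h
  rcases lt_trichotomy (P.O.valuation x) 1 with h1 | h1 | h1
  · exact absurd h (pow_lt_one₀ zero_le h1 hn).ne
  · exact h1
  · exact absurd h (one_lt_pow₀ h1 hn).ne'

theorem Pl.inv_of_notMem (P : Pl K Ω) {x : K} (h : x ∉ P.O) : x⁻¹ ∈ P.O ∧ P.ev x⁻¹ = 0 := by
  have h1 : P.O.valuation x⁻¹ < 1 := by
    rw [map_inv₀]
    rw [← P.O.valuation_le_one_iff, not_le] at h
    exact inv_lt_one_of_one_lt₀ h
  exact ⟨P.mem_of_lt h1, P.ev_of_lt h1⟩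

theorem Pl.notMem_of_inv (P : Pl K Ω) {x : K} (hx : x ≠ 0) (h : x⁻¹ ∈ P.O)
    (h' : P.ev x⁻¹ = 0) : x ∉ P.O := by
  intro hO
  have h1 := P.ev_mul hO h
  rw [mul_inv_cancel₀ hx, P.ev_one, h', mul_zero] at h1
  exact one_ne_zero h1

/-- places from graphs. -/
theorem exists_place_graph {C : Type*} [Field C] [IsAlgClosed C] (G : Subring (K × C))
    (hG : IsGr G) : ∃ P : Pl K C, ∀ x c, (x, c) ∈ G → x ∈ P.O ∧ P.ev x = c := by
  let p : G →+* K := (RingHom.fst K C).comp G.subtype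
  have hp : Function.Injective p := by
    intro ⟨⟨x, c⟩, hx⟩ ⟨⟨y, d⟩, hy⟩ hxy
    have hxy' : x = y := hxy
    subst hxy'
    exact Subtype.ext (Prod.ext rfl (hG.unique hx hy))
  let e : G ≃+* p.range := RingEquiv.ofBijective p.rangeRestrict
    ⟨fun a b h => hp (congrArg Subtype.val h), p.rangeRestrict_surjective⟩
  let φ : p.range →+* C := ((RingHom.snd K C).comp G.subtype).comp e.symm.toRingHom
  obtain ⟨O, ψ, h1, h2⟩ := exists_place p.range φ
  refine ⟨⟨O, ψ, h2⟩, ?_⟩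
  intro x c hxc
  have hx : x ∈ p.range := ⟨⟨(x, c), hxc⟩, rfl⟩
  obtain ⟨h3, h4⟩ := h1 x hx
  refine ⟨h3, ?_⟩
  rw [Pl.ev_of_mem _ h3]
  refine h4.trans ?_
  have h5 : e.symm ⟨x, hx⟩ = ⟨(x, c), hxc⟩ := by
    rw [RingEquiv.symm_apply_eq]
    rfl
  change ((e.symm ⟨x, hx⟩ : G) : K × C).2 = c
  rw [h5]

/-- restriction of the values of a place. -/
theorem exists_place_descend [Algebra K Ω] (P0 : Pl K Ω)
    (h : ∀ x ∈ P0.O, ∃ y : K, P0.ev x = algebraMap K Ω y) :
    ∃ P : Pl K K, P.O = P0.O ∧ ∀ x, algebraMap K Ω (P.ev x) = P0.ev x := by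
  have hmem : ∀ x : P0.O, P0.ψ x ∈ (algebraMap K Ω).range := by
    intro x
    obtain ⟨y, hy⟩ := h x x.2
    rw [P0.ev_of_mem x.2] at hy
    exact ⟨y, hy.symm⟩
  let e : K ≃+* (algebraMap K Ω).range := RingEquiv.ofBijective (algebraMap K Ω).rangeRestrict
    ⟨fun a b h => (algebraMap K Ω).injective (congrArg Subtype.val h),
      (algebraMap K Ω).rangeRestrict_surjective⟩
  let ψ : P0.O →+* K := e.symm.toRingHom.comp (P0.ψ.codRestrict (algebraMap K Ω).range hmem)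
  have hψ : ∀ x : P0.O, algebraMap K Ω (ψ x) = P0.ψ x := by
    intro x
    have h1 : e (ψ x) = ⟨P0.ψ x, hmem x⟩ := by
      change e (e.symm _) = _
      rw [RingEquiv.apply_symm_apply]
      rfl
    exact congrArg Subtype.val h1
  let P : Pl K K := ⟨P0.O, ψ, by
    intro x
    rw [← P0.ker, ← hψ]
    exact (map_eq_zero (algebraMap K Ω)).symm⟩
  refine ⟨P, rfl, ?_⟩
  intro x
  by_cases hx : x ∈ P0.O
  · have hx' : x ∈ P.O := hx
    rw [P.ev_of_mem hx', P0.ev_of_mem hx]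
    exact hψ ⟨x, hx⟩
  · have hx' : x ∉ P.O := hx
    simp [Pl.ev, hx, hx']

end helpers

namespace Mdl

variable {K : Type*} [Field K] [CharZero K] (M : Mdl K)

omit [CharZero K] in
theorem mem_of_mem_F {N : Subfield K} (hN : M.Sub N) {a : K} (ha : a ∈ M.k) (h : a ∈ M.F N) :
    a ∈ N := M.free N hN.rac hN.ge hN.le a ha (isAlgebraic_of_mem h)

omit [CharZero K] in
/-- S31 the function field over smaller constants is finitely generated over them. -/
theorem fg_F {N : Subfield K} (hN : M.Sub N) : FG N (M.F N) := by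
  obtain ⟨S, hS⟩ := M.fg
  refine ⟨S, ?_⟩
  unfold F
  rw [hS]
  apply le_antisymm
  · exact sup_le (sup_le (hN.ge.trans le_sup_left) le_sup_right) le_sup_left
  · exact sup_le le_sup_right (le_sup_right.trans le_sup_left)

omit [CharZero K] in
theorem lin_step {N : Subfield K} (hN : M.Sub N) {z : K} (hz : z ∈ M.k) (hzN : z ∉ N) {n : ℕ}
    (g : Fin n → K) (hg : ∀ i, g i ∈ M.F N)
    (hli : ∀ c : Fin n → K, (∀ i, c i ∈ N) → ∑ i, c i * g i = 0 → ∀ i, c i = 0)
    (c : Fin n → K) (hc : ∀ i, c i ∈ rac (adj N z)) (h : ∑ i, c i * g i = 0) :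
    ∀ i, c i = 0 := by
  by_contra hcon
  push Not at hcon
  obtain ⟨i0, hi0⟩ := hcon
  have hzA : ¬ IsAlgebraic (M.F N) z := fun h => hzN (M.free N hN.rac hN.ge hN.le z hz h)
  obtain ⟨P, hP1, hP2, hP3, hP4⟩ := exists_one (Ω := AlgebraicClosure K) hN.isAlgClosed
    (Sub.le_F N) hzA N.zero_mem
  haveI : Nonempty (Fin n) := ⟨i0⟩
  obtain ⟨j, hj⟩ := Finite.exists_max (fun i => P.O.valuation (c i))
  have hj0 : c j ≠ 0 := by
    intro h0
    have h1 := hj i0
    simp only [h0, map_zero] at h1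
    exact hi0 ((map_eq_zero _).1 (le_antisymm h1 zero_le))
  have hO : ∀ i, c i / c j ∈ P.O := by
    intro i
    rw [← P.O.valuation_le_one_iff, map_div₀]
    exact div_le_one_of_le₀ (hj i) zero_le
  have hr : ∀ i, ∃ d ∈ N, P.ev (c i / c j) = algebraMap K (AlgebraicClosure K) d := by
    intro i
    apply hP4 _ (hO i)
    exact mem_rac.1 ((rac (adj N z)).div_mem (hc i) (hc j))
  choose d hd hd' using hr
  have hs : ∑ i, (c i / c j) * g i = 0 := by
    have h1 : ∑ i, (c i / c j) * g i = (∑ i, c i * g i) / c j := by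
      rw [Finset.sum_div]
      refine Finset.sum_congr rfl (fun i _ => ?_)
      ring
    rw [h1, h, zero_div]
  have hev := (P.ev_sum' Finset.univ (fun i => (c i / c j) * g i)
    (fun i _ => P.O.mul_mem _ _ (hO i) (hP1 _ (hg i)).1)).2
  rw [hs, P.ev_zero] at hev
  have hsum : ∑ i, d i * g i = 0 := by
    apply (algebraMap K (AlgebraicClosure K)).injective
    rw [map_sum, map_zero, hev]
    refine Finset.sum_congr rfl (fun i _ => ?_)
    rw [P.ev_mul (hO i) (hP1 _ (hg i)).1, hd' i, (hP1 _ (hg i)).2, map_mul]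
  have hdj := hli d hd hsum j
  have h2 := hd' j
  rw [div_self hj0, P.ev_one, hdj, map_zero] at h2
  exact one_ne_zero h2

omit [CharZero K] in
theorem lin_ext {N : Subfield K} (hN : M.Sub N) {n : ℕ} (g : Fin n → K)
    (hg : ∀ i, g i ∈ M.F N)
    (hli : ∀ c : Fin n → K, (∀ i, c i ∈ N) → ∑ i, c i * g i = 0 → ∀ i, c i = 0)
    (T : Finset K) (hT : ∀ c ∈ T, c ∈ M.k) :
    ∃ N' : Subfield K, M.Sub N' ∧ N ≤ N' ∧ (∀ c ∈ T, c ∈ N') ∧
      ∀ c : Fin n → K, (∀ i, c i ∈ N') → ∑ i, c i * g i = 0 → ∀ i, c i = 0 := by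
  classical
  induction T using Finset.induction_on with
  | empty => exact ⟨N, hN, le_rfl, by simp, hli⟩
  | insert a T ha ih =>
    obtain ⟨N', h1, h2, h3, h4⟩ := ih (fun c hc => hT c (Finset.mem_insert_of_mem hc))
    by_cases haN : a ∈ N'
    · refine ⟨N', h1, h2, ?_, h4⟩
      intro c hc
      rcases Finset.mem_insert.1 hc with rfl | hc
      · exact haN
      · exact h3 c hc
    · have hak := hT a (Finset.mem_insert_self a T)
      refine ⟨rac (adj N' a), sub_rac (h1.ge.trans (le_adj N' a)) (adj_le h1.le hak),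
        h2.trans ((le_adj N' a).trans (le_rac _)), ?_, ?_⟩
      · intro c hc
        rcases Finset.mem_insert.1 hc with rfl | hc
        · exact le_rac _ (mem_adj N' _)
        · exact le_rac _ (le_adj N' a (h3 c hc))
      · exact M.lin_step h1 hak haN g (fun i => F_mono h2 (hg i)) h4

omit [CharZero K] in
/-- S32 linear disjointness. -/
theorem lin_disj {N : Subfield K} (hN : M.Sub N) {n : ℕ} (g : Fin n → K)
    (hg : ∀ i, g i ∈ M.F N)
    (hli : ∀ c : Fin n → K, (∀ i, c i ∈ N) → ∑ i, c i * g i = 0 → ∀ i, c i = 0)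
    (c : Fin n → K) (hc : ∀ i, c i ∈ M.k) (h : ∑ i, c i * g i = 0) : ∀ i, c i = 0 := by
  classical
  obtain ⟨N', h1, h2, h3, h4⟩ := M.lin_ext hN g hg hli (Finset.univ.image c) (by
    intro x hx
    obtain ⟨i, -, rfl⟩ := Finset.mem_image.1 hx
    exact hc i)
  exact h4 c (fun i => h3 _ (Finset.mem_image_of_mem c (Finset.mem_univ i))) h

omit [CharZero K] in
/-- a specialization of the constants preserves linear relations. -/
theorem spec_wd {N : Subfield K} (hN : M.Sub N) (P1 : Pl K N)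
    (h1 : ∀ c : N, (c : K) ∈ P1.O ∧ P1.ev (c : K) = c) {n : ℕ} :
    ∀ (g c : Fin n → K), (∀ i, g i ∈ M.F N) → (∀ i, c i ∈ M.k ∧ c i ∈ P1.O) →
      ∑ i, c i * g i = 0 → ∑ i, (P1.ev (c i) : K) * g i = 0 := by
  induction n with
  | zero => intro g c _ _ _; simp
  | succ n ih =>
    intro g c hg hc h
    by_cases hall : ∀ i, c i = 0
    · have h2 : ∀ i, (P1.ev (c i) : K) * g i = 0 := by
        intro i
        rw [hall i, P1.ev_zero]
        simp
      simp [h2]
    · have hex : ∃ d : Fin (n + 1) → K, (∀ i, d i ∈ N) ∧ ∑ i, d i * g i = 0 ∧ ∃ j, d j ≠ 0 := by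
        by_contra hcon
        apply hall
        apply M.lin_disj hN g hg _ c (fun i => (hc i).1) h
        intro d hd hs i
        by_contra hi
        exact hcon ⟨d, hd, hs, i, hi⟩
      obtain ⟨d, hd, hds, j, hj⟩ := hex
      let d' : Fin n → N := fun i => ⟨d (j.succAbove i), hd _⟩ / ⟨d j, hd j⟩
      have hd' : ∀ i, ((d' i : N) : K) = d (j.succAbove i) / d j := fun i => rfl
      rw [Fin.sum_univ_succAbove _ j] at h hds ⊢
      have hgj : g j = - ∑ i, (d' i : K) * g (j.succAbove i) := by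
        have h3 : ∑ i, (d' i : K) * g (j.succAbove i) =
            (∑ i, d (j.succAbove i) * g (j.succAbove i)) / d j := by
          rw [Finset.sum_div]
          refine Finset.sum_congr rfl (fun i _ => ?_)
          rw [hd']
          ring
        rw [h3]
        field_simp
        linear_combination hds
      have hcO : ∀ i, c (j.succAbove i) - (d' i : K) * c j ∈ P1.O := by
        intro i
        exact sub_mem (hc _).2 (P1.O.mul_mem _ _ (h1 (d' i)).1 (hc j).2)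
      have h4 := ih (fun i => g (j.succAbove i)) (fun i => c (j.succAbove i) - (d' i : K) * c j)
        (fun i => hg _)
        (fun i => ⟨sub_mem (hc _).1 (M.k.mul_mem (hN.le (d' i).2) (hc j).1), hcO i⟩) (by
          have h5 : ∑ i, (c (j.succAbove i) - (d' i : K) * c j) * g (j.succAbove i) =
              ∑ i, c (j.succAbove i) * g (j.succAbove i) -
                c j * ∑ i, (d' i : K) * g (j.succAbove i) := by
            rw [Finset.mul_sum, ← Finset.sum_sub_distrib]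
            refine Finset.sum_congr rfl (fun i _ => ?_)
            ring
          rw [h5]
          linear_combination h - c j * hgj)
      have h6 : ∀ i, (P1.ev (c (j.succAbove i) - (d' i : K) * c j) : K) =
          (P1.ev (c (j.succAbove i)) : K) - (d' i : K) * (P1.ev (c j) : K) := by
        intro i
        rw [P1.ev_sub (hc _).2 (P1.O.mul_mem _ _ (h1 (d' i)).1 (hc j).2),
          P1.ev_mul (h1 (d' i)).1 (hc j).2, (h1 (d' i)).2]
        rfl
      simp only [h6] at h4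
      have h7 : ∑ i, ((P1.ev (c (j.succAbove i)) : K) - (d' i : K) * (P1.ev (c j) : K)) *
          g (j.succAbove i) = ∑ i, (P1.ev (c (j.succAbove i)) : K) * g (j.succAbove i) -
            (P1.ev (c j) : K) * ∑ i, (d' i : K) * g (j.succAbove i) := by
        rw [Finset.mul_sum, ← Finset.sum_sub_distrib]
        refine Finset.sum_congr rfl (fun i _ => ?_)
        ring
      rw [h7] at h4
      linear_combination h4 + (P1.ev (c j) : K) * hgj

/-- the graph of a specialization. -/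
noncomputable def specGraph (N : Subfield K) (P1 : Pl K N) : Subring (K × AlgebraicClosure K) :=
  Subring.closure {p | ∃ g ∈ M.F N, ∃ c ∈ M.k, c ∈ P1.O ∧
    p = (c * g, algebraMap K (AlgebraicClosure K) ((P1.ev c : K) * g))}

omit [CharZero K] in
theorem specGraph_mem {N : Subfield K} (P1 : Pl K N) {p : K × AlgebraicClosure K}
    (hp : p ∈ M.specGraph N P1) :
    ∃ (n : ℕ) (g c : Fin n → K), (∀ i, g i ∈ M.F N) ∧ (∀ i, c i ∈ M.k ∧ c i ∈ P1.O) ∧
      p = (∑ i, c i * g i,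
        algebraMap K (AlgebraicClosure K) (∑ i, (P1.ev (c i) : K) * g i)) := by
  unfold specGraph at hp
  rw [Subring.mem_closure_iff] at hp
  induction hp using AddSubgroup.closure_induction with
  | mem x hx =>
    have h1 : ∃ g ∈ M.F N, ∃ c ∈ M.k, c ∈ P1.O ∧
        x = (c * g, algebraMap K (AlgebraicClosure K) ((P1.ev c : K) * g)) := by
      induction hx using Submonoid.closure_induction with
      | mem x hx => exact hx
      | one =>
        refine ⟨1, (M.F N).one_mem, 1, M.k.one_mem, P1.O.one_mem, ?_⟩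
        rw [P1.ev_one]
        simp
        rfl
      | mul x y _ _ hx hy =>
        obtain ⟨g, hg, c, hc, hcO, rfl⟩ := hx
        obtain ⟨g', hg', c', hc', hcO', rfl⟩ := hy
        refine ⟨g * g', (M.F N).mul_mem hg hg', c * c', M.k.mul_mem hc hc',
          P1.O.mul_mem _ _ hcO hcO', ?_⟩
        rw [P1.ev_mul hcO hcO', Prod.mk_mul_mk, ← map_mul]
        refine Prod.ext ?_ ?_
        · change c * g * (c' * g') = c * c' * (g * g')
          ring
        · change algebraMap K _ _ = algebraMap K _ _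
          congr 1
          push_cast
          ring
    obtain ⟨g, hg, c, hc, hcO, rfl⟩ := h1
    exact ⟨1, fun _ => g, fun _ => c, fun _ => hg, fun _ => ⟨hc, hcO⟩, by simp⟩
  | zero => exact ⟨0, fun _ => 0, fun _ => 0, fun i => i.elim0, fun i => i.elim0, by simp; rfl⟩
  | add x y _ _ hx hy =>
    obtain ⟨n, g, c, hg, hc, rfl⟩ := hx
    obtain ⟨m, g', c', hg', hc', rfl⟩ := hy
    refine ⟨n + m, Fin.append g g', Fin.append c c', ?_, ?_, ?_⟩
    · intro i
      refine Fin.addCases (fun i => ?_) (fun i => ?_) i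
      · rw [Fin.append_left]; exact hg i
      · rw [Fin.append_right]; exact hg' i
    · intro i
      refine Fin.addCases (fun i => ?_) (fun i => ?_) i
      · rw [Fin.append_left]; exact hc i
      · rw [Fin.append_right]; exact hc' i
    · rw [Prod.mk_add_mk, ← map_add, Fin.sum_univ_add, Fin.sum_univ_add]
      simp only [Fin.append_left, Fin.append_right]
  | neg x _ hx =>
    obtain ⟨n, g, c, hg, hc, rfl⟩ := hx
    refine ⟨n, fun i => - g i, c, fun i => (M.F N).neg_mem (hg i), hc, ?_⟩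
    simp only [mul_neg, Finset.sum_neg_distrib, map_neg, Prod.neg_mk]

omit [CharZero K] in
/-- specialization of constants, general form. -/
theorem exists_spec {N : Subfield K} (hN : M.Sub N) (P1 : Pl K N)
    (h1 : ∀ c : N, (c : K) ∈ P1.O ∧ P1.ev (c : K) = c) :
    ∃ P : Pl K K, (∀ x ∈ M.F N, x ∈ P.O ∧ P.ev x = x) ∧ (∀ c ∈ M.k, c ∈ P.O → P.ev c ∈ N) ∧
      (∀ c ∈ M.k, c ∈ P1.O → c ∈ P.O ∧ P.ev c = (P1.ev c : K)) ∧
      (∀ x ∈ P.O, P.ev x ∈ M.F N) := by
  have hGr : IsGr (M.specGraph N P1) := by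
    intro c hc
    obtain ⟨n, g, d, hg, hd, he⟩ := M.specGraph_mem P1 hc
    rw [Prod.mk.injEq] at he
    rw [he.2, M.spec_wd hN P1 h1 g d hg hd he.1.symm, map_zero]
  obtain ⟨P0, hP0⟩ := exists_place_graph _ hGr
  have hF : ∀ x ∈ M.F N, x ∈ P0.O ∧ P0.ev x = algebraMap K (AlgebraicClosure K) x := by
    intro x hx
    apply hP0
    apply Subring.subset_closure
    refine ⟨x, hx, 1, M.k.one_mem, P1.O.one_mem, ?_⟩
    rw [P1.ev_one]
    simp
  have hk : ∀ c ∈ M.k, c ∈ P1.O → c ∈ P0.O ∧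
      P0.ev c = algebraMap K (AlgebraicClosure K) (P1.ev c : K) := by
    intro c hc hcO
    apply hP0
    apply Subring.subset_closure
    refine ⟨1, (M.F N).one_mem, c, hc, hcO, ?_⟩
    simp
  have hk' : ∀ c ∈ M.k, c ∈ P0.O → c ∈ P1.O := by
    intro c hc hcO
    by_contra hcon
    have h2 := P1.inv_of_notMem hcon
    have h3 := hk c⁻¹ (M.k.inv_mem hc) h2.1
    rw [h2.2] at h3
    have hc0 : c ≠ 0 := by
      rintro rfl
      exact hcon P1.O.zero_mem
    exact P0.notMem_of_inv hc0 h3.1 (by rw [h3.2]; simp) hcO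
  have hres : ∀ x ∈ P0.O, ∃ y ∈ M.F N, P0.ev x = algebraMap K (AlgebraicClosure K) y := by
    intro x hx
    by_cases hx0 : x = 0
    · exact ⟨0, (M.F N).zero_mem, by rw [hx0, P0.ev_zero, map_zero]⟩
    obtain ⟨b, hb, hb0, hbU, a, ha, hab⟩ := P0.gauss (l := N) (A := M.F N) (B := M.k)
      (Sub.le_F N) hN.le (fun a ha => (hF a ha).1) (by
        intro b hb hbO
        refine ⟨(P1.ev b : K), (P1.ev b).2, ?_⟩
        rw [(hk b hb (hk' b hb hbO)).2, (hF _ (Sub.le_F N (P1.ev b).2)).2]) (z := x) (by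
        have : M.F N ⊔ M.k = ⊤ := by
          rw [eq_top_iff, ← M.sup]
          exact sup_le_sup_right (K0_le N) _
        rw [this]; exact Subfield.mem_top x) hx0
    by_cases hbO : b ∈ P0.O
    · have h2 := P0.ev_mul hbO hx
      have h3 : P0.ev b ≠ 0 := by
        intro h4
        rw [h4, zero_mul] at h2
        exact hbU.2 h2
      have h4 := (hk b hb (hk' b hb hbO)).2
      refine ⟨a / (P1.ev b : K), (M.F N).div_mem ha (Sub.le_F N (P1.ev b).2), ?_⟩
      rw [map_div₀, ← h4, ← (hF a ha).2, ← hab, h2]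
      field_simp
    · have h2 := P0.inv_of_notMem hbO
      refine ⟨0, (M.F N).zero_mem, ?_⟩
      have h3 : x = b⁻¹ * (b * x) := by field_simp
      rw [h3, P0.ev_mul h2.1 hbU.1, h2.2, zero_mul, map_zero]
  obtain ⟨P, hPO, hPev⟩ := exists_place_descend P0 (fun x hx => by
    obtain ⟨y, -, h⟩ := hres x hx
    exact ⟨y, h⟩)
  have hinj := (algebraMap K (AlgebraicClosure K)).injective
  refine ⟨P, ?_, ?_, ?_, ?_⟩
  · intro x hx
    refine ⟨by rw [hPO]; exact (hF x hx).1, hinj ?_⟩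
    rw [hPev, (hF x hx).2]
  · intro c hc hcO
    rw [hPO] at hcO
    have h2 : P.ev c = (P1.ev c : K) := hinj (by rw [hPev, (hk c hc (hk' c hc hcO)).2])
    rw [h2]
    exact (P1.ev c).2
  · intro c hc hcO
    refine ⟨by rw [hPO]; exact (hk c hc hcO).1, hinj ?_⟩
    rw [hPev, (hk c hc hcO).2]
  · intro x hx
    rw [hPO] at hx
    obtain ⟨y, hy, h⟩ := hres x hx
    have h2 : P.ev x = y := hinj (by rw [hPev, h])
    rw [h2]
    exact hy

omit [CharZero K] in
/-- S33 specialization of constants. -/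
theorem exists_sp {N : Subfield K} (hN : M.Sub N) {z : K} (hz : z ∈ M.k) (hzN : z ∉ N) :
    ∃ P : Pl K K, (∀ x ∈ M.F N, x ∈ P.O ∧ P.ev x = x) ∧ (∀ c ∈ M.k, c ∈ P.O → P.ev c ∈ N) ∧
      (z ∈ P.O ∧ P.ev z = 0) ∧ (∀ x ∈ P.O, P.ev x ∈ M.F N) := by
  haveI := hN.isAlgClosed
  have hzt : ¬ IsAlgebraic N z := fun h => hzN (hN.rac z h)
  let G : Subring (K × N) :=
    (RingHom.prod (aeval z : N[X] →ₐ[N] K).toRingHom (Polynomial.evalRingHom (0 : N))).range
  have hG : IsGr G := by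
    rintro c ⟨p, hp⟩
    rw [RingHom.prod_apply, Prod.mk.injEq] at hp
    have h1 : p = 0 := by
      by_contra hne
      exact hzt ⟨p, hne, hp.1⟩
    rw [← hp.2, h1, map_zero]
  obtain ⟨P1, hP1⟩ := exists_place_graph G hG
  have h1 : ∀ c : N, (c : K) ∈ P1.O ∧ P1.ev (c : K) = c := by
    intro c
    apply hP1
    refine ⟨C c, ?_⟩
    rw [RingHom.prod_apply]
    refine Prod.ext ?_ ?_
    · change aeval z (C c) = (c : K)
      rw [aeval_C]
      rfl
    · change eval 0 (C c) = c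
      rw [eval_C]
  have h2 : z ∈ P1.O ∧ P1.ev z = 0 := by
    apply hP1
    refine ⟨X, ?_⟩
    rw [RingHom.prod_apply]
    refine Prod.ext ?_ ?_
    · change aeval z X = z
      rw [aeval_X]
    · change eval 0 X = 0
      rw [eval_X]
  obtain ⟨P, hP1', hP2, hP3, hP4⟩ := M.exists_spec hN P1 h1
  refine ⟨P, hP1', hP2, ?_, hP4⟩
  have h3 := hP3 z hz h2.1
  rw [h2.2] at h3
  exact ⟨h3.1, by rw [h3.2]; rfl⟩

omit [CharZero K] in
/-- S33' specialization of constants, without a chosen constant. -/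
theorem exists_sp' {N : Subfield K} (hN : M.Sub N) :
    ∃ P : Pl K K, (∀ x ∈ M.F N, x ∈ P.O ∧ P.ev x = x) ∧ (∀ c ∈ M.k, c ∈ P.O → P.ev c ∈ N) ∧
      (∀ x ∈ P.O, P.ev x ∈ M.F N) := by
  haveI := hN.isAlgClosed
  let G : Subring (K × N) := (RingHom.prod (algebraMap N K) (RingHom.id N)).range
  have hG : IsGr G := by
    rintro c ⟨p, hp⟩
    rw [RingHom.prod_apply, Prod.mk.injEq] at hp
    have h1 : p = 0 := (algebraMap N K).injective (by rw [hp.1, map_zero])
    rw [← hp.2, h1, map_zero]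
  obtain ⟨P1, hP1⟩ := exists_place_graph G hG
  have h1 : ∀ c : N, (c : K) ∈ P1.O ∧ P1.ev (c : K) = c := by
    intro c
    apply hP1
    exact ⟨c, rfl⟩
  obtain ⟨P, hP1', hP2, hP3, hP4⟩ := M.exists_spec hN P1 h1
  exact ⟨P, hP1', hP2, hP4⟩

omit [CharZero K] in
/-- S34 -/
theorem RAC_F {N : Subfield K} (hN : M.Sub N) : RAC (M.F N) := by
  obtain ⟨P, hP1, -, hP3⟩ := M.exists_sp' hN
  intro z hz
  have hzO : z ∈ P.O := P.mem_of_isAlgebraic (M.F N) (fun x hx => (hP1 x hx).1) hz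
  have he := hP3 z hzO
  by_contra hcon
  have hw0 : z - P.ev z ≠ 0 := by
    intro h
    apply hcon
    rw [sub_eq_zero.1 h]
    exact he
  have hwalg : IsAlgebraic (M.F N) (z - P.ev z) :=
    hz.sub (isAlgebraic_of_mem he)
  have h1 : (z - P.ev z)⁻¹ ∈ P.O :=
    P.mem_of_isAlgebraic (M.F N) (fun x hx => (hP1 x hx).1) hwalg.inv
  have h2 : z - P.ev z ∈ P.O := sub_mem hzO (hP1 _ he).1
  have h3 : P.ev (z - P.ev z) = 0 := by
    rw [P.ev_sub hzO (hP1 _ he).1, (hP1 _ he).2, sub_self]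
  have h4 := P.ev_mul h2 h1
  rw [mul_inv_cancel₀ hw0, P.ev_one, h3, zero_mul] at h4
  exact one_ne_zero h4

end Mdl

section orth

variable {ℓ : ℕ} {E : Type*} [Field E]

/-- a class is orthogonal to the class of the opposite. -/
theorem orth_neg_self (a : E) : Orth (cl ℓ a) (cl ℓ (-a)) := by
  by_cases ha : a = 0
  · rw [ha, cl_zero]; exact orth_zero_left _
  by_cases ha1 : a = 1
  · rw [ha1, cl_one]; exact orth_zero_left _
  have h1 : (1 : E) - a ≠ 0 := fun h => ha1 (sub_eq_zero.1 h).symm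
  have h2 : (1 : E) - a⁻¹ ≠ 0 := by
    intro h
    have h3 := (sub_eq_zero.1 h).symm
    exact ha1 (inv_eq_one.1 h3)
  have h3 : -a = (1 - a) / (1 - a⁻¹) := by
    rw [eq_div_iff h2]
    field_simp
    ring
  rw [h3, cl_div ℓ h1 h2]
  refine (orth_one_sub a).sub_right ?_
  have h4 := (orth_one_sub (ℓ := ℓ) a⁻¹)
  rw [cl_inv] at h4
  have h5 := h4.neg_left
  rwa [neg_neg] at h5

end orth

namespace Mdl

variable {K : Type*} [Field K] [CharZero K] (M : Mdl K)

/-- data of a specialization to smaller constants. -/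
structure SpD (N : Subfield K) (P : Pl K K) : Prop where
  hN : M.Sub N
  id : ∀ x ∈ M.F N, x ∈ P.O ∧ P.ev x = x
  res : ∀ c ∈ M.k, c ∈ P.O → P.ev c ∈ N
  mem : ∀ x ∈ P.O, P.ev x ∈ M.F N

namespace SpD

variable {M} {N : Subfield K} {P : Pl K K} (D : M.SpD N P)

include D

omit [CharZero K] in
theorem exists_b {z : K} (hz : z ≠ 0) : ∃ b ∈ M.k, b ≠ 0 ∧ P.U (b * z) := by
  obtain ⟨b, hb, hb0, hbU, -⟩ := P.gauss (l := N) (A := M.F N) (B := M.k)
    (Sub.le_F N) D.hN.le (fun a ha => (D.id a ha).1) (by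
      intro b hb hbO
      refine ⟨P.ev b, D.res b hb hbO, ?_⟩
      rw [(D.id _ (Sub.le_F N (D.res b hb hbO))).2]) (z := z) (by
      have h : M.F N ⊔ M.k = ⊤ := by
        rw [eq_top_iff, ← M.sup]
        exact sup_le_sup_right (K0_le N) _
      rw [h]; exact Subfield.mem_top z) hz
  exact ⟨b, hb, hb0, hbU⟩

omit [CharZero K] D in
theorem exists_root (ℓ : ℕ) (hℓ : 0 < ℓ) {b : K} (hb : b ∈ M.k) : ∃ β ∈ M.k, β ^ ℓ = b := by
  haveI := M.ack
  obtain ⟨β, hβ⟩ := IsAlgClosed.exists_pow_nat_eq (⟨b, hb⟩ : M.k) hℓ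
  exact ⟨β, β.2, congrArg Subtype.val hβ⟩

variable (ℓ : ℕ)

omit [CharZero K] in
/-- classes of residues do not depend on choices. -/
theorem cl_ev_eq (hℓ : ℓ ≠ 0) {z z' c w : K} (hU : P.U z) (hU' : P.U z') (hc : c ∈ M.k)
    (h : z = z' * c * w ^ ℓ) :
    cl ℓ (⟨P.ev z, D.mem z hU.1⟩ : M.F N) = cl ℓ (⟨P.ev z', D.mem z' hU'.1⟩ : M.F N) := by
  obtain ⟨β, hβ, rfl⟩ := exists_root ℓ (Nat.pos_of_ne_zero hℓ) hc
  have h1 : (β * w) ^ ℓ = z / z' := by
    rw [h, mul_pow]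
    have := hU'.ne_zero
    field_simp
  have h2 : P.U (β * w) := P.U_of_pow hℓ (by rw [h1]; exact hU.div hU')
  have h3 : z = z' * (β * w) ^ ℓ := by rw [h]; ring
  have h4 : P.ev z = P.ev z' * P.ev (β * w) ^ ℓ := by
    conv_lhs => rw [h3]
    rw [P.ev_mul hU'.1 (pow_mem h2.1 ℓ), P.ev_pow h2.1]
  rw [cl_eq_iff ℓ (by intro h; exact hU.2 (congrArg Subtype.val h))
    (by intro h; exact hU'.2 (congrArg Subtype.val h))]
  refine ⟨⟨P.ev (β * w), D.mem _ h2.1⟩, fun h => h2.2 (congrArg Subtype.val h), ?_⟩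
  exact Subtype.ext h4

/-- the specialization map on units. -/
noncomputable def spU (hℓ : ℓ ≠ 0) : Kˣ →* Multiplicative (V ℓ (M.F N)) where
  toFun z := Multiplicative.ofAdd (cl ℓ (⟨P.ev ((D.exists_b z.ne_zero).choose * z),
    D.mem _ (D.exists_b z.ne_zero).choose_spec.2.2.1⟩ : M.F N))
  map_one' := by
    have h := (D.exists_b (1 : Kˣ).ne_zero).choose_spec
    have hU1 : P.U 1 := P.U_one
    have h1 := D.cl_ev_eq ℓ hℓ h.2.2 hU1 h.1 (w := 1) (by simp)
    rw [h1]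
    have h2 : (⟨P.ev 1, D.mem 1 hU1.1⟩ : M.F N) = 1 := Subtype.ext P.ev_one
    rw [h2, cl_one]
    rfl
  map_mul' x y := by
    have hx := (D.exists_b x.ne_zero).choose_spec
    have hy := (D.exists_b y.ne_zero).choose_spec
    have hxy := (D.exists_b (x * y).ne_zero).choose_spec
    set bx := (D.exists_b x.ne_zero).choose
    set b_y := (D.exists_b y.ne_zero).choose
    set bxy := (D.exists_b (x * y).ne_zero).choose
    have hU := hx.2.2.mul hy.2.2
    have h1 := D.cl_ev_eq ℓ hℓ hxy.2.2 hU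
      (M.k.mul_mem hxy.1 (M.k.mul_mem (M.k.inv_mem hx.1) (M.k.inv_mem hy.1))) (w := 1) (by
        have h3 := hx.2.1
        have h4 := hy.2.1
        rw [one_pow, Units.val_mul]
        field_simp)
    rw [h1, ← ofAdd_add]
    have h2 : (⟨P.ev (bx * x * (b_y * y)), D.mem _ hU.1⟩ : M.F N) =
        ⟨P.ev (bx * x), D.mem _ hx.2.2.1⟩ * ⟨P.ev (b_y * y), D.mem _ hy.2.2.1⟩ :=
      Subtype.ext (P.ev_mul hx.2.2.1 hy.2.2.1)
    rw [h2, cl_mul ℓ (fun h => hx.2.2.2 (congrArg Subtype.val h))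
      (fun h => hy.2.2.2 (congrArg Subtype.val h))]

/-- the specialization map on classes. -/
noncomputable def sp (hℓ : ℓ ≠ 0) : V ℓ K →ₗ[ZMod ℓ] V ℓ (M.F N) :=
  AddMonoidHom.toZModLinearMap ℓ
    (MonoidHom.toAdditiveLeft
      (QuotientGroup.lift (powMonoidHom ℓ : Kˣ →* Kˣ).range (D.spU ℓ hℓ) (by
        rintro _ ⟨y, rfl⟩
        rw [MonoidHom.mem_ker, powMonoidHom_apply, map_pow]
        apply Multiplicative.toAdd.injective
        rw [toAdd_pow, toAdd_one]
        obtain ⟨w, -, hw⟩ := cl_surj ℓ (Multiplicative.toAdd (D.spU ℓ hℓ y))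
        rw [← hw, ← cl_pow, cl_pow_self])))

omit [CharZero K] in
theorem sp_cl (hℓ : ℓ ≠ 0) {z b : K} (hz : z ≠ 0) (hb : b ∈ M.k) (hU : P.U (b * z)) :
    D.sp ℓ hℓ (cl ℓ z) = cl ℓ (⟨P.ev (b * z), D.mem _ hU.1⟩ : M.F N) := by
  have h0 : cl ℓ z = V.mk ℓ (Units.mk0 z hz) := cl_of_ne ℓ hz
  rw [h0]
  change (D.spU ℓ hℓ (Units.mk0 z hz)).toAdd = _
  have h := (D.exists_b (Units.mk0 z hz).ne_zero).choose_spec
  change cl ℓ (⟨P.ev ((D.exists_b (Units.mk0 z hz).ne_zero).choose * z), _⟩ : M.F N) = _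
  have hb0 : b ≠ 0 := by
    rintro rfl
    rw [zero_mul] at hU
    exact hU.ne_zero rfl
  refine D.cl_ev_eq ℓ hℓ h.2.2 hU (M.k.mul_mem h.1 (M.k.inv_mem hb)) (w := 1) ?_
  generalize (D.exists_b (Units.mk0 z hz).ne_zero).choose = b'
  change b' * z = b * z * (b' * b⁻¹) * 1 ^ ℓ
  rw [one_pow]
  field_simp

omit [CharZero K] in
theorem sp_cl_self (hℓ : ℓ ≠ 0) {x : K} (hx : x ∈ M.F N) :
    D.sp ℓ hℓ (cl ℓ x) = cl ℓ (⟨x, hx⟩ : M.F N) := by
  by_cases hx0 : x = 0
  · subst hx0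
    have h1 : (⟨0, hx⟩ : M.F N) = 0 := rfl
    rw [cl_zero, map_zero, h1, cl_zero]
  have hU : P.U (1 * x) := by
    rw [one_mul]
    exact ⟨(D.id x hx).1, by rw [(D.id x hx).2]; exact hx0⟩
  rw [D.sp_cl ℓ hℓ hx0 M.k.one_mem hU]
  congr 1
  apply Subtype.ext
  change P.ev (1 * x) = x
  rw [one_mul, (D.id x hx).2]

omit [CharZero K] in
theorem sp_orth_one_sub (hℓ : ℓ ≠ 0) {x y : K} (hx : x ≠ 0) (hy : y ≠ 0) (hxy : x + y = 1) :
    Orth (D.sp ℓ hℓ (cl ℓ x)) (D.sp ℓ hℓ (cl ℓ y)) := by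
  have key : ∀ z : K, z ≠ 0 → ∀ h : z ∈ P.O, P.ev z = 1 → D.sp ℓ hℓ (cl ℓ z) = 0 := by
    intro z hz hzO hz1
    have hU : P.U (1 * z) := by
      rw [one_mul]
      exact ⟨hzO, by rw [hz1]; exact one_ne_zero⟩
    rw [D.sp_cl ℓ hℓ hz M.k.one_mem hU]
    have h2 : (⟨P.ev (1 * z), D.mem _ hU.1⟩ : M.F N) = 1 := Subtype.ext (by
      change P.ev (1 * z) = 1
      rw [one_mul, hz1])
    rw [h2, cl_one]
  by_cases hxO : x ∈ P.O
  · have hyO : y ∈ P.O := by
      have : y = 1 - x := by rw [← hxy]; ring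
      rw [this]
      exact sub_mem P.O.one_mem hxO
    have hs : P.ev x + P.ev y = 1 := by rw [← P.ev_add hxO hyO, hxy, P.ev_one]
    by_cases hx1 : P.ev x = 0
    · rw [key y hy hyO (by rw [← hs, hx1, zero_add])]
      exact orth_zero_right _
    by_cases hy1 : P.ev y = 0
    · rw [key x hx hxO (by rw [← hs, hy1, add_zero])]
      exact orth_zero_left _
    have hUx : P.U (1 * x) := by rw [one_mul]; exact ⟨hxO, hx1⟩
    have hUy : P.U (1 * y) := by rw [one_mul]; exact ⟨hyO, hy1⟩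
    rw [D.sp_cl ℓ hℓ hx M.k.one_mem hUx, D.sp_cl ℓ hℓ hy M.k.one_mem hUy]
    have h3 : (⟨P.ev (1 * y), D.mem _ hUy.1⟩ : M.F N) = 1 - ⟨P.ev (1 * x), D.mem _ hUx.1⟩ :=
      Subtype.ext (by
        change P.ev (1 * y) = 1 - P.ev (1 * x)
        rw [one_mul, one_mul, ← hs]
        ring)
    rw [h3]
    exact orth_one_sub _
  · obtain ⟨b, hb, hb0, hU⟩ := D.exists_b hx
    have hxi := P.inv_of_notMem hxO
    have hbe : b = x⁻¹ * (b * x) := by field_simp
    have hbO : b ∈ P.O := by rw [hbe]; exact P.O.mul_mem _ _ hxi.1 hU.1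
    have hb1 : P.ev b = 0 := by rw [hbe, P.ev_mul hxi.1 hU.1, hxi.2, zero_mul]
    have hye : b * y = b - b * x := by
      have : y = 1 - x := by rw [← hxy]; ring
      rw [this]; ring
    have hyv : P.ev (b * y) = - P.ev (b * x) := by
      rw [hye, P.ev_sub hbO hU.1, hb1, zero_sub]
    have hUy : P.U (b * y) := by
      refine ⟨by rw [hye]; exact sub_mem hbO hU.1, ?_⟩
      rw [hyv]
      exact neg_ne_zero.2 hU.2
    rw [D.sp_cl ℓ hℓ hx hb hU, D.sp_cl ℓ hℓ hy hb hUy]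
    have h3 : (⟨P.ev (b * y), D.mem _ hUy.1⟩ : M.F N) = - ⟨P.ev (b * x), D.mem _ hU.1⟩ :=
      Subtype.ext hyv
    rw [h3]
    exact orth_neg_self _

omit [CharZero K] in
theorem sp_orth (hℓ : ℓ ≠ 0) {u w : V ℓ K} (h : Orth u w) :
    Orth (D.sp ℓ hℓ u) (D.sp ℓ hℓ w) := by
  have h1 : R ℓ K ≤ (R ℓ (M.F N)).comap (TensorProduct.map (D.sp ℓ hℓ) (D.sp ℓ hℓ)) := by
    unfold R
    rw [Submodule.span_le]
    rintro _ ⟨x, y, hxy, rfl⟩
    rw [SetLike.mem_coe, Submodule.mem_comap, TensorProduct.map_tmul]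
    have h2 := D.sp_orth_one_sub ℓ hℓ x.ne_zero y.ne_zero hxy
    rw [cl_unit, cl_unit] at h2
    exact h2
  have h2 := h1 h
  rw [Submodule.mem_comap, TensorProduct.map_tmul] at h2
  exact h2

end SpD

variable (ℓ : ℕ) [Fact ℓ.Prime]

omit [CharZero K] in
/-- S35 orthogonality descends to smaller constants. -/
theorem orth_descent {N : Subfield K} (hN : M.Sub N) {x y : K} (hx : x ∈ M.F N)
    (hy : y ∈ M.F N) (h : Orth (cl ℓ x) (cl ℓ y)) :
    Orth (cl ℓ (⟨x, hx⟩ : M.F N)) (cl ℓ (⟨y, hy⟩ : M.F N)) := by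
  obtain ⟨P, hP1, hP2, hP3⟩ := M.exists_sp' hN
  have D : M.SpD N P := ⟨hN, hP1, hP2, hP3⟩
  have hℓ : ℓ ≠ 0 := (Fact.out : ℓ.Prime).ne_zero
  have h1 := D.sp_orth ℓ hℓ h
  rwa [D.sp_cl_self ℓ hℓ hx, D.sp_cl_self ℓ hℓ hy] at h1

omit [CharZero K] in
/-- residues of a simple transcendental extension. -/
theorem residue_adj {P : Pl K K} {N : Subfield K} (hP : ∀ x ∈ N, x ∈ P.O ∧ P.ev x = x) {z : K}
    (hzO : z ∈ P.O) (hz0 : P.ev z = 0) {x : K} (hx : x ∈ adj N z) (hxO : x ∈ P.O) :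
    P.ev x ∈ N := by
  have hev : ∀ p : N[X], aeval z p ∈ P.O ∧ P.ev (aeval z p) = (eval 0 p : N) := by
    intro p
    induction p using Polynomial.induction_on' with
    | add p q hp hq =>
      rw [map_add, eval_add]
      refine ⟨P.O.add_mem _ _ hp.1 hq.1, ?_⟩
      rw [P.ev_add hp.1 hq.1, hp.2, hq.2]
      rfl
    | monomial n a =>
      rw [aeval_monomial]
      have h1 := hP a a.2
      refine ⟨P.O.mul_mem _ _ h1.1 (pow_mem hzO n), ?_⟩
      change P.ev ((a : K) * z ^ n) = _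
      rw [P.ev_mul h1.1 (pow_mem hzO n), P.ev_pow hzO, h1.2, hz0, eval_monomial]
      rcases Nat.eq_zero_or_pos n with hn | hn
      · subst hn; simp
      · rw [zero_pow hn.ne', zero_pow hn.ne', mul_zero, mul_zero]
        rfl
  have hle : adj N z ≤ (IntermediateField.adjoin N {z}).toSubfield := by
    apply adj_le
    · intro y hy
      exact (IntermediateField.adjoin N {z}).algebraMap_mem ⟨y, hy⟩
    · exact IntermediateField.mem_adjoin_simple_self N z
  have hx' : x ∈ IntermediateField.adjoin N {z} := hle hx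
  rw [IntermediateField.mem_adjoin_simple_iff] at hx'
  obtain ⟨r, s, hrs⟩ := hx'
  by_cases hx0 : x = 0
  · rw [hx0, P.ev_zero]; exact N.zero_mem
  have hs0 : aeval z s ≠ 0 := by
    intro h
    rw [h, div_zero] at hrs
    exact hx0 hrs
  have hr0 : aeval z r ≠ 0 := by
    intro h
    rw [h, zero_div] at hrs
    exact hx0 hrs
  have hfac : ∀ p : N[X], aeval z p ≠ 0 → ∃ (n : ℕ) (q : N[X]), aeval z p = z ^ n * aeval z q ∧
      eval 0 q ≠ 0 := by
    intro p hp
    have hp0 : p ≠ 0 := by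
      rintro rfl
      rw [map_zero] at hp
      exact hp rfl
    obtain ⟨q, hq, hq'⟩ := Polynomial.exists_eq_pow_rootMultiplicity_mul_and_not_dvd p hp0 0
    refine ⟨p.rootMultiplicity 0, q, ?_, ?_⟩
    · conv_lhs => rw [hq]
      rw [map_mul, map_pow, map_sub, aeval_X, aeval_C, map_zero, sub_zero]
    · rw [dvd_iff_isRoot] at hq'
      exact hq'
  obtain ⟨a, r', hr, hr'⟩ := hfac r hr0
  obtain ⟨b, s', hs, hs'⟩ := hfac s hs0
  have hUr : P.U (aeval z r') := ⟨(hev r').1, by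
    rw [(hev r').2]
    intro h
    exact hr' (Subtype.ext h)⟩
  have hUs : P.U (aeval z s') := ⟨(hev s').1, by
    rw [(hev s').2]
    intro h
    exact hs' (Subtype.ext h)⟩
  have hzn : z ≠ 0 ∨ (a = 0 ∧ b = 0) := by
    by_cases hz : z = 0
    · right
      subst hz
      constructor
      · by_contra ha
        rw [hr, zero_pow ha, zero_mul] at hr0
        exact hr0 rfl
      · by_contra hb
        rw [hs, zero_pow hb, zero_mul] at hs0
        exact hs0 rfl
    · left; exact hz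
  have hu : P.ev (aeval z r' / aeval z s') ∈ N := by
    rw [P.ev_div hUr.1 hUs, (hev r').2, (hev s').2]
    exact N.div_mem (eval 0 r').2 (eval 0 s').2
  have hs'0 : aeval z s' ≠ 0 := hUs.ne_zero
  rcases le_or_gt b a with hab | hab
  · obtain ⟨n, rfl⟩ := Nat.exists_eq_add_of_le hab
    have h1 : x = z ^ n * (aeval z r' / aeval z s') := by
      rw [hrs, hr, hs]
      rcases hzn with hz | ⟨h1, h2⟩
      · rw [pow_add]
        field_simp
      · have hn : n = 0 := by omega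
        subst h2
        subst hn
        simp
    rw [h1, P.ev_mul (pow_mem hzO n) (hUr.div hUs).1, P.ev_pow hzO, hz0]
    rcases Nat.eq_zero_or_pos n with hn | hn
    · subst hn
      rw [pow_zero, one_mul]
      exact hu
    · rw [zero_pow hn.ne', zero_mul]
      exact N.zero_mem
  · exfalso
    obtain ⟨n, rfl⟩ := Nat.exists_eq_add_of_lt hab
    have hz : z ≠ 0 := by
      rcases hzn with hz | ⟨h1, h2⟩
      · exact hz
      · omega
    have h1 : x * z ^ (n + 1) = aeval z r' / aeval z s' := by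
      rw [hrs, hr, hs]
      field_simp
      ring
    have h2 := (hUr.div hUs).2
    rw [← h1, P.ev_mul hxO (pow_mem hzO _), P.ev_pow hzO, hz0, zero_pow (by omega),
      mul_zero] at h2
    exact h2 rfl

omit [CharZero K] in
/-- S36 -/
theorem VS_inter {N₁ N₂ : Subfield K} (h1 : M.Sub N₁) (h2 : M.Sub N₂) (h12 : N₁ ≤ N₂) {z : K}
    (hz : z ∈ M.k) (hz2 : z ∉ N₂) {u : V ℓ K} (hu2 : u ∈ VS ℓ (M.F N₂))
    (hu1 : u ∈ VS ℓ (M.F (rac (adj N₁ z)))) : u ∈ VS ℓ (M.F N₁) := by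
  have hℓ : ℓ ≠ 0 := (Fact.out : ℓ.Prime).ne_zero
  obtain ⟨P, hP1, hP2, ⟨hzO, hz0⟩, hP3⟩ := M.exists_sp h2 hz hz2
  obtain ⟨g2, hg2, hg20, rfl⟩ := hu2
  obtain ⟨g1, hg1, hg10, he⟩ := hu1
  obtain ⟨h, hh0, hh⟩ := (cl_eq_iff ℓ hg10 hg20).1 he.symm
  have hBk : rac (adj N₁ z) ≤ M.k := M.RAC_k.le (adj_le h1.le hz)
  have hN1 : ∀ x ∈ N₁, x ∈ P.O ∧ P.ev x = x := fun x hx => hP1 x (Sub.le_F N₂ (h12 hx))
  obtain ⟨b, hb, hb0, hbU, a, ha, hab⟩ := P.gauss (l := N₁) (A := M.F N₁)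
    (B := rac (adj N₁ z)) (Sub.le_F N₁) ((le_adj N₁ z).trans (le_rac _))
    (fun a ha => (hP1 a (F_mono h12 ha)).1) (by
      intro b hb hbO
      have h3 : IsAlgebraic N₁ (P.ev b) := P.isAlgebraic_ev (adj N₁ z) N₁
        (fun x hx hxO => residue_adj hN1 hzO hz0 hx hxO) (mem_rac.1 hb) hbO
      have h4 := h1.rac _ h3
      exact ⟨P.ev b, h4, by rw [(hN1 _ h4).2]⟩) (z := g1) (by
      have h3 : M.F (rac (adj N₁ z)) ≤ M.F N₁ ⊔ rac (adj N₁ z) :=
        sup_le ((K0_le N₁).trans le_sup_left) le_sup_right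
      exact h3 hg1) hg10
  have ha' := hP1 a (F_mono h12 ha)
  rw [ha'.2] at hab
  obtain ⟨β, hβ, rfl⟩ := SpD.exists_root (M := M) ℓ (Nat.pos_of_ne_zero hℓ) (hBk hb)
  have hU2 : P.U g2 := ⟨(hP1 g2 hg2).1, by rw [(hP1 g2 hg2).2]; exact hg20⟩
  have h5 : β ^ ℓ * g1 = g2 * (β * h) ^ ℓ := by rw [hh]; ring
  have h6 : P.U (β * h) := by
    apply P.U_of_pow hℓ
    have h7 : (β * h) ^ ℓ = (β ^ ℓ * g1) / g2 := by
      rw [h5]
      field_simp
    rw [h7]
    exact hbU.div hU2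
  have h7 : a = g2 * P.ev (β * h) ^ ℓ := by
    rw [← hab, h5, P.ev_mul hU2.1 (pow_mem h6.1 ℓ), P.ev_pow h6.1, (hP1 g2 hg2).2]
  have ha0 : a ≠ 0 := by
    rw [h7]
    exact mul_ne_zero hg20 (pow_ne_zero _ h6.2)
  refine ⟨a, ha, ha0, ?_⟩
  exact ((cl_eq_iff ℓ ha0 hg20).2 ⟨P.ev (β * h), h6.2, h7⟩).symm

end Mdl

end Vale.Agent.P019
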