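import Vale.Agent.P019.FinK
import Vale.Agent.P019.Sp

/-!
# Closed pairs
-/

namespace Vale.Agent.P019

set_option linter.style.haveILetI false

open Polynomial

section ctb

variable {K : Type*} [Field K]

theorem ctb_closure {s : Set K} (hs : s.Countable) : (Subfield.closure s : Set K).Countable := by
  have h := Subfield.cardinalMk_closure_le_max s
  have h1 : Cardinal.mk s ≤ Cardinal.aleph0 := Cardinal.le_aleph0_iff_set_countable.2 hs
  rw [max_eq_right h1] at h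
  exact Cardinal.le_aleph0_iff_set_countable.1 h

theorem ctb_sup {E F : Subfield K} (hE : (E : Set K).Countable) (hF : (F : Set K).Countable) :
    ((E ⊔ F : Subfield K) : Set K).Countable := by
  have h : E ⊔ F ≤ Subfield.closure ((E : Set K) ∪ F) :=
    sup_le (fun x hx => Subfield.subset_closure (Or.inl hx))
      (fun x hx => Subfield.subset_closure (Or.inr hx))
  exact (ctb_closure (hE.union hF)).mono h

theorem ctb_rac {E : Subfield K} (hE : (E : Set K).Countable) : (rac E : Set K).Countable := by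
  haveI : Countable E := hE.to_subtype
  have h := Algebra.IsAlgebraic.cardinalMk_le_max E (algebraicClosure E K)
  have h1 : Cardinal.mk E ≤ Cardinal.aleph0 := Cardinal.mk_le_aleph0
  rw [max_eq_right h1] at h
  exact Cardinal.le_aleph0_iff_set_countable.1 h

/-- a polynomial with coefficients in a subfield witnesses algebraicity. -/
theorem isAlgebraic_of_coeff {E : Subfield K} {z : K} (Q : K[X]) (hQ : Q ≠ 0)
    (hc : ∀ i, Q.coeff i ∈ E) (hz : Q.eval z = 0) : IsAlgebraic E z := by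
  have h1 : Q ∈ lifts E.subtype := by
    rw [lifts_iff_coeff_lifts]
    intro i
    exact ⟨⟨_, hc i⟩, rfl⟩
  obtain ⟨P, hP⟩ := (mem_lifts Q).1 h1
  refine ⟨P, ?_, ?_⟩
  · rintro rfl
    exact hQ (by rw [← hP, Polynomial.map_zero])
  · rw [aeval_def, eval₂_eq_eval_map]
    change eval z (P.map E.subtype) = 0
    rw [hP, hz]

theorem exists_coeff {E : Subfield K} {z : K} (h : IsAlgebraic E z) :
    ∃ Q : K[X], Q ≠ 0 ∧ (∀ i, Q.coeff i ∈ E) ∧ Q.eval z = 0 := by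
  obtain ⟨P, hP, hz⟩ := h
  refine ⟨P.map (algebraMap E K), ?_, ?_, ?_⟩
  · rwa [Ne, Polynomial.map_eq_zero_iff (RingHom.injective _)]
  · intro i
    rw [coeff_map]
    exact (P.coeff i).2
  · rw [← eval₂_eq_eval_map, ← aeval_def, hz]

end ctb

section chain

variable {K : Type*} [Field K]

theorem mem_iSup_chain {N : ℕ → Subfield K} (hN : Monotone N) {z : K} :
    z ∈ (⨆ n, N n) ↔ ∃ n, z ∈ N n :=
  Subfield.mem_iSup_of_directed (hN.directed_le)

theorem finset_chain {N : ℕ → Subfield K} (hN : Monotone N) (S : Finset K)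
    (hS : ∀ s ∈ S, s ∈ (⨆ n, N n)) : ∃ n, ∀ s ∈ S, s ∈ N n := by
  classical
  induction S using Finset.induction_on with
  | empty => exact ⟨0, by simp⟩
  | insert a S _ ih =>
    obtain ⟨n, hn⟩ := ih (fun s hs => hS s (Finset.mem_insert_of_mem hs))
    obtain ⟨m, hm⟩ := (mem_iSup_chain hN).1 (hS a (Finset.mem_insert_self a S))
    refine ⟨max n m, ?_⟩
    intro s hs
    rcases Finset.mem_insert.1 hs with rfl | hs
    · exact hN (le_max_right n m) hm
    · exact hN (le_max_left n m) (hn s hs)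

theorem RAC_iSup {N : ℕ → Subfield K} (hN : Monotone N) (h : ∀ n, RAC (N n)) :
    RAC (⨆ n, N n) := by
  classical
  intro z hz
  obtain ⟨Q, hQ0, hQc, hQz⟩ := exists_coeff hz
  obtain ⟨n, hn⟩ := finset_chain hN (Q.coeffs ∪ {0}) (by
    intro s hs
    rcases Finset.mem_union.1 hs with hs | hs
    · obtain ⟨i, _, hi⟩ := mem_coeffs_iff.1 hs
      rw [hi]; exact hQc i
    · rw [Finset.mem_singleton.1 hs]; exact Subfield.zero_mem _)
  refine (mem_iSup_chain hN).2 ⟨n, h n z (isAlgebraic_of_coeff Q hQ0 ?_ hQz)⟩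
  intro i
  by_cases hi : Q.coeff i = 0
  · rw [hi]; exact Subfield.zero_mem _
  · exact hn _ (Finset.mem_union_left _ (coeff_mem_coeffs hi))

end chain

namespace Mdl

variable {K : Type*} [Field K] (M : Mdl K)

theorem ctb_F {N : Subfield K} (hN : (N : Set K).Countable) : (M.F N : Set K).Countable :=
  ctb_sup M.ctb hN

theorem sub_k0 : M.Sub M.k0 := ⟨RAC_of_isAlgClosed _ M.ack0, le_rfl, M.le_k⟩

theorem ctb_k0 : (M.k0 : Set K).Countable := M.ctb.mono M.le_K0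

/-- every element comes from a countable field of constants. -/
theorem exists_ctb (z : K) : ∃ S : Set K, S.Countable ∧ (∀ s ∈ S, s ∈ M.k) ∧
    z ∈ M.K0 ⊔ Subfield.closure S := by
  have hz : z ∈ Subfield.closure ((M.K0 : Set K) ∪ M.k) := by
    have h1 : (⊤ : Subfield K) ≤ Subfield.closure ((M.K0 : Set K) ∪ M.k) := by
      rw [← M.sup]
      exact sup_le (fun x hx => Subfield.subset_closure (Or.inl hx))
        (fun x hx => Subfield.subset_closure (Or.inr hx))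
    exact h1 trivial
  induction hz using Subfield.closure_induction with
  | mem x hx =>
    rcases hx with hx | hx
    · exact ⟨∅, Set.countable_empty, by simp, (le_sup_left : M.K0 ≤ _) hx⟩
    · exact ⟨{x}, Set.countable_singleton x, by simpa using hx,
        (le_sup_right : Subfield.closure {x} ≤ M.K0 ⊔ _) (Subfield.subset_closure rfl)⟩
  | one => exact ⟨∅, Set.countable_empty, by simp, Subfield.one_mem _⟩
  | add x y _ _ hx hy =>
    obtain ⟨S, hS, hSk, hx⟩ := hx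
    obtain ⟨T, hT, hTk, hy⟩ := hy
    refine ⟨S ∪ T, hS.union hT, ?_, Subfield.add_mem _ ?_ ?_⟩
    · rintro s (hs | hs)
      exacts [hSk s hs, hTk s hs]
    · exact sup_le_sup_left (Subfield.closure_mono Set.subset_union_left) _ hx
    · exact sup_le_sup_left (Subfield.closure_mono Set.subset_union_right) _ hy
  | neg x _ hx =>
    obtain ⟨S, hS, hSk, hx⟩ := hx
    exact ⟨S, hS, hSk, Subfield.neg_mem _ hx⟩
  | inv x _ hx =>
    obtain ⟨S, hS, hSk, hx⟩ := hx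
    exact ⟨S, hS, hSk, Subfield.inv_mem _ hx⟩
  | mul x y _ _ hx hy =>
    obtain ⟨S, hS, hSk, hx⟩ := hx
    obtain ⟨T, hT, hTk, hy⟩ := hy
    refine ⟨S ∪ T, hS.union hT, ?_, Subfield.mul_mem _ ?_ ?_⟩
    · rintro s (hs | hs)
      exacts [hSk s hs, hTk s hs]
    · exact sup_le_sup_left (Subfield.closure_mono Set.subset_union_left) _ hx
    · exact sup_le_sup_left (Subfield.closure_mono Set.subset_union_right) _ hy

/-- enlarging a countable field of constants. -/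
theorem exists_big (hk : ¬ (M.k : Set K).Countable) {N : Subfield K} (hN : M.Sub N)
    (hc : (N : Set K).Countable) (Z : Set K) (hZ : Z.Countable) :
    ∃ N₂, M.Sub N₂ ∧ (N₂ : Set K).Countable ∧ N ≤ N₂ ∧ (∃ a ∈ N₂, a ∉ N) ∧
      ∀ z ∈ Z, z ∈ M.F N₂ := by
  choose S hS hSk hSz using M.exists_ctb
  obtain ⟨a, hak, haN⟩ : ∃ a ∈ M.k, a ∉ N := by
    by_contra hcon
    push Not at hcon
    exact hk (hc.mono hcon)
  set T : Set K := {a} ∪ ⋃ z ∈ Z, S z with hT
  have hTc : T.Countable :=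
    (Set.countable_singleton a).union (hZ.biUnion (fun z _ => hS z))
  have hTk : Subfield.closure T ≤ M.k := by
    rw [Subfield.closure_le]
    rintro s (hs | hs)
    · rw [Set.mem_singleton_iff.1 hs]; exact hak
    · obtain ⟨z, _, hs⟩ := Set.mem_iUnion₂.1 hs
      exact hSk z s hs
  have h0 : N ≤ rac (N ⊔ Subfield.closure T) := le_sup_left.trans (le_rac _)
  have h1 : Subfield.closure T ≤ rac (N ⊔ Subfield.closure T) := le_sup_right.trans (le_rac _)
  refine ⟨rac (N ⊔ Subfield.closure T), sub_rac (hN.ge.trans le_sup_left)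
    (sup_le hN.le hTk), ctb_rac (ctb_sup hc (ctb_closure hTc)), h0,
    ⟨a, h1 (Subfield.subset_closure (Or.inl rfl)), haN⟩, ?_⟩
  intro z hz
  refine sup_le_sup_left ?_ M.K0 (hSz z)
  refine (Subfield.closure_mono ?_).trans h1
  exact (Set.subset_biUnion_of_mem (u := fun z => S z) hz).trans Set.subset_union_right

variable {M}

theorem sub_iSup {N : ℕ → Subfield K} (hm : Monotone N) (hN : ∀ n, M.Sub (N n)) :
    M.Sub (⨆ n, N n) :=
  ⟨RAC_iSup hm (fun n => (hN n).rac), (hN 0).ge.trans (le_iSup N 0),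
    iSup_le (fun n => (hN n).le)⟩

theorem F_iSup {N : ℕ → Subfield K} (hm : Monotone N) {z : K} :
    z ∈ M.F (⨆ n, N n) ↔ ∃ n, z ∈ M.F (N n) := by
  have h : M.F (⨆ n, N n) = ⨆ n, M.F (N n) := sup_iSup
  rw [h]
  exact mem_iSup_chain (fun _ _ hab => F_mono (hm hab))

theorem F_iSup_finset {N : ℕ → Subfield K} (hm : Monotone N) (S : Finset K)
    (hS : ∀ s ∈ S, s ∈ M.F (⨆ n, N n)) : ∃ n, ∀ s ∈ S, s ∈ M.F (N n) := by
  have h : M.F (⨆ n, N n) = ⨆ n, M.F (N n) := sup_iSup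
  rw [h] at hS
  exact finset_chain (fun _ _ hab => F_mono (hm hab)) S hS

end Mdl

section CP

variable {K L : Type*} [Field K] [Field L] {ℓ : ℕ}

/-- closed pairs of countable algebraically closed fields of constants. -/
structure CP (M : Mdl K) (M' : Mdl L) (Θ : V ℓ K ≃ₗ[ZMod ℓ] V ℓ L) (N : Subfield K)
    (N' : Subfield L) : Prop where
  sub : M.Sub N
  sub' : M'.Sub N'
  ctb : (N : Set K).Countable
  ctb' : (N' : Set L).Countable
  map : ∀ v, v ∈ VS ℓ (M.F N) ↔ Θ v ∈ VS ℓ (M'.F N')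
  inf : ∀ S : Finset K, (∀ s ∈ S, s ∈ M.F N) →
    ∃ N₀, M.Sub N₀ ∧ N₀ ≤ N ∧ N₀ ≠ N ∧ (∀ s ∈ S, s ∈ M.F N₀)
  inf' : ∀ S : Finset L, (∀ s ∈ S, s ∈ M'.F N') →
    ∃ N₀, M'.Sub N₀ ∧ N₀ ≤ N' ∧ N₀ ≠ N' ∧ (∀ s ∈ S, s ∈ M'.F N₀)

/-- one step: enlarge so that the classes of a smaller countable field are absorbed. -/
theorem exists_step (M : Mdl K) (M' : Mdl L) (Θ : V ℓ K →ₗ[ZMod ℓ] V ℓ L)
    (hl : ¬ (M'.k : Set L).Countable) {N : Subfield K} (hc : (N : Set K).Countable)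
    {N' : Subfield L} (hN' : M'.Sub N') (hc' : (N' : Set L).Countable) (B : Set L)
    (hB : B.Countable) :
    ∃ N₂, M'.Sub N₂ ∧ (N₂ : Set L).Countable ∧ N' ≤ N₂ ∧ (∃ a ∈ N₂, a ∉ N') ∧
      (∀ b ∈ B, b ∈ M'.F N₂) ∧ ∀ v ∈ VS ℓ (M.F N), Θ v ∈ VS ℓ (M'.F N₂) := by
  choose r _ hr using fun v : V ℓ L => cl_surj (ℓ := ℓ) v
  obtain ⟨N₂, h1, h2, h3, h4, h5⟩ := M'.exists_big hl hN' hc'
    (B ∪ (fun x : K => r (Θ (cl ℓ x))) '' (M.F N : Set K))
    (hB.union ((M.ctb_F hc).image _))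
  refine ⟨N₂, h1, h2, h3, h4, fun b hb => h5 b (Or.inl hb), ?_⟩
  rintro _ ⟨x, hx, _, rfl⟩
  have h6 := h5 _ (Or.inr ⟨x, hx, rfl⟩)
  have h7 := cl_mem_VS (ℓ := ℓ) h6
  rwa [hr] at h7

/-- the state of the construction. -/
structure St (M : Mdl K) (M' : Mdl L) where
  N : Subfield K
  N' : Subfield L
  sub : M.Sub N
  sub' : M'.Sub N'
  ctb : (N : Set K).Countable
  ctb' : (N' : Set L).Countable

/-- S81 existence of closed pairs. -/
theorem exists_CP [CharZero K] [CharZero L] [Fact ℓ.Prime] (M : Mdl K) (M' : Mdl L)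
    (Θ : V ℓ K ≃ₗ[ZMod ℓ] V ℓ L)
    (hk : ¬ (M.k : Set K).Countable) (hl : ¬ (M'.k : Set L).Countable) (A : Set K)
    (hA : A.Countable) (B : Set L) (hB : B.Countable) :
    ∃ N N', CP M M' Θ N N' ∧ (∀ a ∈ A, a ∈ M.F N) ∧ (∀ b ∈ B, b ∈ M'.F N') := by
  have step : ∀ s : St M M', ∃ t : St M M', (s.N ≤ t.N ∧ (∃ a ∈ t.N, a ∉ s.N) ∧
      (∀ a ∈ A, a ∈ M.F t.N) ∧ ∀ v ∈ VS ℓ (M'.F s.N'), Θ.symm v ∈ VS ℓ (M.F t.N)) ∧
      (s.N' ≤ t.N' ∧ (∃ a ∈ t.N', a ∉ s.N') ∧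
      (∀ b ∈ B, b ∈ M'.F t.N') ∧ ∀ v ∈ VS ℓ (M.F s.N), Θ v ∈ VS ℓ (M'.F t.N')) := by
    intro s
    obtain ⟨N₂, h1, h2, h3, h4, h5, h6⟩ := exists_step (ℓ := ℓ) M' M Θ.symm.toLinearMap hk
      s.ctb' s.sub s.ctb A hA
    obtain ⟨N₂', h1', h2', h3', h4', h5', h6'⟩ := exists_step (ℓ := ℓ) M M' Θ.toLinearMap hl
      s.ctb s.sub' s.ctb' B hB
    exact ⟨⟨N₂, N₂', h1, h1', h2, h2'⟩, ⟨h3, h4, h5, h6⟩, ⟨h3', h4', h5', h6'⟩⟩
  choose f hf hf' using step
  let s : ℕ → St M M' := fun n => Nat.rec ⟨M.k0, M'.k0, M.sub_k0, M'.sub_k0, M.ctb_k0,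
    M'.ctb_k0⟩ (fun _ t => f t) n
  have hs : ∀ n, s (n + 1) = f (s n) := fun _ => rfl
  have hm : Monotone (fun n => (s n).N) := monotone_nat_of_le_succ (fun n => by
    rw [hs]; exact (hf (s n)).1)
  have hm' : Monotone (fun n => (s n).N') := monotone_nat_of_le_succ (fun n => by
    rw [hs]; exact (hf' (s n)).1)
  have hne : ∀ n, (s n).N ≠ ⨆ n, (s n).N := by
    intro n hn
    obtain ⟨a, ha, ha'⟩ := (hf (s n)).2.1
    rw [← hs] at ha
    exact ha' (hn ▸ (mem_iSup_chain hm).2 ⟨n + 1, ha⟩)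
  have hne' : ∀ n, (s n).N' ≠ ⨆ n, (s n).N' := by
    intro n hn
    obtain ⟨a, ha, ha'⟩ := (hf' (s n)).2.1
    rw [← hs] at ha
    exact ha' (hn ▸ (mem_iSup_chain hm').2 ⟨n + 1, ha⟩)
  have hVS : ∀ v, v ∈ VS ℓ (M.F (⨆ n, (s n).N)) → ∃ n, v ∈ VS ℓ (M.F (s n).N) := by
    rintro _ ⟨x, hx, _, rfl⟩
    obtain ⟨n, hn⟩ := (Mdl.F_iSup hm).1 hx
    exact ⟨n, cl_mem_VS hn⟩
  have hVS' : ∀ v, v ∈ VS ℓ (M'.F (⨆ n, (s n).N')) → ∃ n, v ∈ VS ℓ (M'.F (s n).N') := by
    rintro _ ⟨x, hx, _, rfl⟩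
    obtain ⟨n, hn⟩ := (Mdl.F_iSup hm').1 hx
    exact ⟨n, cl_mem_VS hn⟩
  refine ⟨⨆ n, (s n).N, ⨆ n, (s n).N', ?_, ?_, ?_⟩
  · refine ⟨Mdl.sub_iSup hm (fun n => (s n).sub), Mdl.sub_iSup hm' (fun n => (s n).sub'),
      ?_, ?_, ?_, ?_, ?_⟩
    · rw [Subfield.coe_iSup_of_directed hm.directed_le]
      exact Set.countable_iUnion (fun n => (s n).ctb)
    · rw [Subfield.coe_iSup_of_directed hm'.directed_le]
      exact Set.countable_iUnion (fun n => (s n).ctb')
    · intro v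
      constructor
      · intro hv
        obtain ⟨n, hn⟩ := hVS v hv
        have h1 := (hf' (s n)).2.2.2 v hn
        rw [← hs] at h1
        exact VS_mono (Mdl.F_mono (le_iSup (fun n => (s n).N') (n + 1))) h1
      · intro hv
        obtain ⟨n, hn⟩ := hVS' _ hv
        have h1 := (hf (s n)).2.2.2 _ hn
        rw [← hs, LinearEquiv.symm_apply_apply] at h1
        exact VS_mono (Mdl.F_mono (le_iSup (fun n => (s n).N) (n + 1))) h1
    · intro S hS
      obtain ⟨n, hn⟩ := Mdl.F_iSup_finset hm S hS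
      exact ⟨(s n).N, (s n).sub, le_iSup (fun n => (s n).N) n, hne n, hn⟩
    · intro S hS
      obtain ⟨n, hn⟩ := Mdl.F_iSup_finset hm' S hS
      exact ⟨(s n).N', (s n).sub', le_iSup (fun n => (s n).N') n, hne' n, hn⟩
  · intro a ha
    have h1 := (hf (s 0)).2.2.1 a ha
    rw [← hs] at h1
    exact Mdl.F_mono (le_iSup (fun n => (s n).N) 1) h1
  · intro b hb
    have h1 := (hf' (s 0)).2.2.1 b hb
    rw [← hs] at h1
    exact Mdl.F_mono (le_iSup (fun n => (s n).N') 1) h1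

/-- S82 uncountability is transported. -/
theorem uncountable_transport [CharZero K] [CharZero L] [Fact ℓ.Prime] (M : Mdl K) (M' : Mdl L)
    (Θ : V ℓ K ≃ₗ[ZMod ℓ] V ℓ L)
    (hk : ¬ (M.k : Set K).Countable) : ¬ (M'.k : Set L).Countable := by
  intro hl
  apply hk
  have h1 : (Set.univ : Set L).Countable := by
    have h := M'.ctb_F hl
    rw [M'.F_k] at h
    exact h
  have h2 : (Set.univ : Set (V ℓ K)).Countable := by
    refine (h1.image (fun y : L => Θ.symm (cl ℓ y))).mono ?_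
    intro v _
    obtain ⟨y, _, hy⟩ := cl_surj ℓ (Θ v)
    exact ⟨y, trivial, by simp only [hy, LinearEquiv.symm_apply_apply]⟩
  have hfg : FG M.k (⊤ : Subfield K) := by
    have h := M.fg_F M.sub_k
    rwa [M.F_k] at h
  have h3 : (⋃ v ∈ (Set.univ : Set (V ℓ K)), {c : K | c ∈ M.k ∧ cl ℓ (M.x - c) = v}).Countable :=
    h2.biUnion (fun v _ => (dist_top ℓ M.ack hfg M.hxk v).countable)
  refine h3.mono ?_
  intro c hc
  exact Set.mem_biUnion (Set.mem_univ (cl ℓ (M.x - c))) ⟨hc, rfl⟩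

end CP

end Vale.Agent.P019
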