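import Vale.Agent.P019.PlCore

/-!
# Finiteness of intersections
-/

namespace Vale.Agent.P019

set_option linter.style.haveILetI false

open Polynomial

section aux

variable {Ω : Type*} [Field Ω]

/-- `F ⊔ closure S` as an intermediate field. -/
theorem finK_sup_eq (F : Subfield Ω) (S : Set Ω) :
    (IntermediateField.adjoin F S).toSubfield = F ⊔ Subfield.closure S := by
  rw [IntermediateField.adjoin_toSubfield]
  apply le_antisymm
  · rw [Subfield.closure_le]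
    rintro z (⟨w, rfl⟩ | hz)
    · exact (le_sup_left : F ≤ F ⊔ Subfield.closure S) w.2
    · exact (le_sup_right : Subfield.closure S ≤ F ⊔ Subfield.closure S)
        (Subfield.subset_closure hz)
  · refine sup_le ?_ (Subfield.closure_mono Set.subset_union_right)
    intro z hz
    exact Subfield.subset_closure (Or.inl ⟨⟨z, hz⟩, rfl⟩)

theorem finK_mem_adj {E : Subfield Ω} {t z : Ω} :
    z ∈ adj E t ↔ ∃ p q : E[X], z = aeval t p / aeval t q := by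
  rw [← IntermediateField.mem_adjoin_simple_iff, adj, ← finK_sup_eq]
  rfl

/-- a primitive root of unity in an algebraically closed subfield. -/
theorem finK_prim [CharZero Ω] {l : Subfield Ω} (hl : IsAlgClosed l) (ℓ : ℕ) [Fact ℓ.Prime] :
    ∃ ζ ∈ l, IsPrimitiveRoot ζ ℓ := by
  haveI : NeZero ℓ := ⟨(Fact.out : ℓ.Prime).ne_zero⟩
  haveI : NeZero (ℓ : l) := ⟨by
    have : ((ℓ : ℕ) : l) ≠ 0 := Nat.cast_ne_zero.2 (NeZero.ne ℓ)
    exact this⟩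
  obtain ⟨ζ, hζ⟩ := HasEnoughRootsOfUnity.exists_primitiveRoot l ℓ
  exact ⟨ζ, ζ.2, hζ.map_of_injective (f := algebraMap l Ω) (algebraMap l Ω).injective⟩

theorem FG.mono {E F Λ : Subfield Ω} (h : FG E Λ) (hEF : E ≤ F) (hF : F ≤ Λ) : FG F Λ := by
  obtain ⟨S, hS⟩ := h
  refine ⟨S, le_antisymm ?_ ?_⟩
  · rw [hS]
    exact sup_le_sup_right hEF _
  · refine sup_le hF ?_
    rw [hS]
    exact le_sup_right

/-- pigeonhole for setoids -/
theorem finK_finite {α : Type*} (s : Setoid α) (N : ℕ)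
    (h : ∀ x : Fin (N + 1) → α, ∃ i j, i ≠ j ∧ s.r (x i) (x j)) : Finite (Quotient s) := by
  by_contra hinf
  rw [not_finite_iff_infinite] at hinf
  let e := Infinite.natEmbedding (Quotient s)
  obtain ⟨i, j, hij, hr⟩ := h (fun i => (e i.1).out)
  apply hij
  have h1 : (e i.1) = (e j.1) := by
    rw [← Quotient.out_eq (e i.1), ← Quotient.out_eq (e j.1)]
    exact Quotient.sound hr
  exact Fin.ext (e.injective h1)

end aux

section finite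

variable {Ω : Type*} [Field Ω] [CharZero Ω] (ℓ : ℕ) [Fact ℓ.Prime]

/-- S11 finite kernel, ambient version. -/
theorem fk {F Λ : Subfield Ω} (h : FG F Λ) {ζ : Ω} (hζF : ζ ∈ F) (hζ : IsPrimitiveRoot ζ ℓ) :
    ∃ N : ℕ, ∀ x : Fin (N + 1) → Ω, (∀ i, x i ∈ F ∧ x i ≠ 0 ∧ ∃ w ∈ Λ, w ^ ℓ = x i) →
      ∃ i j, i ≠ j ∧ ∃ y ∈ F, y ≠ 0 ∧ x i = x j * y ^ ℓ := by
  obtain ⟨S, hS⟩ := h
  haveI : CharZero F := inferInstance
  haveI : Algebra.EssFiniteType F (IntermediateField.adjoin F (S : Set Ω)) :=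
    IntermediateField.essFiniteType_iff.2 ⟨S, rfl⟩
  have hζ' : IsPrimitiveRoot (⟨ζ, hζF⟩ : F) ℓ :=
    IsPrimitiveRoot.of_map_of_injective (f := algebraMap F Ω) hζ (algebraMap F Ω).injective
  obtain ⟨N, hN⟩ := finite_kernel (F := F) (L := IntermediateField.adjoin F (S : Set Ω)) ℓ
    ⟨ζ, hζF⟩ hζ'
  refine ⟨N, fun x hx => ?_⟩
  obtain ⟨i, j, hij, y, hy0, hy⟩ := hN (fun i => ⟨x i, (hx i).1⟩) (by
    intro i
    obtain ⟨h1, h2, w, hw, hwx⟩ := hx i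
    refine ⟨fun h => h2 (congrArg Subtype.val h), ?_⟩
    have hw' : w ∈ IntermediateField.adjoin F (S : Set Ω) := by
      have h3 : w ∈ (IntermediateField.adjoin F (S : Set Ω)).toSubfield := by
        rw [finK_sup_eq, ← hS]; exact hw
      exact h3
    refine ⟨⟨w, hw'⟩, Subtype.ext ?_⟩
    exact hwx)
  refine ⟨i, j, hij, y, y.2, fun h => hy0 (Subtype.ext h), ?_⟩
  exact congrArg Subtype.val hy

/-- S12 -/
theorem int_fin {l E₁ E₂ Λ : Subfield Ω} (hl : IsAlgClosed l) (hfg : FG l Λ) (h1 : l ≤ E₁)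
    (h2 : l ≤ E₂) (h1' : E₁ ≤ Λ) (h2' : E₂ ≤ Λ) {y : Ω} (hy : y ∈ E₂) (hy1 : ¬ IsAlgebraic E₁ y)
    (halg : ∀ z ∈ E₂, IsAlgebraic (adj l y) z) :
    ∃ N : ℕ, ∀ x : Fin (N + 1) → Ω,
      (∀ i, x i ∈ E₁ ∧ x i ≠ 0 ∧ ∃ e ∈ E₂, ∃ w ∈ Λ, x i = e * w ^ ℓ) →
      ∃ i j, i ≠ j ∧ ∃ w ∈ E₁, w ≠ 0 ∧ x i = x j * w ^ ℓ := by
  have hℓ : ℓ ≠ 0 := (Fact.out : ℓ.Prime).ne_zero
  obtain ⟨ζ, hζl, hζ⟩ := finK_prim hl ℓ
  have hlF : l ≤ E₁ ⊔ E₂ := h1.trans le_sup_left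
  have hFG : FG (E₁ ⊔ E₂) Λ := hfg.mono hlF (sup_le h1' h2')
  obtain ⟨N, hN⟩ := fk ℓ hFG (hlF hζl) hζ
  refine ⟨N, fun x hx => ?_⟩
  choose hxE hx0 e he w hw hxe using hx
  have he0 : ∀ i, e i ≠ 0 := by
    intro i h
    apply hx0 i
    rw [hxe i, h, zero_mul]
  obtain ⟨i, j, hij, y', hy', hy0, hyy⟩ := hN (fun i => x i / e i) (by
    intro i
    refine ⟨Subfield.div_mem _ ((le_sup_left : E₁ ≤ E₁ ⊔ E₂) (hxE i))
      ((le_sup_right : E₂ ≤ E₁ ⊔ E₂) (he i)), div_ne_zero (hx0 i) (he0 i), w i, hw i, ?_⟩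
    rw [eq_div_iff (he0 i), hxe i, mul_comm])
  change x i / e i = x j / e j * y' ^ ℓ at hyy
  have hd : x i / x j = (e i / e j) * y' ^ ℓ := by
    have h3 := he0 i
    have h4 := he0 j
    have h5 := hx0 j
    rw [div_eq_iff h3] at hyy
    rw [hyy]
    field_simp
  obtain ⟨v, hv, hvx⟩ := pow_descent hl h1 h2 hy hy1 halg (Nat.pos_of_ne_zero hℓ)
    (Subfield.div_mem _ (hxE i) (hxE j)) (Subfield.div_mem _ (he i) (he j)) hy' hd
  refine ⟨i, j, hij, v, hv, ?_, ?_⟩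
  · rintro rfl
    rw [zero_pow hℓ] at hvx
    exact div_ne_zero (hx0 i) (hx0 j) hvx
  · rw [← hvx, mul_div_cancel₀ _ (hx0 j)]

/-- no two of the `x - c` are equivalent in `l(x)`. -/
theorem finK_line {l : Subfield Ω} (hl : IsAlgClosed l) {x : Ω} (hxl : x ∉ l) {c c' : Ω}
    (hc : c ∈ l) (hc' : c' ∈ l) (hcc : c ≠ c') {y : Ω} (hy : y ∈ adj l x)
    (h : x - c = (x - c') * y ^ ℓ) : False := by
  have hℓ : ℓ ≠ 0 := (Fact.out : ℓ.Prime).ne_zero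
  have hℓ1 : ℓ ≠ 1 := (Fact.out : ℓ.Prime).one_lt.ne'
  have htr : ¬ IsAlgebraic l x := fun h' => hxl (RAC_of_isAlgClosed l hl x h')
  have hinj : ∀ p : l[X], aeval x p = 0 → p = 0 := by
    intro p hp
    by_contra hp0
    exact htr ⟨p, hp0, hp⟩
  obtain ⟨p, q, hpq⟩ := finK_mem_adj.1 hy
  have hx0 : ∀ d ∈ l, x - d ≠ 0 := by
    intro d hd h0
    apply hxl
    rw [sub_eq_zero.1 h0]
    exact hd
  have hy0 : y ≠ 0 := by
    rintro rfl
    rw [zero_pow hℓ, mul_zero] at h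
    exact hx0 c hc h
  have hq0 : aeval x q ≠ 0 := by
    intro h0
    rw [h0, div_zero] at hpq
    exact hy0 hpq
  have hp0 : aeval x p ≠ 0 := by
    intro h0
    rw [h0, zero_div] at hpq
    exact hy0 hpq
  have hq : q ≠ 0 := fun h0 => hq0 (by rw [h0, map_zero])
  have hp : p ≠ 0 := fun h0 => hp0 (by rw [h0, map_zero])
  have hpoly : (X - C (⟨c, hc⟩ : l)) * q ^ ℓ = (X - C (⟨c', hc'⟩ : l)) * p ^ ℓ := by
    rw [← sub_eq_zero]
    apply hinj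
    rw [map_sub, map_mul, map_mul, map_pow, map_pow, map_sub, map_sub, aeval_X, aeval_C, aeval_C]
    change (x - c) * _ - (x - c') * _ = 0
    rw [h, hpq, div_pow, mul_assoc, div_mul_cancel₀ _ (pow_ne_zero _ hq0), sub_self]
  have hm := congrArg (rootMultiplicity (⟨c, hc⟩ : l)) hpoly
  rw [rootMultiplicity_mul (mul_ne_zero (X_sub_C_ne_zero _) (pow_ne_zero _ hq)),
    rootMultiplicity_mul (mul_ne_zero (X_sub_C_ne_zero _) (pow_ne_zero _ hp)),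
    rootMultiplicity_X_sub_C_self] at hm
  have h3 : rootMultiplicity (⟨c, hc⟩ : l) (X - C (⟨c', hc'⟩ : l)) = 0 := by
    apply rootMultiplicity_eq_zero
    rw [IsRoot.def, eval_sub, eval_X, eval_C, sub_eq_zero]
    intro h4
    exact hcc (congrArg Subtype.val h4)
  rw [h3, zero_add] at hm
  have h5 : ∀ r : l[X], r ≠ 0 → ∀ n : ℕ, rootMultiplicity (⟨c, hc⟩ : l) (r ^ n) =
      n * rootMultiplicity (⟨c, hc⟩ : l) r := by
    intro r hr n
    induction n with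
    | zero => simp
    | succ n ih =>
      rw [pow_succ, rootMultiplicity_mul (mul_ne_zero (pow_ne_zero _ hr) hr), ih]
      ring
  rw [h5 q hq, h5 p hp] at hm
  have h6 : ℓ ∣ 1 := by
    have h7 : ℓ ∣ 1 + ℓ * rootMultiplicity (⟨c, hc⟩ : l) q := by
      rw [hm]; exact dvd_mul_right _ _
    exact (Nat.dvd_add_left (dvd_mul_right _ _)).1 h7
  exact hℓ1 (Nat.dvd_one.1 h6)

/-- S13 classes of `x - c` for distinct constants are distinct up to finitely many. -/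
theorem dist_fin {l Λ : Subfield Ω} (hl : IsAlgClosed l) (hfg : FG l Λ) {x : Ω} (hx : x ∈ Λ)
    (hxl : x ∉ l) :
    ∃ N : ℕ, ∀ c : Fin (N + 1) → Ω, Function.Injective c → (∀ i, c i ∈ l) →
      ∃ i j, i ≠ j ∧ ¬ ∃ w ∈ Λ, x - c i = (x - c j) * w ^ ℓ := by
  have hℓ : ℓ ≠ 0 := (Fact.out : ℓ.Prime).ne_zero
  have hlΛ : l ≤ Λ := by
    obtain ⟨S, hS⟩ := hfg
    rw [hS]; exact le_sup_left
  obtain ⟨ζ, hζl, hζ⟩ := finK_prim hl ℓ
  obtain ⟨N, hN⟩ := fk ℓ (hfg.mono (le_adj l x) (adj_le hlΛ hx)) ((le_adj l x) hζl) hζ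
  refine ⟨N + 1, fun c hc hcl => ?_⟩
  by_contra hcon
  push Not at hcon
  have hx0 : ∀ d ∈ l, x - d ≠ 0 := by
    intro d hd h0
    apply hxl
    rw [sub_eq_zero.1 h0]
    exact hd
  have hmem : ∀ d ∈ l, x - d ∈ adj l x := fun d hd =>
    Subfield.sub_mem _ (mem_adj l x) (le_adj l x hd)
  obtain ⟨i, j, hij, y, hy, -, hyy⟩ := hN (fun i => (x - c i.succ) / (x - c 0)) (by
    intro i
    refine ⟨Subfield.div_mem _ (hmem _ (hcl _)) (hmem _ (hcl _)),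
      div_ne_zero (hx0 _ (hcl _)) (hx0 _ (hcl _)), ?_⟩
    obtain ⟨w, hw, hww⟩ := hcon i.succ 0 (Fin.succ_ne_zero i)
    refine ⟨w, hw, ?_⟩
    rw [hww, mul_div_cancel_left₀ _ (hx0 _ (hcl _))])
  change (x - c i.succ) / (x - c 0) = (x - c j.succ) / (x - c 0) * y ^ ℓ at hyy
  refine finK_line ℓ hl hxl (hcl i.succ) (hcl j.succ) ?_ hy ?_
  · intro h
    exact hij (Fin.succ_injective _ (hc h))
  · have h0 := hx0 _ (hcl 0)
    rw [div_mul_eq_mul_div, div_left_inj' h0] at hyy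
    exact hyy

/-- S14 -/
theorem int_line {l E Λ : Subfield Ω} (hl : IsAlgClosed l) (hfg : FG l Λ) (hE : l ≤ E)
    (hEΛ : E ≤ Λ) {y : Ω} (hy : y ∈ Λ) (hyE : ¬ IsAlgebraic E y) (C : Set Ω) (hC : C.Infinite)
    (hCl : ∀ c ∈ C, c ∈ l) : ∃ c ∈ C, ¬ ∃ e ∈ E, ∃ w ∈ Λ, y - c = e * w ^ ℓ := by
  have hℓ : ℓ ≠ 0 := (Fact.out : ℓ.Prime).ne_zero
  by_contra hcon
  push Not at hcon
  have hyl : y ∉ l := fun h => hyE (isAlgebraic_of_mem (hE h))
  have hlΛ : l ≤ Λ := hE.trans hEΛ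
  have hx0 : ∀ d ∈ l, y - d ≠ 0 := by
    intro d hd h0
    apply hyl
    rw [sub_eq_zero.1 h0]
    exact hd
  obtain ⟨N, hN⟩ := int_fin ℓ hl hfg hE (le_adj l y) hEΛ (adj_le hlΛ hy) (mem_adj l y) hyE
    (fun z hz => isAlgebraic_of_mem hz)
  obtain ⟨N', hN'⟩ := dist_fin ℓ hl hfg hy hyl
  have h' : ∀ c : C, ∃ e ∈ E, ∃ w ∈ Λ, y - c = e * w ^ ℓ := fun c => hcon c.1 c.2
  choose e he w hw hew using h'
  have he0 : ∀ c, e c ≠ 0 := by
    intro c h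
    apply hx0 _ (hCl _ c.2)
    rw [hew c, h, zero_mul]
  have hw0 : ∀ c, w c ≠ 0 := by
    intro c h
    apply hx0 _ (hCl _ c.2)
    rw [hew c, h, zero_pow hℓ, mul_zero]
  let s : Setoid C :=
    { r := fun c c' => ∃ v ∈ Λ, v ≠ 0 ∧ y - c = (y - c') * v ^ ℓ
      iseqv :=
        { refl := fun c => ⟨1, Λ.one_mem, one_ne_zero, by rw [one_pow, mul_one]⟩
          symm := by
            rintro c c' ⟨v, hv, hv0, h⟩
            refine ⟨v⁻¹, Λ.inv_mem hv, inv_ne_zero hv0, ?_⟩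
            rw [h, inv_pow, mul_assoc, mul_inv_cancel₀ (pow_ne_zero _ hv0), mul_one]
          trans := by
            rintro c c' c'' ⟨v, hv, hv0, h⟩ ⟨v', hv', hv0', h'⟩
            refine ⟨v' * v, Λ.mul_mem hv' hv, mul_ne_zero hv0' hv0, ?_⟩
            rw [h, h', mul_pow, mul_assoc] } }
  haveI : Finite (Quotient s) := by
    refine finK_finite s N (fun x => ?_)
    obtain ⟨i, j, hij, v, hv, hv0, hvv⟩ := hN (fun i => e (x i)) (by
      intro i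
      refine ⟨he _, he0 _, y - x i, ?_, (w (x i))⁻¹, Λ.inv_mem (hw _), ?_⟩
      · exact Subfield.sub_mem _ (mem_adj l y) (le_adj l y (hCl _ (x i).2))
      · rw [hew (x i), inv_pow, mul_assoc, mul_inv_cancel₀ (pow_ne_zero _ (hw0 _)), mul_one])
    change e (x i) = e (x j) * v ^ ℓ at hvv
    refine ⟨i, j, hij, v * w (x i) / w (x j), Λ.div_mem (Λ.mul_mem (hEΛ hv) (hw _)) (hw _),
      div_ne_zero (mul_ne_zero hv0 (hw0 _)) (hw0 _), ?_⟩
    have h3 := hw0 (x j)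
    rw [hew (x i), hew (x j), hvv, div_pow, mul_pow]
    field_simp
  haveI : Infinite C := hC.to_subtype
  obtain ⟨Q, hQ⟩ := Finite.exists_infinite_fiber (Quotient.mk s)
  let f := Infinite.natEmbedding (Quotient.mk s ⁻¹' {Q})
  obtain ⟨i, j, hij, hne⟩ := hN' (fun i => ((f i.1).1 : Ω)) (by
    intro i j h
    have h1 : (f i.1).1 = (f j.1).1 := Subtype.ext h
    exact Fin.ext (f.injective (Subtype.ext h1))) (fun i => hCl _ (f i.1).1.2)
  apply hne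
  have h1 : Quotient.mk s (f i.1).1 = Q := (f i.1).2
  have h2 : Quotient.mk s (f j.1).1 = Q := (f j.1).2
  obtain ⟨v, hv, -, h⟩ := Quotient.exact (h1.trans h2.symm)
  exact ⟨v, hv, h⟩

end finite

section finiteK

variable {K : Type*} [Field K] [CharZero K] (ℓ : ℕ) [Fact ℓ.Prime]

/-- S15 -/
theorem int_top {l E₁ E₂ : Subfield K} (hl : IsAlgClosed l) (hfg : FG l (⊤ : Subfield K))
    (h1 : l ≤ E₁) (h2 : l ≤ E₂) {y : K} (hy : y ∈ E₂) (hy1 : ¬ IsAlgebraic E₁ y)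
    (halg : ∀ z ∈ E₂, IsAlgebraic (adj l y) z) :
    ((VS ℓ E₁ ⊓ VS ℓ E₂ : Submodule (ZMod ℓ) (V ℓ K)) : Set (V ℓ K)).Finite := by
  by_contra hinf
  have hinf' : ((VS ℓ E₁ ⊓ VS ℓ E₂ : Submodule (ZMod ℓ) (V ℓ K)) : Set (V ℓ K)).Infinite := hinf
  obtain ⟨N, hN⟩ := int_fin ℓ hl hfg h1 h2 le_top le_top hy hy1 halg
  let f := hinf'.natEmbedding
  have hf : ∀ i, ((f i : V ℓ K) ∈ VS ℓ E₁) ∧ ((f i : V ℓ K) ∈ VS ℓ E₂) := fun i =>
    Submodule.mem_inf.1 (f i).2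
  have h3 : ∀ i : ℕ, ∃ x ∈ E₁, x ≠ 0 ∧ (f i : V ℓ K) = cl ℓ x := fun i => mem_VS.1 (hf i).1
  have h4 : ∀ i : ℕ, ∃ x ∈ E₂, x ≠ 0 ∧ (f i : V ℓ K) = cl ℓ x := fun i => mem_VS.1 (hf i).2
  choose x hx hx0 hxf using h3
  choose e he he0 hef using h4
  obtain ⟨i, j, hij, w, hw, hw0, hww⟩ := hN (fun i => x i.1) (by
    intro i
    have h5 : cl ℓ (x i.1) = cl ℓ (e i.1) := by rw [← hxf, ← hef]
    obtain ⟨w, hw, hww⟩ := (cl_eq_iff ℓ (hx0 _) (he0 _)).1 h5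
    exact ⟨hx _, hx0 _, e i.1, he _, w, Subfield.mem_top _, hww⟩)
  apply hij
  have h6 : (f i.1 : V ℓ K) = f j.1 := by
    rw [hxf, hxf]
    exact (cl_eq_iff ℓ (hx0 _) (hx0 _)).2 ⟨w, hw0, hww⟩
  exact Fin.ext (f.injective (Subtype.ext h6))

/-- S16 -/
theorem dist_top {l : Subfield K} (hl : IsAlgClosed l) (hfg : FG l (⊤ : Subfield K)) {x : K}
    (hxl : x ∉ l) (v : V ℓ K) : {c : K | c ∈ l ∧ cl ℓ (x - c) = v}.Finite := by
  by_contra hinf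
  have hinf' : {c : K | c ∈ l ∧ cl ℓ (x - c) = v}.Infinite := hinf
  obtain ⟨N, hN⟩ := dist_fin ℓ hl hfg (Subfield.mem_top x) hxl
  let f := hinf'.natEmbedding
  obtain ⟨i, j, hij, hne⟩ := hN (fun i => (f i.1 : K)) (by
    intro i j h
    exact Fin.ext (f.injective (Subtype.ext h))) (fun i => (f i.1).2.1)
  apply hne
  have hx0 : ∀ d ∈ l, x - d ≠ 0 := by
    intro d hd h0
    apply hxl
    rw [sub_eq_zero.1 h0]
    exact hd
  have h1 := (f i.1).2.2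
  have h2 := (f j.1).2.2
  obtain ⟨w, -, hw⟩ := (cl_eq_iff ℓ (hx0 _ (f i.1).2.1) (hx0 _ (f j.1).2.1)).1 (h1.trans h2.symm)
  exact ⟨w, Subfield.mem_top _, hw⟩

end finiteK

end Vale.Agent.P019
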