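import Vale.Agent.P019.PlCore
import Vale.Agent.P019.Place

/-!
# Generic places
-/

namespace Vale.Agent.P019

set_option linter.style.haveILetI false

open Polynomial

namespace Gn

variable {K : Type*} [Field K]

theorem isAlgebraic_of_coeff {E : Subfield K} {a : K} (Q : K[X]) (hQ : Q ≠ 0)
    (hcoef : ∀ i, Q.coeff i ∈ E) (h : Q.eval a = 0) : IsAlgebraic E a := by
  have hl : Q ∈ Polynomial.lifts E.subtype := by
    rw [Polynomial.lifts_iff_coeff_lifts]
    intro n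
    exact ⟨⟨Q.coeff n, hcoef n⟩, rfl⟩
  obtain ⟨Q', hQ'⟩ := hl
  refine ⟨Q', ?_, ?_⟩
  · rintro rfl
    apply hQ
    rw [← hQ']
    exact Polynomial.map_zero _
  · rw [← h, ← hQ']
    change _ = eval a (Q'.map E.subtype)
    rw [eval_map]
    rfl

theorem exists_finset_le {S : Set (Subfield K)} (Sne : S.Nonempty) (hS : DirectedOn (· ≤ ·) S)
    (s : Finset K) (hs : ∀ x ∈ s, x ∈ sSup S) : ∃ E ∈ S, ∀ x ∈ s, x ∈ E := by
  classical
  induction s using Finset.induction_on with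
  | empty =>
    obtain ⟨E, hE⟩ := Sne
    exact ⟨E, hE, by simp⟩
  | insert b s hb ih =>
    obtain ⟨E, hE, hE'⟩ := ih (fun x hx => hs x (Finset.mem_insert_of_mem hx))
    obtain ⟨E₂, hE₂, hb'⟩ := (Subfield.mem_sSup_of_directedOn Sne hS).1
      (hs b (Finset.mem_insert_self _ _))
    obtain ⟨E₃, hE₃, h1, h2⟩ := hS E hE E₂ hE₂
    refine ⟨E₃, hE₃, fun x hx => ?_⟩
    rcases Finset.mem_insert.1 hx with rfl | hx
    · exact h2 hb'
    · exact h1 (hE' x hx)

theorem isAlgebraic_sSup {S : Set (Subfield K)} (Sne : S.Nonempty) (hS : DirectedOn (· ≤ ·) S)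
    {a : K} (h : IsAlgebraic (sSup S : Subfield K) a) : ∃ E ∈ S, IsAlgebraic E a := by
  classical
  obtain ⟨Q, hQ0, hQ⟩ := h
  set R : K[X] := Q.map (sSup S : Subfield K).subtype with hR
  have hR0 : R ≠ 0 := by
    rw [hR, Ne, Polynomial.map_eq_zero_iff (RingHom.injective _)]; exact hQ0
  have hRa : R.eval a = 0 := by
    rw [hR, eval_map]; exact hQ
  have hmem : ∀ i, R.coeff i ∈ sSup S := by
    intro i
    rw [hR, coeff_map]
    exact (Q.coeff i).2
  obtain ⟨E, hE, hE'⟩ := exists_finset_le Sne hS (R.support.image R.coeff) (by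
    intro x hx
    obtain ⟨i, -, rfl⟩ := Finset.mem_image.1 hx
    exact hmem i)
  refine ⟨E, hE, isAlgebraic_of_coeff R hR0 (fun i => ?_) hRa⟩
  by_cases hi : R.coeff i = 0
  · rw [hi]; exact E.zero_mem
  · exact hE' _ (Finset.mem_image_of_mem _ (mem_support_iff.2 hi))

theorem isAlgebraic_of_map {Ω : Type*} [Field Ω] [Algebra K Ω] {E : Subfield K} {z : K}
    (h : IsAlgebraic (E.map (algebraMap K Ω)) (algebraMap K Ω z)) : IsAlgebraic E z := by
  obtain ⟨Q, hQ0, hQ⟩ := h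
  have hl : Q.map (E.map (algebraMap K Ω)).subtype ∈ Polynomial.lifts ((algebraMap K Ω).comp E.subtype) := by
    rw [Polynomial.lifts_iff_coeff_lifts]
    intro n
    rw [coeff_map]
    obtain ⟨x, hx, hx'⟩ := (Q.coeff n).2
    exact ⟨⟨x, hx⟩, hx'⟩
  obtain ⟨Q', hQ'⟩ := hl
  have hQ'' : Q'.map ((algebraMap K Ω).comp E.subtype) = Q.map (E.map (algebraMap K Ω)).subtype := hQ'
  refine ⟨Q', ?_, ?_⟩
  · rintro rfl
    rw [Polynomial.map_zero] at hQ''
    exact hQ0 ((Polynomial.map_eq_zero_iff (RingHom.injective _)).1 hQ''.symm)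
  · apply (algebraMap K Ω).injective
    rw [map_zero, aeval_def, hom_eval₂]
    have h1 : eval (algebraMap K Ω z) (Q.map (E.map (algebraMap K Ω)).subtype) = 0 := by
      rw [eval_map]
      exact hQ
    rw [← hQ'', eval_map] at h1
    exact h1

theorem mem_adj_frac {E : Subfield K} {a z : K} (hz : z ∈ adj E a) :
    ∃ r s : E[X], z = aeval a r / aeval a s := by
  have h1 : adj E a ≤ (IntermediateField.adjoin E {a}).toSubfield := by
    refine adj_le ?_ ?_
    · intro x hx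
      exact (IntermediateField.adjoin E {a}).algebraMap_mem ⟨x, hx⟩
    · exact IntermediateField.mem_adjoin_simple_self E a
  exact (IntermediateField.mem_adjoin_simple_iff E z).1 (h1 hz)

theorem aeval_mem_adj {E : Subfield K} (a : K) (r : E[X]) : aeval a r ∈ adj E a := by
  rw [aeval_eq_sum_range]
  refine Subfield.sum_mem _ (fun i _ => ?_)
  rw [Algebra.smul_def]
  exact Subfield.mul_mem _ (le_adj E a (SetLike.coe_mem _)) (pow_mem (mem_adj E a) i)

/-- complement of `a` in `k` over `N`. -/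
theorem exists_compl {N k : Subfield K} (hk : RAC k) (hNk : N ≤ k) (hN : RAC N) {a : K}
    (haN : a ∉ N) :
    ∃ k₁ : Subfield K, N ≤ k₁ ∧ k₁ ≤ k ∧ RAC k₁ ∧ a ∉ k₁ ∧
      ∀ b ∈ k, IsAlgebraic (adj k₁ a) b := by
  let S : Set (Subfield K) := {E | N ≤ E ∧ E ≤ k ∧ ¬ IsAlgebraic E a}
  have hNS : N ∈ S := ⟨le_rfl, hNk, fun h => haN (hN _ h)⟩
  obtain ⟨E, hNE, hE⟩ := zorn_le_nonempty₀ S (by
    intro c hcS hc y hy
    have hd : DirectedOn (· ≤ ·) c := hc.directedOn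
    refine ⟨sSup c, ⟨?_, ?_, ?_⟩, fun z hz => le_sSup hz⟩
    · exact (hcS hy).1.trans (le_sSup hy)
    · exact sSup_le (fun z hz => (hcS hz).2.1)
    · intro h
      obtain ⟨E, hE, hE'⟩ := isAlgebraic_sSup ⟨y, hy⟩ hd h
      exact (hcS hE).2.2 hE') N hNS
  obtain ⟨⟨-, hEk, hEa⟩, hmax⟩ := hE
  have hrac : RAC E := by
    have h1 : rac E ∈ S := ⟨hNE.trans (le_rac E), hk.le hEk, fun h => hEa (isAlgebraic_rac h)⟩
    have h2 : rac E ≤ E := hmax h1 (le_rac E)
    intro z hz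
    exact h2 (mem_rac.2 hz)
  refine ⟨E, hNE, hEk, hrac, fun h => hEa (isAlgebraic_of_mem h), ?_⟩
  intro b hb
  by_contra hcon
  have h1 : ¬ IsAlgebraic (adj E b) a := fun h => hcon (exchange hEa h)
  have h2 : adj E b ∈ S := ⟨hNE.trans (le_adj E b), adj_le hEk hb, h1⟩
  have h3 : adj E b ≤ E := hmax h2 (le_adj E b)
  exact hcon (isAlgebraic_of_mem (le_adj E a (h3 (mem_adj E b))))

variable {Ω : Type*} [Field Ω]

/-- place sending `a` to `t`, identity on `A`. -/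
theorem exists_pl [Algebra K Ω] [IsAlgClosed Ω] {A : Subfield K} {a : K}
    (ha : ¬ IsAlgebraic A a) (t : K) :
    ∃ P : Pl K Ω, (∀ x ∈ A, x ∈ P.O ∧ P.ev x = algebraMap K Ω x) ∧ a ∈ P.O ∧
      P.ev a = algebraMap K Ω t := by
  have hta : Transcendental A a := ha
  let e := Polynomial.algEquivOfTranscendental A a hta
  let φ : (Algebra.adjoin A {a}).toSubring →+* Ω :=
    ((eval₂RingHom ((algebraMap K Ω).comp A.subtype) (algebraMap K Ω t)).comp
      (e.symm : Algebra.adjoin A {a} →+* A[X]))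
  obtain ⟨O, ψ, h1, h2⟩ := exists_place (Algebra.adjoin A {a}).toSubring φ
  let P : Pl K Ω := ⟨O, ψ, h2⟩
  have hA : ∀ x (hx : x ∈ A), ∃ h : x ∈ (Algebra.adjoin A {a}).toSubring,
      φ ⟨x, h⟩ = algebraMap K Ω x := by
    intro x hx
    have h3 : x ∈ Algebra.adjoin A {a} := (Algebra.adjoin A {a}).algebraMap_mem ⟨x, hx⟩
    refine ⟨h3, ?_⟩
    have h4 : e.symm ⟨x, h3⟩ = C ⟨x, hx⟩ := by
      rw [AlgEquiv.symm_apply_eq]
      apply Subtype.ext
      simp [e]
      rfl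
    change eval₂RingHom _ _ (e.symm ⟨x, h3⟩) = _
    rw [h4]
    simp
  have ha' : ∃ h : a ∈ (Algebra.adjoin A {a}).toSubring, φ ⟨a, h⟩ = algebraMap K Ω t := by
    have h3 : a ∈ Algebra.adjoin A {a} := Algebra.self_mem_adjoin_singleton A a
    refine ⟨h3, ?_⟩
    have h4 : e.symm ⟨a, h3⟩ = X := by
      rw [AlgEquiv.symm_apply_eq]
      apply Subtype.ext
      simp [e]
    change eval₂RingHom _ _ (e.symm ⟨a, h3⟩) = _
    rw [h4]
    simp
  refine ⟨P, ?_, ?_, ?_⟩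
  · intro x hx
    obtain ⟨h, h'⟩ := hA x hx
    obtain ⟨hxO, hx'⟩ := h1 x h
    refine ⟨hxO, ?_⟩
    rw [P.ev_of_mem (show x ∈ P.O from hxO)]
    exact hx'.trans h'
  · obtain ⟨h, h'⟩ := ha'
    exact (h1 a h).1
  · obtain ⟨h, h'⟩ := ha'
    obtain ⟨hxO, hx'⟩ := h1 a h
    rw [P.ev_of_mem (show a ∈ P.O from hxO)]
    exact hx'.trans h'

section

variable {P : Pl K Ω}

/-- evaluation of polynomials. -/
theorem ev_aeval [Algebra K Ω] {A : Subfield K} {a t : K}
    (hA : ∀ x ∈ A, x ∈ P.O ∧ P.ev x = algebraMap K Ω x) (ha : a ∈ P.O)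
    (hat : P.ev a = algebraMap K Ω t) (Q : A[X]) :
    aeval a Q ∈ P.O ∧ P.ev (aeval a Q) = algebraMap K Ω (aeval t Q) := by
  induction Q using Polynomial.induction_on' with
  | add p q hp hq =>
    rw [map_add, map_add, map_add, ← hp.2, ← hq.2]
    exact ⟨P.O.add_mem _ _ hp.1 hq.1, P.ev_add hp.1 hq.1⟩
  | monomial n c =>
    rw [aeval_monomial, aeval_monomial, map_mul, map_pow]
    have h1 := hA c c.2
    refine ⟨P.O.mul_mem _ _ h1.1 (pow_mem ha n), ?_⟩
    change P.ev ((c : K) * a ^ n) = _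
    rw [P.ev_mul h1.1 (pow_mem ha n), P.ev_pow ha, hat, h1.2]
    rfl

/-- triviality on `E(a)` if `t` is transcendental over `E`. -/
theorem mem_and_ev [Algebra K Ω] {E : Subfield K} {a t : K}
    (hA : ∀ x ∈ E, x ∈ P.O ∧ P.ev x = algebraMap K Ω x) (ha : a ∈ P.O)
    (hat : P.ev a = algebraMap K Ω t) (ht : ¬ IsAlgebraic E t) {z : K} (hz : z ∈ adj E a) :
    z ∈ P.O ∧ P.ev z ∈ (adj E t).map (algebraMap K Ω) := by
  obtain ⟨r, s, rfl⟩ := mem_adj_frac hz
  by_cases hs : s = 0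
  · rw [hs, map_zero, div_zero, P.ev_zero]
    exact ⟨P.O.zero_mem, Subfield.zero_mem _⟩
  have hst : aeval t s ≠ 0 := fun h => ht ⟨s, hs, h⟩
  have hr := ev_aeval hA ha hat r
  have hs' := ev_aeval hA ha hat s
  have hU : P.U (aeval a s) := ⟨hs'.1, by
    rw [hs'.2, Ne, map_eq_zero]; exact hst⟩
  refine ⟨?_, ?_⟩
  · rw [div_eq_mul_inv]
    exact P.O.mul_mem _ _ hr.1 hU.inv_mem
  · rw [P.ev_div hr.1 hU, hr.2, hs'.2, ← map_div₀]
    exact ⟨_, Subfield.div_mem _ (aeval_mem_adj t r) (aeval_mem_adj t s), rfl⟩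

/-- discreteness on `A(a)`. -/
theorem gd_adj [Algebra K Ω] {A : Subfield K} {a t : K}
    (hA : ∀ x ∈ A, x ∈ P.O ∧ P.ev x = algebraMap K Ω x) (ha : a ∈ P.O)
    (hat : P.ev a = algebraMap K Ω t) (htA : t ∈ A) (hta : t - a ≠ 0) (κ : Subfield Ω)
    (hκ : ∀ x ∈ A, algebraMap K Ω x ∈ κ) : Gd P (t - a) κ (adj A a) := by
  have key : ∀ Q : A[X], Q ≠ 0 → ∃ (n : ℕ) (u : K), P.U u ∧ P.ev u ∈ κ ∧
      aeval a Q = (t - a) ^ n * u := by
    intro Q hQ
    obtain ⟨h, hh, hh'⟩ := exists_eq_pow_rootMultiplicity_mul_and_not_dvd Q hQ (⟨t, htA⟩ : A)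
    set n := rootMultiplicity (⟨t, htA⟩ : A) Q
    have h1 := ev_aeval hA ha hat h
    have h2 : aeval t h ≠ 0 := by
      intro h3
      apply hh'
      rw [dvd_iff_isRoot, IsRoot.def]
      apply Subtype.ext
      have h4 : aeval ((algebraMap A K) ⟨t, htA⟩) h = algebraMap A K (eval ⟨t, htA⟩ h) := by
        rw [aeval_algebraMap_apply, coe_aeval_eq_eval]
      exact h4.symm.trans h3
    have h3 : aeval t h ∈ A := by
      have h4 : aeval ((algebraMap A K) ⟨t, htA⟩) h = algebraMap A K (eval ⟨t, htA⟩ h) := by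
        rw [aeval_algebraMap_apply, coe_aeval_eq_eval]
      have h5 : aeval t h = algebraMap A K (eval ⟨t, htA⟩ h) := h4
      rw [h5]
      exact SetLike.coe_mem _
    have hm1 : (-1 : K) ∈ A := A.neg_mem A.one_mem
    have hm : (-1 : K) ^ n * aeval a h ∈ P.O ∧
        P.ev ((-1 : K) ^ n * aeval a h) = algebraMap K Ω ((-1) ^ n * aeval t h) := by
      have h5 := hA _ (pow_mem hm1 n)
      refine ⟨P.O.mul_mem _ _ h5.1 h1.1, ?_⟩
      rw [P.ev_mul h5.1 h1.1, h5.2, h1.2, map_mul]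
    refine ⟨n, (-1) ^ n * aeval a h, ⟨hm.1, ?_⟩, ?_, ?_⟩
    · rw [hm.2, Ne, map_eq_zero]
      exact mul_ne_zero (pow_ne_zero _ (neg_ne_zero.2 one_ne_zero)) h2
    · rw [hm.2]
      exact hκ _ (A.mul_mem (pow_mem hm1 n) h3)
    · rw [hh, map_mul, map_pow, map_sub, aeval_X, aeval_C]
      change (a - t) ^ n * _ = _
      rw [← neg_sub t a, neg_pow]
      ring
  intro z hz hz0
  obtain ⟨r, s, rfl⟩ := mem_adj_frac hz
  have hr0 : r ≠ 0 := by
    rintro rfl
    rw [map_zero, zero_div] at hz0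
    exact hz0 rfl
  have hs0 : s ≠ 0 := by
    rintro rfl
    rw [map_zero, div_zero] at hz0
    exact hz0 rfl
  obtain ⟨n, u, hu, hu', e1⟩ := key r hr0
  obtain ⟨m, v, hv, hv', e2⟩ := key s hs0
  refine ⟨(m : ℤ) - n, ?_⟩
  have e3 : aeval a r / aeval a s * (t - a) ^ ((m : ℤ) - n) = u / v := by
    have := hv.ne_zero
    rw [e1, e2, zpow_sub₀ hta, zpow_natCast, zpow_natCast]
    field_simp
  rw [e3]
  exact ⟨hu.div hv, by rw [P.ev_div hu.1 hv]; exact κ.div_mem hu' hv'⟩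

theorem Gd_mono {π : K} {κ : Subfield Ω} {F F' : Subfield K} (h : F' ≤ F) (hF : Gd P π κ F) :
    Gd P π κ F' := fun z hz hz0 => hF z (h hz) hz0

/-- nonzero elements of a field inside the valuation ring are units. -/
theorem U_of_field {k : Subfield K} (hk : ∀ x ∈ k, x ∈ P.O) {c : K} (hc : c ∈ k) (hc0 : c ≠ 0) :
    P.U c := by
  refine ⟨hk c hc, fun h => ?_⟩
  have h1 := P.ev_mul (hk c hc) (hk _ (k.inv_mem hc))
  rw [mul_inv_cancel₀ hc0, P.ev_one, h, zero_mul] at h1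
  exact one_ne_zero h1

/-- adjoining finitely many constants. -/
theorem gd_finset [CharZero K] {π : K} {κ : Subfield Ω} {F E k : Subfield K}
    (hπ : π ≠ 0) (hπO : π ∈ P.O) (hπ0 : P.ev π = 0) (hπF : π ∈ F) (hF : Gd P π κ F)
    (hEF : E ≤ F) (hEk : E ≤ k) (hk : ∀ x ∈ k, x ∈ P.O) (hκ : ∀ x ∈ k, P.ev x ∈ κ)
    (halg : ∀ x ∈ k, IsAlgebraic E x) (T : Finset K) (hT : (T : Set K) ⊆ k) :
    Gd P π κ (F ⊔ Subfield.closure (T : Set K)) := by
  classical
  induction T using Finset.induction_on with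
  | empty => simpa using hF
  | insert c T hc ih =>
    have hck : c ∈ k := hT (by simp)
    have ih' := ih (fun x hx => hT (by simp only [Finset.coe_insert]; exact Set.mem_insert_of_mem _ hx))
    set F' : Subfield K := F ⊔ Subfield.closure (T : Set K) with hF'
    have hEF' : E ≤ F' := hEF.trans le_sup_left
    have hint : IsIntegral E c := (halg c hck).isIntegral
    have hae : ∀ Q : E[X], aeval c (Q.map (Subfield.inclusion hEF')) = aeval c Q := by
      intro Q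
      rw [aeval_def, eval₂_map]
      rfl
    have h1 : Gd P π κ (Subfield.closure (F' ∪ {c})) := by
      refine ih'.adjoin hπ hπO hπ0 ?_ (hk c hck) (hκ c hck)
        ((minpoly E c).map (Subfield.inclusion hEF')) ((minpoly.monic hint).map _) ?_ ?_ ?_
      · exact (le_sup_left : F ≤ F') hπF
      · intro i
        rw [coeff_map]
        exact hk _ (hEk (SetLike.coe_mem _))
      · rw [hae, minpoly.aeval]
      · rw [derivative_map, hae]
        refine U_of_field hk ?_ ?_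
        · exact adj_le hEk hck (aeval_mem_adj c _)
        · have hsep : (minpoly E c).Separable :=
            (minpoly.irreducible hint).separable
          exact hsep.aeval_derivative_ne_zero (minpoly.aeval E c)
    refine Gd_mono ?_ h1
    rw [sup_le_iff, Subfield.closure_le]
    refine ⟨?_, ?_⟩
    · intro x hx
      exact Subfield.subset_closure (Or.inl ((le_sup_left : F ≤ F') hx))
    · intro x hx
      simp only [Finset.coe_insert] at hx
      rcases hx with rfl | hx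
      · exact Subfield.subset_closure (Or.inr rfl)
      · exact Subfield.subset_closure (Or.inl ((le_sup_right : _ ≤ F')
          (Subfield.subset_closure hx)))

theorem exists_finset_sup {F k : Subfield K} {z : K} (hz : z ∈ F ⊔ k) :
    ∃ T : Finset K, (T : Set K) ⊆ k ∧ z ∈ F ⊔ Subfield.closure (T : Set K) := by
  classical
  have hz' : z ∈ Subfield.closure ((F : Set K) ∪ k) := by
    have : F ⊔ k ≤ Subfield.closure ((F : Set K) ∪ k) := by
      rw [sup_le_iff]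
      exact ⟨fun x hx => Subfield.subset_closure (Or.inl hx),
        fun x hx => Subfield.subset_closure (Or.inr hx)⟩
    exact this hz
  have hmono : ∀ S T : Finset K, S ⊆ T → F ⊔ Subfield.closure (S : Set K) ≤
      F ⊔ Subfield.closure (T : Set K) := fun S T h =>
    sup_le_sup_left (Subfield.closure_mono (by exact_mod_cast h)) _
  clear hz
  induction hz' using Subfield.closure_induction with
  | mem x hx =>
    rcases hx with hx | hx
    · exact ⟨∅, by simp, (le_sup_left : F ≤ _) hx⟩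
    · refine ⟨{x}, by simpa using hx, ?_⟩
      exact (le_sup_right : Subfield.closure _ ≤ _) (Subfield.subset_closure (by simp))
  | one => exact ⟨∅, by simp, Subfield.one_mem _⟩
  | add x y _ _ hx hy =>
    obtain ⟨S, hS, hS'⟩ := hx
    obtain ⟨T, hT, hT'⟩ := hy
    exact ⟨S ∪ T, by simpa using ⟨hS, hT⟩, Subfield.add_mem _
      (hmono _ _ Finset.subset_union_left hS') (hmono _ _ Finset.subset_union_right hT')⟩
  | neg x _ hx =>
    obtain ⟨S, hS, hS'⟩ := hx
    exact ⟨S, hS, Subfield.neg_mem _ hS'⟩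
  | inv x _ hx =>
    obtain ⟨S, hS, hS'⟩ := hx
    exact ⟨S, hS, Subfield.inv_mem _ hS'⟩
  | mul x y _ _ hx hy =>
    obtain ⟨S, hS, hS'⟩ := hx
    obtain ⟨T, hT, hT'⟩ := hy
    exact ⟨S ∪ T, by simpa using ⟨hS, hT⟩, Subfield.mul_mem _
      (hmono _ _ Finset.subset_union_left hS') (hmono _ _ Finset.subset_union_right hT')⟩

end

end Gn

namespace Mdl

variable {K : Type*} [Field K] [CharZero K] (M : Mdl K) (ℓ : ℕ) [Fact ℓ.Prime]

/-- S41 generic places. -/
theorem exists_gen {N : Subfield K} (hN : M.Sub N) {a t : K} (ha : a ∈ M.k) (haN : a ∉ N)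
    (ht : t ∈ M.F N) (htN : t ∉ N) :
    ∃ O : ValuationSubring K, IsUnif O (t - a) ∧ (∀ z ∈ M.F N, z ≠ 0 → O.valuation z = 1) ∧
      (∀ c ∈ M.k, c ≠ 0 → O.valuation c = 1) ∧
      (∀ x ∈ M.F N, x ≠ 0 → cl ℓ x ∈ U1 ℓ O → cl ℓ x ∈ VS ℓ (rac (adj M.k t))) := by
  classical
  obtain ⟨k₁, hNk₁, hk₁k, hrac, hak₁, halg⟩ := Gn.exists_compl M.RAC_k hN.le hN.rac haN
  set A : Subfield K := M.F k₁ with hAdef
  have hk0 : M.k0 ≤ k₁ := hN.ge.trans hNk₁
  have haA : ¬ IsAlgebraic A a := fun h => hak₁ (M.free k₁ hrac hk0 hk₁k a ha h)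
  have hFA : M.F N ≤ A := Mdl.F_mono hNk₁
  have htA : t ∈ A := hFA ht
  have htk : t ∉ M.k := fun h => htN (M.free N hN.rac hN.ge hN.le t h (isAlgebraic_of_mem ht))
  have htalg : ¬ IsAlgebraic k₁ t := fun h => htk (M.RAC_k t (isAlgebraic_mono hk₁k h))
  let Ω := AlgebraicClosure K
  haveI : CharZero Ω := charZero_of_injective_algebraMap (algebraMap K Ω).injective
  obtain ⟨P, hPA, haO, hat⟩ := Gn.exists_pl (Ω := Ω) haA t
  have hk₁A : k₁ ≤ A := le_sup_right
  have hPk₁ : ∀ x ∈ k₁, x ∈ P.O ∧ P.ev x = algebraMap K Ω x := fun x hx => hPA x (hk₁A hx)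
  have hE : ∀ x ∈ adj k₁ a, x ∈ P.O ∧ P.ev x ∈ (adj k₁ t).map (algebraMap K Ω) :=
    fun x hx => Gn.mem_and_ev hPk₁ haO hat htalg hx
  have hEk : adj k₁ a ≤ M.k := adj_le hk₁k ha
  have hPk : ∀ x ∈ M.k, x ∈ P.O := fun x hx =>
    P.mem_of_isAlgebraic (adj k₁ a) (fun y hy => (hE y hy).1) (halg x hx)
  -- the image of the constants
  let ρ : M.k →+* Ω := P.ψ.comp (Subring.inclusion (S := M.k.toSubring) (T := P.O.toSubring) hPk)
  have hρ : ∀ x : M.k, ρ x = P.ev x := fun x => (P.ev_of_mem (hPk x x.2)).symm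
  let B : Subfield Ω := ρ.fieldRange
  let A' : Subfield Ω := A.map (algebraMap K Ω)
  let κ : Subfield Ω := A' ⊔ B
  have hκA : ∀ x ∈ A, algebraMap K Ω x ∈ κ := fun x hx =>
    (le_sup_left : A' ≤ κ) ⟨x, hx, rfl⟩
  have hκB : ∀ x ∈ M.k, P.ev x ∈ κ := fun x hx =>
    (le_sup_right : B ≤ κ) ⟨⟨x, hx⟩, hρ ⟨x, hx⟩⟩
  have hπ : t - a ≠ 0 := by
    rw [sub_ne_zero]
    rintro rfl
    exact htk ha
  have htO := hPA t htA
  have hπO : t - a ∈ P.O := sub_mem htO.1 haO
  have hπ0 : P.ev (t - a) = 0 := by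
    rw [P.ev_sub htO.1 haO, htO.2, hat, sub_self]
  have hπF : t - a ∈ adj A a := Subfield.sub_mem _ (le_adj A a htA) (mem_adj A a)
  have hGd0 : Gd P (t - a) κ (adj A a) := Gn.gd_adj hPA haO hat htA hπ κ hκA
  have hGd : Gd P (t - a) κ ⊤ := by
    intro z _ hz0
    have hz : z ∈ adj A a ⊔ M.k := by
      have h1 : (⊤ : Subfield K) ≤ adj A a ⊔ M.k := by
        rw [← M.sup]
        exact sup_le_sup_right (le_trans le_sup_left (le_adj A a)) _
      exact h1 trivial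
    obtain ⟨T, hT, hzT⟩ := Gn.exists_finset_sup hz
    exact Gn.gd_finset hπ hπO hπ0 hπF hGd0 (adj_mono hk₁A a) hEk hPk hκB halg T hT z hzT hz0
  have hUA : ∀ x ∈ A, x ≠ 0 → P.U x := fun x hx hx0 =>
    Gn.U_of_field (fun y hy => (hPA y hy).1) hx hx0
  refine ⟨P.O, ⟨hπ, ?_, ?_⟩, ?_, ?_, ?_⟩
  · exact (P.ev_eq_zero_iff hπO).1 hπ0
  · intro z hz0
    obtain ⟨n, hn, -⟩ := hGd z trivial hz0
    exact ⟨n, P.U_iff.1 hn⟩
  · intro z hz hz0
    exact P.U_iff.1 (hUA z (hFA hz) hz0)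
  · intro c hc hc0
    exact P.U_iff.1 (Gn.U_of_field hPk hc hc0)
  · rintro x hx hx0 ⟨m, hm, hxm⟩
    have hℓ : ℓ ≠ 0 := (Fact.out : ℓ.Prime).ne_zero
    have hxA := hFA hx
    have hxU := hUA x hxA hx0
    obtain ⟨y, hy0, hy⟩ := (cl_eq_iff ℓ hx0 (one_add_ne_zero hm)).1 hxm
    have hmU : P.U (1 + m) := P.U_iff.2 (val_one_add hm)
    have hyl : P.U (y ^ ℓ) := by
      have : y ^ ℓ = x / (1 + m) := by
        rw [hy]
        have := hmU.ne_zero
        field_simp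
      rw [this]
      exact hxU.div hmU
    have hyU : P.U y := by
      rw [P.U_iff] at hyl ⊢
      rw [map_pow] at hyl
      exact (pow_eq_one_iff.1 hyl).resolve_right hℓ
    have hev : P.ev y ^ ℓ = algebraMap K Ω x := by
      rw [← (hPA x hxA).2, ← P.ev_pow hyU.1]
      conv_rhs => rw [hy]
      rw [P.ev_mul hmU.1 hyl.1, P.ev_add P.O.one_mem (P.mem_of_lt hm), P.ev_one,
        P.ev_of_lt hm, add_zero, one_mul]
    have hevy : P.ev y ∈ κ := Gd.ev_mem hπ hπO hπ0 hGd (z := y) trivial hyU.1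
    -- Kummer descent
    let E₀ : Subfield K := rac (adj k₁ t) ⊓ A
    have hk₁E₀ : k₁ ≤ E₀ := le_inf ((le_adj k₁ t).trans (le_rac _)) hk₁A
    haveI : IsAlgClosed M.k0 := M.ack0
    haveI : NeZero ((ℓ : ℕ) : M.k0) := ⟨by
      rw [Nat.cast_ne_zero]; exact hℓ⟩
    obtain ⟨ζ, hζ⟩ := HasEnoughRootsOfUnity.exists_primitiveRoot M.k0 ℓ
    have hζ' : IsPrimitiveRoot (algebraMap K Ω (ζ : K)) ℓ := by
      have h1 : IsPrimitiveRoot (ζ : K) ℓ := hζ.map_of_injective (f := M.k0.subtype)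
        (RingHom.injective _)
      exact h1.map_of_injective (algebraMap K Ω).injective
    have hac : ∀ z ∈ A', IsAlgebraic (E₀.map (algebraMap K Ω)) z →
        z ∈ E₀.map (algebraMap K Ω) := by
      rintro _ ⟨z, hz, rfl⟩ halgz
      have h1 := Gn.isAlgebraic_of_map halgz
      have h2 : IsAlgebraic (rac (adj k₁ t)) z := isAlgebraic_mono inf_le_left h1
      exact ⟨z, ⟨RAC_rac _ z h2, hz⟩, rfl⟩
    have hB : ∀ b ∈ B, IsAlgebraic (E₀.map (algebraMap K Ω)) b := by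
      rintro _ ⟨c, rfl⟩
      rw [hρ]
      have h1 := P.isAlgebraic_ev (adj k₁ a) ((adj k₁ t).map (algebraMap K Ω))
        (fun x hx _ => (hE x hx).2) (halg c c.2) (hPk c c.2)
      refine isAlgebraic_mono ?_ h1
      rintro _ ⟨z, hz, rfl⟩
      refine ⟨z, ⟨le_rac _ hz, ?_⟩, rfl⟩
      exact adj_le hk₁A htA hz
    obtain ⟨e, ⟨e', he', rfl⟩, w, ⟨w', hw', rfl⟩, hew⟩ :=
      kummer_descent ℓ (E₀.map (algebraMap K Ω)) A' B
        (by rintro _ ⟨z, hz, rfl⟩; exact ⟨z, hz.2, rfl⟩) hac hB _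
        ⟨ζ, hk₁E₀ (hk0 ζ.2), rfl⟩ hζ' (h := algebraMap K Ω x) ⟨x, hxA, rfl⟩
        (by rw [Ne, map_eq_zero]; exact hx0) hevy hev
    have hx' : x = e' * w' ^ ℓ := by
      apply (algebraMap K Ω).injective
      rw [map_mul, map_pow]
      exact hew
    rw [cl_ne_zero_mem_VS hx0]
    refine ⟨e', rac_mono (adj_mono hk₁k t) he'.1, ?_, w', ?_, hx'⟩
    · rintro rfl
      rw [zero_mul] at hx'
      exact hx0 hx'
    · rintro rfl
      rw [zero_pow hℓ, mul_zero] at hx'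
      exact hx0 hx'

end Mdl

end Vale.Agent.P019
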