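import Vale.Agent.P019.Sp

/-!
# Automorphisms
-/

namespace Vale.Agent.P019

set_option linter.style.haveILetI false

open Polynomial

namespace AutAux

open Cardinal

/-- matching of two supersets of finite families -/
theorem exists_equiv_of_families {A : Type*} {r : ℕ} (y y' : Fin r → A)
    (hy : Function.Injective y) (hy' : Function.Injective y') (t t' : Set A)
    (ht : Set.range y ⊆ t) (ht' : Set.range y' ⊆ t') (h : #t = #t') :
    ∃ e : t ≃ t', ∀ i, (e ⟨y i, ht ⟨i, rfl⟩⟩ : A) = y' i := by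
  classical
  have hr : ∀ z : Fin r → A, Function.Injective z →
      #(Set.range z : Set A) = (r : Cardinal) := by
    intro z hz
    rw [Cardinal.mk_fintype, Set.card_range_of_injective hz, Fintype.card_fin]
  have h1 := hr y hy
  have h1' := hr y' hy'
  have h2 : #(t \ Set.range y : Set A) + #(Set.range y : Set A) = #t :=
    Cardinal.mk_sdiff_add_mk ht
  have h2' : #(t' \ Set.range y' : Set A) + #(Set.range y' : Set A) = #t' :=
    Cardinal.mk_sdiff_add_mk ht'
  have h3 : #(t \ Set.range y : Set A) = #(t' \ Set.range y' : Set A) := by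
    rw [h1] at h2
    rw [h1'] at h2'
    rw [← h2', ← h2] at h
    exact Cardinal.eq_of_add_eq_add_right h Cardinal.natCast_lt_aleph0
  obtain ⟨f⟩ := Cardinal.eq.1 h3
  let g : Set.range y ≃ Set.range y' :=
    (Equiv.ofInjective y hy).symm.trans (Equiv.ofInjective y' hy')
  let e1 : t ≃ (Set.range y : Set A) ⊕ (t \ Set.range y : Set A) :=
    (Equiv.Set.sumDiffSubset ht).symm
  let e2 : t' ≃ (Set.range y' : Set A) ⊕ (t' \ Set.range y' : Set A) :=
    (Equiv.Set.sumDiffSubset ht').symm
  refine ⟨(e1.trans (Equiv.sumCongr g f)).trans e2.symm, fun i => ?_⟩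
  have h4 : e1 ⟨y i, ht ⟨i, rfl⟩⟩ = Sum.inl ⟨y i, ⟨i, rfl⟩⟩ := by
    apply (Equiv.Set.sumDiffSubset ht).injective
    rw [Equiv.apply_symm_apply]
    rfl
  have h5 : g ⟨y i, ⟨i, rfl⟩⟩ = ⟨y' i, ⟨i, rfl⟩⟩ := by
    have h6 : (⟨y i, ⟨i, rfl⟩⟩ : Set.range y) = Equiv.ofInjective y hy i := rfl
    show (Equiv.ofInjective y' hy') ((Equiv.ofInjective y hy).symm _) = _
    rw [h6, Equiv.symm_apply_apply]
    rfl
  rw [Equiv.trans_apply, Equiv.trans_apply, h4, Equiv.sumCongr_apply, Sum.map_inl, h5]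
  rfl

theorem exists_algEquiv_closed {N k : Type*} [Field N] [Field k] [Algebra N k] [IsAlgClosed k]
    {r : ℕ} (y y' : Fin r → k) (hy : AlgebraicIndependent N y) (hy' : AlgebraicIndependent N y') :
    ∃ τ : k ≃ₐ[N] k, ∀ i, τ (y i) = y' i := by
  obtain ⟨t, ht, htb⟩ := exists_isTranscendenceBasis_superset (R := N) hy.to_subtype_range
  obtain ⟨t', ht', htb'⟩ := exists_isTranscendenceBasis_superset (R := N) hy'.to_subtype_range
  obtain ⟨e, he⟩ := exists_equiv_of_families y y' hy.injective hy'.injective t t' ht ht'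
    (htb.cardinalMk_eq htb')
  have htb2 : IsTranscendenceBasis N (fun x : t => ((e x : t') : k)) := by
    have := htb'.comp_equiv e
    exact this
  letI := IsAlgClosed.isAlgClosure_of_transcendence_basis (R := N) (fun x : t => (x : k)) htb
  letI := IsAlgClosed.isAlgClosure_of_transcendence_basis (R := N)
    (fun x : t => ((e x : t') : k)) htb2
  let E : Algebra.adjoin N (Set.range (fun x : t => (x : k))) ≃ₐ[N]
      Algebra.adjoin N (Set.range (fun x : t => ((e x : t') : k))) :=
    htb.1.aevalEquiv.symm.trans htb2.1.aevalEquiv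
  let τ0 : k ≃+* k := IsAlgClosure.equivOfEquiv k k E.toRingEquiv
  have hτ0 : ∀ s, τ0 (algebraMap _ k s) = algebraMap _ k (E s) := fun s =>
    IsAlgClosure.equivOfEquiv_algebraMap k k E.toRingEquiv s
  refine ⟨AlgEquiv.ofRingEquiv (f := τ0) ?_, ?_⟩
  · intro c
    have h1 := hτ0 (algebraMap N _ c)
    rw [AlgEquiv.commutes] at h1
    exact h1
  · intro i
    have h1 : (y i : k) = algebraMap (Algebra.adjoin N (Set.range (fun x : t => (x : k)))) k
        (htb.1.aevalEquiv (MvPolynomial.X ⟨y i, ht ⟨i, rfl⟩⟩)) := by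
      rw [AlgebraicIndependent.algebraMap_aevalEquiv, MvPolynomial.aeval_X]
    show τ0 (y i) = y' i
    rw [h1, hτ0]
    show algebraMap _ k (htb2.1.aevalEquiv (htb.1.aevalEquiv.symm (htb.1.aevalEquiv _))) = _
    rw [AlgEquiv.symm_apply_apply, AlgebraicIndependent.algebraMap_aevalEquiv,
      MvPolynomial.aeval_X, he]


theorem exists_ext_of_inj {A K : Type*} [CommRing A] [Field K] (φ : A →+* K)
    (hφ : Function.Injective φ) (hs : ∀ z : K, ∃ x y, z = φ x / φ y) (h : A ≃+* A) :
    ∃ σ : K ≃+* K, ∀ a, σ (φ a) = φ (h a) := by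
  letI : Algebra A K := φ.toAlgebra
  haveI : FaithfulSMul A K := (faithfulSMul_iff_algebraMap_injective A K).2 hφ
  haveI : IsFractionRing A K := IsFractionRing.of_field A K hs
  exact ⟨IsFractionRing.ringEquivOfRingEquiv h, fun a =>
    IsFractionRing.ringEquivOfRingEquiv_algebraMap h a⟩

open TensorProduct in
theorem tensor_inj {N F k K : Type*} [Field N] [Field F] [Field k] [Field K] [Algebra N F]
    [Algebra N k] [Algebra N K] (f : F →ₐ[N] K) (g : k →ₐ[N] K)
    (hlin : ∀ (n : ℕ) (b : Fin n → F) (c : Fin n → k), LinearIndependent N b →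
      ∑ i, f (b i) * g (c i) = 0 → ∀ i, c i = 0) :
    Function.Injective (Algebra.TensorProduct.productMap f g) := by
  classical
  rw [injective_iff_map_eq_zero]
  intro x hx
  obtain ⟨c, rfl⟩ := TensorProduct.eq_repr_basis_left (Module.Basis.ofVectorSpace N F) x
  set b := Module.Basis.ofVectorSpace N F with hb
  have h1 : c.sum (fun i m => f (b i) * g m) = 0 := by
    rw [← hx, Finsupp.sum, Finsupp.sum, map_sum]
    refine Finset.sum_congr rfl fun i _ => ?_
    rw [Algebra.TensorProduct.productMap_apply_tmul]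
  let e : Fin c.support.card ≃ c.support := c.support.equivFin.symm
  have h2 : ∑ i : Fin c.support.card, f (b (e i)) * g (c (e i)) = 0 := by
    rw [Finsupp.sum, ← Finset.sum_coe_sort] at h1
    rw [← h1]
    exact Equiv.sum_comp e (fun j : c.support => f (b j) * g (c j))
  have h3 := hlin _ (fun i => b (e i)) (fun i => c (e i))
    (b.linearIndependent.comp (fun i => (e i : _)) (Subtype.val_injective.comp e.injective)) h2
  have h4 : c = 0 := by
    by_contra hne
    obtain ⟨j, hj⟩ := Finsupp.support_nonempty_iff.2 hne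
    have h5 := h3 (e.symm ⟨j, hj⟩)
    rw [Equiv.apply_symm_apply] at h5
    exact (Finsupp.mem_support_iff.1 hj) h5
  rw [h4, Finsupp.sum_zero_index]

theorem exists_extension {K : Type*} [Field K] (N F k : Subfield K) (hF : N ≤ F) (hk : N ≤ k)
    (hlin : ∀ (n : ℕ) (g : Fin n → K), (∀ i, g i ∈ F) →
      (∀ c : Fin n → K, (∀ i, c i ∈ N) → ∑ i, c i * g i = 0 → ∀ i, c i = 0) →
      ∀ (c : Fin n → K), (∀ i, c i ∈ k) → ∑ i, c i * g i = 0 → ∀ i, c i = 0)
    (htop : F ⊔ k = ⊤) (τ : k ≃+* k) (hτ : ∀ c : k, (c : K) ∈ N → τ c = c) :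
    ∃ σ : K ≃+* K, (∀ z ∈ F, σ z = z) ∧ ∀ c : k, σ c = τ c := by
  letI : Algebra N F := (Subfield.inclusion hF).toAlgebra
  letI : Algebra N k := (Subfield.inclusion hk).toAlgebra
  let f : F →ₐ[N] K := { F.subtype with commutes' := fun _ => rfl }
  let g : k →ₐ[N] K := { k.subtype with commutes' := fun _ => rfl }
  let τa : k ≃ₐ[N] k := AlgEquiv.ofRingEquiv (f := τ) (fun c => hτ _ c.2)
  have hinj : Function.Injective (Algebra.TensorProduct.productMap f g) := by
    apply tensor_inj
    intro n b c hb h i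
    have h1 := hlin n (fun i => (b i : K)) (fun i => (b i).2) (by
      intro d hd hsum i
      rw [Fintype.linearIndependent_iff] at hb
      have h2 := hb (fun i => ⟨d i, hd i⟩) (by
        apply Subtype.ext
        refine Eq.trans ?_ hsum
        show ((∑ i, (⟨d i, hd i⟩ : N) • b i : F) : K) = _
        rw [AddSubmonoidClass.coe_finsetSum]
        rfl) i
      exact congrArg Subtype.val h2) (fun i => (c i : K)) (fun i => (c i).2) (by
        rw [← h]
        refine Finset.sum_congr rfl fun i _ => ?_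
        exact mul_comm _ _) i
    exact Subtype.ext h1
  have hrange : ∀ z : K, ∃ x y, z = (Algebra.TensorProduct.productMap f g).toRingHom x /
      (Algebra.TensorProduct.productMap f g).toRingHom y := by
    intro z
    have hz : z ∈ Subfield.closure ((F : Set K) ∪ (k : Set K)) := by
      rw [Subfield.closure_union, Subfield.closure_eq, Subfield.closure_eq, htop]
      exact Subfield.mem_top z
    rw [Subfield.mem_closure_iff] at hz
    obtain ⟨x, hx, y, hy, rfl⟩ := hz
    have hle : Subring.closure ((F : Set K) ∪ (k : Set K)) ≤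
        (Algebra.TensorProduct.productMap f g).toRingHom.range := by
      rw [Subring.closure_le]
      rintro w (hw | hw)
      · refine ⟨(⟨w, hw⟩ : F) ⊗ₜ[N] (1 : k), ?_⟩
        show Algebra.TensorProduct.productMap f g _ = w
        rw [Algebra.TensorProduct.productMap_apply_tmul, map_one, mul_one]
        rfl
      · refine ⟨(1 : F) ⊗ₜ[N] (⟨w, hw⟩ : k), ?_⟩
        show Algebra.TensorProduct.productMap f g _ = w
        rw [Algebra.TensorProduct.productMap_apply_tmul, map_one, one_mul]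
        rfl
    obtain ⟨x', hx'⟩ := hle hx
    obtain ⟨y', hy'⟩ := hle hy
    exact ⟨x', y', by rw [hx', hy']⟩
  obtain ⟨σ, hσ⟩ := exists_ext_of_inj (Algebra.TensorProduct.productMap f g).toRingHom hinj hrange
    (Algebra.TensorProduct.congr (AlgEquiv.refl : F ≃ₐ[N] F) τa).toRingEquiv
  refine ⟨σ, ?_, ?_⟩
  · intro z hz
    have h1 := hσ ((⟨z, hz⟩ : F) ⊗ₜ[N] (1 : k))
    have h2 : (Algebra.TensorProduct.productMap f g).toRingHom ((⟨z, hz⟩ : F) ⊗ₜ[N] (1 : k)) =
        z := by
      show Algebra.TensorProduct.productMap f g _ = z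
      rw [Algebra.TensorProduct.productMap_apply_tmul, map_one, mul_one]
      rfl
    have h3 : (Algebra.TensorProduct.congr (AlgEquiv.refl : F ≃ₐ[N] F) τa).toRingEquiv
        ((⟨z, hz⟩ : F) ⊗ₜ[N] (1 : k)) = (⟨z, hz⟩ : F) ⊗ₜ[N] (1 : k) := by
      show Algebra.TensorProduct.congr (AlgEquiv.refl : F ≃ₐ[N] F) τa _ = _
      rw [Algebra.TensorProduct.congr_apply, Algebra.TensorProduct.map_tmul, map_one]
      rfl
    rw [h3, h2] at h1
    exact h1
  · intro c
    have h1 := hσ ((1 : F) ⊗ₜ[N] c)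
    have h2 : ∀ c : k, (Algebra.TensorProduct.productMap f g).toRingHom ((1 : F) ⊗ₜ[N] c) =
        (c : K) := by
      intro c
      show Algebra.TensorProduct.productMap f g _ = _
      rw [Algebra.TensorProduct.productMap_apply_tmul, map_one, one_mul]
      rfl
    have h3 : (Algebra.TensorProduct.congr (AlgEquiv.refl : F ≃ₐ[N] F) τa).toRingEquiv
        ((1 : F) ⊗ₜ[N] c) = (1 : F) ⊗ₜ[N] (τ c) := by
      show Algebra.TensorProduct.congr (AlgEquiv.refl : F ≃ₐ[N] F) τa _ = _
      rw [Algebra.TensorProduct.congr_apply, Algebra.TensorProduct.map_tmul, map_one]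
      rfl
    rw [h3, h2, h2] at h1
    exact h1


end AutAux

namespace Mdl

variable {K : Type*} [Field K] [CharZero K] (M : Mdl K)

/-- S51 automorphisms. -/
theorem exists_aut {N : Subfield K} (hN : M.Sub N) {r : ℕ} (y y' : Fin r → K)
    (hy : ∀ i, y i ∈ M.k) (hy' : ∀ i, y' i ∈ M.k) (hyi : AlgebraicIndependent N y)
    (hyi' : AlgebraicIndependent N y') :
    ∃ σ : K ≃+* K, (∀ z ∈ M.F N, σ z = z) ∧ (∀ i, σ (y i) = y' i) ∧
      (∀ z, z ∈ M.k ↔ σ z ∈ M.k) := by
  letI : Algebra N M.k := (Subfield.inclusion hN.le).toAlgebra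
  haveI : IsAlgClosed M.k := M.ack
  let g : M.k →ₐ[N] K := { M.k.subtype with commutes' := fun _ => rfl }
  have hg : Function.Injective g := Subtype.val_injective
  have h1 : AlgebraicIndependent N (fun i => (⟨y i, hy i⟩ : M.k)) := by
    rw [← AlgHom.algebraicIndependent_iff g hg]
    exact hyi
  have h1' : AlgebraicIndependent N (fun i => (⟨y' i, hy' i⟩ : M.k)) := by
    rw [← AlgHom.algebraicIndependent_iff g hg]
    exact hyi'
  obtain ⟨τ, hτ⟩ := AutAux.exists_algEquiv_closed _ _ h1 h1'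
  have htop : M.F N ⊔ M.k = ⊤ := by
    apply top_le_iff.1
    rw [← M.sup]
    exact sup_le_sup_right (K0_le N) _
  obtain ⟨σ, hσ1, hσ2⟩ := AutAux.exists_extension N (M.F N) M.k (Sub.le_F N) hN.le
    (fun n g hg hli c hc h => M.lin_disj hN g hg hli c hc h) htop τ.toRingEquiv (by
      intro c hc
      exact τ.commutes (⟨c, hc⟩ : N))
  refine ⟨σ, hσ1, ?_, ?_⟩
  · intro i
    have h2 := hσ2 ⟨y i, hy i⟩
    have h3 : τ.toRingEquiv ⟨y i, hy i⟩ = ⟨y' i, hy' i⟩ := hτ i
    rw [h3] at h2
    exact h2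
  · intro z
    constructor
    · intro hz
      rw [hσ2 ⟨z, hz⟩]
      exact (τ.toRingEquiv _).2
    · intro hz
      have h2 := hσ2 (τ.toRingEquiv.symm ⟨σ z, hz⟩)
      rw [RingEquiv.apply_symm_apply] at h2
      have h3 : ((τ.toRingEquiv.symm ⟨σ z, hz⟩ : M.k) : K) = z := σ.injective h2
      rw [← h3]
      exact (τ.toRingEquiv.symm ⟨σ z, hz⟩).2

end Mdl

end Vale.Agent.P019
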