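import Vale.Agent.P019.PlCore

/-!
# Finite families of constants, closures, independence
-/

namespace Vale.Agent.P019

set_option linter.style.haveILetI false

open Polynomial

section indep

variable {L : Type*} [Field L]

/-- closure of a subfield together with a family. -/
def clx {ι : Type*} (N : Subfield L) (y : ι → L) : Subfield L :=
  rac (N ⊔ Subfield.closure (Set.range y))

theorem adjoin_toSubfield' (N : Subfield L) (S : Set L) :
    (IntermediateField.adjoin N S).toSubfield = N ⊔ Subfield.closure S := by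
  apply le_antisymm
  · change Subfield.closure (Set.range (algebraMap N L) ∪ S) ≤ _
    rw [Subfield.closure_le]
    rintro z (⟨a, rfl⟩ | hz)
    · exact (le_sup_left : N ≤ N ⊔ Subfield.closure S) a.2
    · exact (le_sup_right : Subfield.closure S ≤ N ⊔ Subfield.closure S)
        (Subfield.subset_closure hz)
  · refine sup_le ?_ ?_
    · intro z hz
      exact (IntermediateField.adjoin N S).algebraMap_mem ⟨z, hz⟩
    · rw [Subfield.closure_le]
      exact IntermediateField.subset_adjoin N S

/-- S91 -/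
theorem isAlgebraic_adjoin_iff' (N : Subfield L) (S : Set L) (z : L) :
    IsAlgebraic (Algebra.adjoin N S) z ↔ IsAlgebraic (N ⊔ Subfield.closure S : Subfield L) z := by
  rw [← IntermediateField.isAlgebraic_adjoin_iff, ← adjoin_toSubfield' N S]
  exact Iff.rfl

theorem clx_le {ι : Type*} {N E : Subfield L} {y : ι → L} (hE : RAC E) (h : N ≤ E)
    (hy : ∀ i, y i ∈ E) : clx N y ≤ E := by
  refine hE.le (sup_le h ?_)
  rw [Subfield.closure_le]
  rintro _ ⟨i, rfl⟩
  exact hy i

theorem le_clx {ι : Type*} (N : Subfield L) (y : ι → L) : N ≤ clx N y :=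
  le_sup_left.trans (le_rac _)

theorem mem_clx {ι : Type*} (N : Subfield L) (y : ι → L) (i : ι) : y i ∈ clx N y :=
  le_rac _ ((le_sup_right : _ ≤ N ⊔ Subfield.closure (Set.range y))
    (Subfield.subset_closure ⟨i, rfl⟩))

/-- S92 -/
theorem exists_dep {r : ℕ} {N : Subfield L} (y : Fin (r + 1) → L)
    (h : ¬ AlgebraicIndependent N y) : ∃ i : Fin (r + 1), clx N y = clx N (y ∘ i.succAbove) := by
  by_contra hcon
  apply h
  refine algebraicIndependent_of_finite_type' (algebraMap N L).injective ?_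
  intro t _ _ i hi halg
  apply hcon
  refine ⟨i, le_antisymm ?_ ?_⟩
  · refine clx_le (RAC_rac _) (le_clx _ _) ?_
    intro j
    by_cases hj : j = i
    · subst hj
      have h1 := (isAlgebraic_adjoin_iff' N (y '' t) (y j)).1 halg
      refine mem_rac.2 (isAlgebraic_mono (sup_le_sup_left (Subfield.closure_mono ?_) N) h1)
      rintro _ ⟨k, hk, rfl⟩
      have hkj : k ≠ j := fun h => hi (h ▸ hk)
      obtain ⟨m, hm⟩ := Fin.exists_succAbove_eq hkj
      exact ⟨m, by simp [hm]⟩
    · obtain ⟨m, hm⟩ := Fin.exists_succAbove_eq hj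
      rw [← hm]
      exact mem_clx N (y ∘ i.succAbove) m
  · exact clx_le (RAC_rac _) (le_clx _ _) (fun m => mem_clx N y (i.succAbove m))

/-- S93 -/
theorem indep_swap {ι κ : Type*} {N N' : Subfield L} (h : N ≤ N') {y : ι → L} {y' : κ → L}
    (hy : ∀ i, y i ∈ N') (hyi : AlgebraicIndependent N y) (hyi' : AlgebraicIndependent N' y') :
    AlgebraicIndependent (clx N y') y := by
  letI : Algebra N N' := (Subfield.inclusion h).toAlgebra
  haveI : IsScalarTower N N' L := IsScalarTower.of_algebraMap_eq (fun _ => rfl)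
  have h1 : AlgebraicIndependent N (Sum.elim y' y) := by
    refine hyi.sumElim_of_tower (S := N') ?_ hyi'
    rintro _ ⟨i, rfl⟩
    exact ⟨⟨y i, hy i⟩, rfl⟩
  have h2 : AlgebraicIndependent N (Sum.elim y y') := by
    rw [← algebraicIndependent_equiv' (Equiv.sumComm κ ι) (f := Sum.elim y y')
      (g := Sum.elim y' y) (by ext (_ | _) <;> rfl)]
    exact h1
  have h3 := (AlgebraicIndependent.sumElim_iff.1 h2).2
  have h4 : AlgebraicIndependent (IntermediateField.adjoin N (Set.range y')) y :=
    IntermediateField.algebraicIndependent_adjoin_iff.2 h3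
  have h5 : AlgebraicIndependent (N ⊔ Subfield.closure (Set.range y') : Subfield L) y := by
    rw [← adjoin_toSubfield']
    exact h4
  exact h5.algebraicClosure

/-- S94 -/
theorem indep_snoc {r : ℕ} {N : Subfield L} {y : Fin r → L} (hy : AlgebraicIndependent N y) {z : L}
    (hz : z ∉ clx N y) : AlgebraicIndependent N (Fin.snoc y z : Fin (r + 1) → L) := by
  have h1 : AlgebraicIndependent N (fun o : Option (Fin r) => o.elim z y) := by
    rw [AlgebraicIndependent.option_iff]
    refine ⟨hy, fun h => hz (mem_rac.2 ?_)⟩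
    exact (isAlgebraic_adjoin_iff' N (Set.range y) z).1 h
  rw [algebraicIndependent_equiv' finSuccEquivLast
    (f := fun o : Option (Fin r) => o.elim z y)
    (g := (Fin.snoc y z : Fin (r + 1) → L)) ?_]
  · exact h1
  · funext i
    refine Fin.lastCases ?_ (fun j => ?_) i
    · simp
    · simp

/-- S95 -/
theorem clx_snoc {r : ℕ} (N : Subfield L) (y : Fin r → L) (z : L) :
    clx N (Fin.snoc y z : Fin (r + 1) → L) = rac (adj (clx N y) z) := by
  apply le_antisymm
  · refine clx_le (RAC_rac _) ?_ ?_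
    · exact (le_clx N y).trans ((le_adj _ z).trans (le_rac _))
    · intro i
      refine Fin.lastCases ?_ (fun j => ?_) i
      · rw [Fin.snoc_last]
        exact le_rac _ (mem_adj _ z)
      · rw [Fin.snoc_castSucc]
        exact le_rac _ (le_adj _ z (mem_clx N y j))
  · refine (RAC_rac _).le (adj_le ?_ ?_)
    · refine clx_le (RAC_rac _) (le_clx _ _) ?_
      intro j
      have h1 := mem_clx N (Fin.snoc y z : Fin (r + 1) → L) j.castSucc
      rwa [Fin.snoc_castSucc] at h1
    · have h1 := mem_clx N (Fin.snoc y z : Fin (r + 1) → L) (Fin.last r)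
      rwa [Fin.snoc_last] at h1

theorem exists_finset_mem (A k : Subfield L) {g : L} (hg : g ∈ A ⊔ k) :
    ∃ T : Finset L, (T : Set L) ⊆ k ∧ g ∈ A ⊔ Subfield.closure (T : Set L) := by
  classical
  have h0 : A ⊔ k = Subfield.closure ((A : Set L) ∪ (k : Set L)) := by
    rw [Subfield.closure_union, Subfield.closure_eq, Subfield.closure_eq]
  rw [h0] at hg
  have hmono : ∀ {T T' : Finset L}, T ⊆ T' →
      A ⊔ Subfield.closure (T : Set L) ≤ A ⊔ Subfield.closure (T' : Set L) := by
    intro T T' h
    exact sup_le_sup_left (Subfield.closure_mono (by exact_mod_cast h)) A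
  induction hg using Subfield.closure_induction with
  | mem x hx =>
    rcases hx with hx | hx
    · exact ⟨∅, by simp, (le_sup_left : A ≤ _) hx⟩
    · exact ⟨{x}, by simpa using hx, (le_sup_right : _ ≤ A ⊔ _)
        (Subfield.subset_closure (by simp))⟩
  | one => exact ⟨∅, by simp, Subfield.one_mem _⟩
  | add x y _ _ hx hy =>
    obtain ⟨T, hT, h1⟩ := hx
    obtain ⟨T', hT', h2⟩ := hy
    refine ⟨T ∪ T', by rw [Finset.coe_union]; exact Set.union_subset hT hT', ?_⟩
    exact Subfield.add_mem _ (hmono Finset.subset_union_left h1)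
      (hmono Finset.subset_union_right h2)
  | neg x _ hx =>
    obtain ⟨T, hT, h1⟩ := hx
    exact ⟨T, hT, Subfield.neg_mem _ h1⟩
  | inv x _ hx =>
    obtain ⟨T, hT, h1⟩ := hx
    exact ⟨T, hT, Subfield.inv_mem _ h1⟩
  | mul x y _ _ hx hy =>
    obtain ⟨T, hT, h1⟩ := hx
    obtain ⟨T', hT', h2⟩ := hy
    refine ⟨T ∪ T', by rw [Finset.coe_union]; exact Set.union_subset hT hT', ?_⟩
    exact Subfield.mul_mem _ (hmono Finset.subset_union_left h1)
      (hmono Finset.subset_union_right h2)

/-- S96 -/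
theorem Mdl.exists_family (M : Mdl L) {N : Subfield L} (hN : M.Sub N) (g : L) :
    ∃ (r : ℕ) (y : Fin r → L), (∀ i, y i ∈ M.k) ∧ g ∈ M.F (clx N y) := by
  classical
  obtain ⟨T, hT, hg⟩ := exists_finset_mem M.K0 M.k (g := g) (by rw [M.sup]; trivial)
  refine ⟨T.card, fun i => (T.equivFin.symm i : L), fun i => hT (T.equivFin.symm i).2, ?_⟩
  refine (sup_le_sup_left ?_ M.K0 :
    M.K0 ⊔ Subfield.closure (T : Set L) ≤ M.F (clx N _)) hg
  rw [Subfield.closure_le]
  intro z hz
  have h1 := mem_clx N (fun i => (T.equivFin.symm i : L)) (T.equivFin ⟨z, hz⟩)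
  simpa using h1

theorem isAlgebraic_map {E E' : Subfield L} (σ : L ≃+* L) (h : ∀ z ∈ E, σ z ∈ E') {z : L}
    (hz : IsAlgebraic E z) : IsAlgebraic E' (σ z) := by
  obtain ⟨Q, hQ0, hQ⟩ := hz
  let j : E →+* E' := ((σ : L →+* L).comp E.subtype).codRestrict E' (fun c => h c.1 c.2)
  refine ⟨Q.map j, ?_, ?_⟩
  · rw [Ne, Polynomial.map_eq_zero_iff j.injective]; exact hQ0
  · rw [aeval_def, eval₂_map]
    have h1 : (algebraMap E' L).comp j = (σ : L →+* L).comp (algebraMap E L) :=
      RingHom.ext fun _ => rfl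
    rw [h1]
    change eval₂ ((σ : L →+* L).comp (algebraMap E L)) ((σ : L →+* L) z) Q = 0
    rw [← hom_eval₂, ← aeval_def, hQ, map_zero]

/-- S97 -/
theorem Mdl.map_clx (M : Mdl L) {N : Subfield L} (σ : L ≃+* L) (hσ : ∀ z ∈ M.F N, σ z = z)
    {ι : Type*} (y : ι → L) {g : L} (hg : g ∈ M.F (clx N y)) : σ g ∈ M.F (clx N (σ ∘ y)) := by
  have h1 : M.F (clx N y) ≤ (M.F (clx N (σ ∘ y))).comap (σ : L →+* L) := by
    refine sup_le ?_ ?_
    · intro z hz
      change σ z ∈ M.F (clx N (σ ∘ y))
      rw [hσ z (K0_le N hz)]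
      exact K0_le _ hz
    · have h2 : N ⊔ Subfield.closure (Set.range y) ≤
          (N ⊔ Subfield.closure (Set.range (σ ∘ y))).comap (σ : L →+* L) := by
        refine sup_le ?_ ?_
        · intro z hz
          change σ z ∈ N ⊔ Subfield.closure (Set.range (σ ∘ y))
          rw [hσ z (Sub.le_F N hz)]
          exact (le_sup_left : N ≤ _) hz
        · rw [Subfield.closure_le]
          rintro _ ⟨i, rfl⟩
          exact (le_sup_right : _ ≤ N ⊔ _) (Subfield.subset_closure ⟨i, rfl⟩)
      intro z hz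
      change σ z ∈ M.F _
      refine Sub.le_F (M := M) _ (mem_rac.2 ?_)
      exact isAlgebraic_map σ h2 (mem_rac.1 hz)
  exact h1 hg

end indep

end Vale.Agent.P019
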