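import Vale.Agent.P019.Basic

/-!
# Functoriality of `V` and orthogonality
-/

namespace Vale.Agent.P019

open scoped TensorProduct

variable {K L : Type*} [Field K] [Field L]

/-- the linear map on classes induced by a homomorphism of fields. -/
noncomputable def Vmap (ℓ : ℕ) (φ : K →+* L) : V ℓ K →ₗ[ZMod ℓ] V ℓ L :=
  AddMonoidHom.toZModLinearMap ℓ
    (MonoidHom.toAdditive
      (QuotientGroup.map (powMonoidHom ℓ : Kˣ →* Kˣ).range (powMonoidHom ℓ : Lˣ →* Lˣ).range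
        (Units.map (φ : K →* L)) (by
          rintro _ ⟨y, rfl⟩
          exact ⟨Units.map (φ : K →* L) y, by simp⟩)))

theorem Vmap_mk (ℓ : ℕ) (φ : K →+* L) (x : Kˣ) :
    Vmap ℓ φ (V.mk ℓ x) = V.mk ℓ (Units.map (φ : K →* L) x) := rfl

theorem Vmap_cl (ℓ : ℕ) (φ : K →+* L) (x : K) : Vmap ℓ φ (cl ℓ x) = cl ℓ (φ x) := by
  by_cases hx : x = 0
  · rw [hx, map_zero, cl_zero, cl_zero, map_zero]
  · rw [cl_of_ne ℓ hx, cl_of_ne ℓ ((map_ne_zero φ).2 hx), Vmap_mk]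
    congr 1
    ext; simp

theorem Vmap_R (ℓ : ℕ) (φ : K →+* L) :
    R ℓ K ≤ (R ℓ L).comap (TensorProduct.map (Vmap ℓ φ) (Vmap ℓ φ)) := by
  conv_lhs => unfold R
  rw [Submodule.span_le]
  rintro _ ⟨x, y, hxy, rfl⟩
  rw [SetLike.mem_coe, Submodule.mem_comap, TensorProduct.map_tmul, Vmap_mk, Vmap_mk]
  refine Submodule.subset_span ⟨_, _, ?_, rfl⟩
  simp only [Units.coe_map, MonoidHom.coe_coe]
  rw [← map_add, hxy, map_one]

theorem Orth.map {ℓ : ℕ} (φ : K →+* L) {u w : V ℓ K} (h : Orth u w) :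
    Orth (Vmap ℓ φ u) (Vmap ℓ φ w) := by
  have := Vmap_R ℓ φ h
  rwa [Submodule.mem_comap, TensorProduct.map_tmul] at this

theorem Orth.map_cl {ℓ : ℕ} (φ : K →+* L) {x y : K} (h : Orth (cl ℓ x) (cl ℓ y)) :
    Orth (cl ℓ (φ x)) (cl ℓ (φ y)) := by
  have := h.map φ
  rwa [Vmap_cl, Vmap_cl] at this

end Vale.Agent.P019
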