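import Vale.Agent.P019.FinK

/-!
# Galois stability
-/

namespace Vale.Agent.P019

set_option linter.style.haveILetI false

open Polynomial

section galaux

variable {Ω : Type*} [Field Ω]

/-- images of algebraic elements under a ring homomorphism defined on a subfield. -/
theorem isAlgebraic_image {A E E' : Subfield Ω} (τ : A →+* Ω) (hEA : E ≤ A)
    (hE' : ∀ c (hc : c ∈ E), τ ⟨c, hEA hc⟩ ∈ E') {z : Ω} (hzA : z ∈ A) (hz : IsAlgebraic E z) :
    IsAlgebraic E' (τ ⟨z, hzA⟩) := by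
  obtain ⟨Q, hQ0, hQ⟩ := hz
  let j : E →+* E' := RingHom.codRestrict (τ.comp (Subfield.inclusion hEA)) E'
    (fun c => hE' c.1 c.2)
  refine ⟨Q.map j, ?_, ?_⟩
  · rw [Ne, Polynomial.map_eq_zero_iff j.injective]; exact hQ0
  · rw [aeval_def, eval₂_map]
    have h1 : (algebraMap E' Ω).comp j = τ.comp (Subfield.inclusion hEA) :=
      RingHom.ext fun _ => rfl
    rw [h1, ← hom_eval₂]
    have h2 : eval₂ (Subfield.inclusion hEA) (⟨z, hzA⟩ : A) Q = 0 := by
      apply Subtype.ext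
      have h3 := hom_eval₂ Q (Subfield.inclusion hEA) A.subtype (⟨z, hzA⟩ : A)
      change A.subtype (eval₂ (Subfield.inclusion hEA) (⟨z, hzA⟩ : A) Q) = 0
      rw [h3, ← hQ, aeval_def]
      rfl
    rw [h2, map_zero]

/-- images of a compositum. -/
theorem image_sup {A L B B' : Subfield Ω} (τ : A →+* Ω) (hLA : L ≤ A) (hBA : B ≤ A)
    (hL : ∀ c (hc : c ∈ L), τ ⟨c, hLA hc⟩ = c) (hB : ∀ c (hc : c ∈ B), τ ⟨c, hBA hc⟩ ∈ B')
    {r : Ω} (hr : r ∈ L ⊔ B) (hrA : r ∈ A) : τ ⟨r, hrA⟩ ∈ L ⊔ B' := by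
  have h1 : L ⊔ B ≤ (Subfield.comap τ (L ⊔ B')).map A.subtype := by
    rw [sup_le_iff]
    constructor
    · intro c hc
      refine ⟨⟨c, hLA hc⟩, ?_, rfl⟩
      change τ ⟨c, hLA hc⟩ ∈ L ⊔ B'
      rw [hL c hc]
      exact (le_sup_left : L ≤ L ⊔ B') hc
    · intro c hc
      refine ⟨⟨c, hBA hc⟩, ?_, rfl⟩
      exact (le_sup_right : B' ≤ L ⊔ B') (hB c hc)
  obtain ⟨a, ha, hae⟩ := h1 hr
  have h2 : (⟨r, hrA⟩ : A) = a := Subtype.ext hae.symm
  rw [h2]
  exact ha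

/-- conjugation homomorphisms. -/
theorem exists_conj [IsAlgClosed Ω] {L1 : Subfield Ω} {b b' : Ω} (hb : IsAlgebraic L1 b)
    (hb' : aeval b' (minpoly L1 b) = 0) :
    ∃ τ : rac L1 →+* Ω, (∀ c (hc : c ∈ L1), τ ⟨c, le_rac L1 hc⟩ = c) ∧
      τ ⟨b, mem_rac.2 hb⟩ = b' := by
  haveI : Algebra.IsAlgebraic L1 (algebraicClosure L1 Ω) := algebraicClosure.isAlgebraic L1 Ω
  have h1 := Algebra.IsAlgebraic.range_eval_eq_rootSet_minpoly (F := L1)
    (K := algebraicClosure L1 Ω) Ω (⟨b, mem_algebraicClosure_iff.2 hb⟩ : algebraicClosure L1 Ω)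
  have h2 : b' ∈ (minpoly L1 (⟨b, mem_algebraicClosure_iff.2 hb⟩ :
      algebraicClosure L1 Ω)).rootSet Ω := by
    rw [mem_rootSet]
    have h3 : minpoly L1 (⟨b, mem_algebraicClosure_iff.2 hb⟩ : algebraicClosure L1 Ω) =
        minpoly L1 b := by
      rw [← minpoly.algebraMap_eq (algebraMap (algebraicClosure L1 Ω) Ω).injective]
      rfl
    rw [h3]
    exact ⟨minpoly.ne_zero hb.isIntegral, hb'⟩
  rw [← h1] at h2
  obtain ⟨ψ, hψ⟩ := h2
  let i : rac L1 →+* algebraicClosure L1 Ω :=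
    { toFun := fun z => ⟨z.1, z.2⟩
      map_one' := rfl
      map_mul' := fun _ _ => rfl
      map_zero' := rfl
      map_add' := fun _ _ => rfl }
  refine ⟨ψ.toRingHom.comp i, fun c hc => ?_, hψ⟩
  have h4 := ψ.commutes ⟨c, hc⟩
  exact h4

end galaux

section pigeon

/-- Pigeonhole for two nested equivalence relations. -/
theorem pigeon {α : Type*} (P : α → Prop) (R S : α → α → Prop)
    (hRs : ∀ x y, P x → P y → R x y → R y x)
    (hRt : ∀ x y z, P x → P y → P z → R x y → R y z → R x z) (hRr : ∀ x, P x → R x x)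
    (N N' : ℕ)
    (h1 : ∀ x : Fin (N + 1) → α, (∀ i, P (x i)) → ∃ i j, i ≠ j ∧ R (x i) (x j))
    (h2 : ∀ x : Fin (N' + 1) → α, (∀ i, P (x i)) → (∀ i j, R (x i) (x j)) →
      ∃ i j, i ≠ j ∧ S (x i) (x j))
    (hinf : ∀ M : ℕ, ∃ x : Fin M → α, (∀ i, P (x i)) ∧ ∀ i j, i ≠ j → ¬ S (x i) (x j)) :
    False := by
  classical
  obtain ⟨x, hxP, hx⟩ := hinf (N * N' + 1)
  let s : Setoid (Fin (N * N' + 1)) :=
    { r := fun i j => R (x i) (x j)
      iseqv := ⟨fun i => hRr _ (hxP i), fun {i j} h => hRs _ _ (hxP i) (hxP j) h,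
        fun {i j k} h h' => hRt _ _ _ (hxP i) (hxP j) (hxP k) h h'⟩ }
  let f : Fin (N * N' + 1) → Quotient s := fun i => Quotient.mk s i
  have hf : ∀ i j, f i = f j ↔ R (x i) (x j) := fun i j => Quotient.eq (r := s)
  have hcard : (Finset.univ.image f).card ≤ N := by
    by_contra hcon
    push Not at hcon
    obtain ⟨t, ht, htc⟩ := Finset.exists_subset_card_eq (Nat.succ_le_of_lt hcon)
    have hpre : ∀ q : t, ∃ i, f i = (q : Quotient s) := by
      intro q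
      have := ht q.2
      rw [Finset.mem_image] at this
      obtain ⟨i, -, hi⟩ := this
      exact ⟨i, hi⟩
    choose g hg using hpre
    let e : Fin (N + 1) ≃ t := (Finset.equivFinOfCardEq htc).symm
    obtain ⟨i, j, hij, hR⟩ := h1 (fun i => x (g (e i))) (fun i => hxP _)
    apply hij
    have h3 := (hf _ _).2 hR
    rw [hg, hg] at h3
    exact e.injective (Subtype.ext h3)
  have hlt : (Finset.univ.image f).card * N' < (Finset.univ : Finset (Fin (N * N' + 1))).card := by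
    rw [Finset.card_univ, Fintype.card_fin]
    exact Nat.lt_succ_of_le (Nat.mul_le_mul_right _ hcard)
  obtain ⟨q, -, hq⟩ := Finset.exists_lt_card_fiber_of_mul_lt_card_of_maps_to
    (fun i hi => Finset.mem_image_of_mem f hi) hlt
  obtain ⟨t, ht, htc⟩ := Finset.exists_subset_card_eq (Nat.succ_le_of_lt hq)
  let e : Fin (N' + 1) ≃ t := (Finset.equivFinOfCardEq htc).symm
  have hfe : ∀ i, f (e i : Fin (N * N' + 1)) = q := by
    intro i
    have := ht (e i).2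
    rw [Finset.mem_filter] at this
    exact this.2
  obtain ⟨i, j, hij, hS⟩ := h2 (fun i => x (e i : Fin (N * N' + 1))) (fun i => hxP _)
    (fun i j => (hf _ _).1 ((hfe i).trans (hfe j).symm))
  refine hx _ _ ?_ hS
  intro h3
  exact hij (e.injective (Subtype.ext h3))

end pigeon

section roots

variable {Ω : Type*} [Field Ω] [IsAlgClosed Ω]

/-- If all roots of a polynomial over `L` are in `B` then the coefficients are in `B`. -/
theorem coeff_mem_of_roots {L B : Subfield Ω} {P : Polynomial L} (hP : P.Monic)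
    (hroots : ∀ z : Ω, aeval z P = 0 → z ∈ B) (i : ℕ) : ((P.coeff i : L) : Ω) ∈ B := by
  have hm : (P.map (algebraMap L Ω)).Monic := hP.map _
  have h1 : P.map (algebraMap L Ω) =
      ((P.map (algebraMap L Ω)).roots.map fun a => X - C a).prod :=
    (IsAlgClosed.splits (P.map (algebraMap L Ω))).eq_prod_roots_of_monic hm
  have h2 : P.map (algebraMap L Ω) ∈ Polynomial.lifts B.subtype := by
    rw [h1]
    refine multiset_prod_mem _ fun q hq => ?_
    rw [Multiset.mem_map] at hq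
    obtain ⟨a, ha, rfl⟩ := hq
    have haB : a ∈ B := by
      apply hroots
      rw [mem_roots hm.ne_zero, IsRoot, eval_map] at ha
      rw [aeval_def]
      exact ha
    refine ⟨X - C ⟨a, haB⟩, ?_⟩
    simp
  obtain ⟨Q, hQ⟩ := h2
  have h3 := congrArg (fun q : Polynomial Ω => q.coeff i) hQ
  simp only [coeff_map, coe_mapRingHom] at h3
  have h4 : ((P.coeff i : L) : Ω) = (Q.coeff i : Ω) := h3.symm
  rw [h4]
  exact (Q.coeff i).2

end roots

/-- S61 Galois stability. -/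
theorem gal {Ω : Type*} [Field Ω] [IsAlgClosed Ω] [CharZero Ω] (ℓ : ℕ) [Fact ℓ.Prime]
    {l1 L1 : Subfield Ω} (hl1 : IsAlgClosed l1) (hfg : FG l1 L1) {b : Ω} (hb : IsAlgebraic L1 b)
    (hbl : b ∉ l1) (X : Set Ω) (hX : ∀ x ∈ X, x ∈ L1 ∧ x ≠ 0)
    (hinf : ∀ N : ℕ, ∃ x : Fin N → Ω, (∀ i, x i ∈ X) ∧
      ∀ i j, i ≠ j → ¬ ∃ w ∈ L1, x i = x j * w ^ ℓ)
    (hpow : ∀ x ∈ X, ∃ r ∈ L1 ⊔ rac (adj l1 b), r ^ ℓ = x) :
    (∃ y0 ∈ rac (adj l1 b) ⊓ L1, y0 ∉ l1) ∧
    ∀ x ∈ X, ∃ e ∈ rac (adj l1 b) ⊓ L1, ∃ w ∈ L1, x = e * w ^ ℓ := by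
  classical
  have hℓ : ℓ.Prime := Fact.out
  haveI : NeZero ℓ := ⟨hℓ.ne_zero⟩
  have hlL : l1 ≤ L1 := by
    obtain ⟨S, hS⟩ := hfg
    rw [hS]
    exact le_sup_left
  have hRl : RAC l1 := RAC_of_isAlgClosed l1 hl1
  -- a primitive root of unity
  obtain ⟨ζ, hζl, hζ⟩ : ∃ ζ ∈ l1, IsPrimitiveRoot ζ ℓ := by
    haveI : NeZero ((ℓ : ℕ) : l1) := ⟨by
      rw [Nat.cast_ne_zero]
      exact hℓ.ne_zero⟩
    obtain ⟨z, hz⟩ := HasEnoughRootsOfUnity.exists_primitiveRoot l1 ℓ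
    exact ⟨(z : Ω), z.2, hz.map_of_injective (f := algebraMap l1 Ω) (algebraMap l1 Ω).injective⟩
  obtain ⟨B, hBdef⟩ : ∃ B, B = rac (adj l1 b) := ⟨_, rfl⟩
  have hBR : RAC B := by rw [hBdef]; exact RAC_rac _
  have hbB : b ∈ B := by rw [hBdef]; exact le_rac _ (mem_adj l1 b)
  have hlB : l1 ≤ B := by rw [hBdef]; exact (le_adj l1 b).trans (le_rac _)
  have hBA : B ≤ rac L1 := by
    intro z hz
    rw [hBdef, mem_rac] at hz
    have h1 : adj l1 b ≤ rac L1 := adj_le (hlL.trans (le_rac L1)) (mem_rac.2 hb)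
    exact RAC_rac L1 z (isAlgebraic_mono h1 hz)
  -- STEP 1
  have step1 : ∀ b' : Ω, aeval b' (minpoly L1 b) = 0 → b' ∈ B := by
    intro b' hb'
    by_contra hbB'
    obtain ⟨τ, hτL, hτb⟩ := exists_conj hb hb'
    obtain ⟨B', hB'def⟩ : ∃ B', B' = rac (adj l1 b') := ⟨_, rfl⟩
    have hB'R : RAC B' := by rw [hB'def]; exact RAC_rac _
    have hb'B' : b' ∈ B' := by rw [hB'def]; exact le_rac _ (mem_adj l1 b')
    have hlB' : l1 ≤ B' := by rw [hB'def]; exact (le_adj l1 b').trans (le_rac _)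
    -- image of `B`
    have hadjA : adj l1 b ≤ rac L1 := adj_le (hlL.trans (le_rac L1)) (mem_rac.2 hb)
    have hadj : ∀ c (hc : c ∈ adj l1 b), τ ⟨c, hadjA hc⟩ ∈ adj l1 b' := by
      have h1 : adj l1 b ≤ (Subfield.comap τ (adj l1 b')).map (rac L1).subtype := by
        refine adj_le ?_ ?_
        · intro c hc
          refine ⟨⟨c, le_rac L1 (hlL hc)⟩, ?_, rfl⟩
          change τ ⟨c, le_rac L1 (hlL hc)⟩ ∈ adj l1 b'
          rw [hτL c (hlL hc)]
          exact le_adj l1 b' hc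
        · refine ⟨⟨b, mem_rac.2 hb⟩, ?_, rfl⟩
          change τ ⟨b, mem_rac.2 hb⟩ ∈ adj l1 b'
          rw [hτb]
          exact mem_adj l1 b'
      intro c hc
      obtain ⟨a, ha, hae⟩ := h1 hc
      have h2 : (⟨c, hadjA hc⟩ : rac L1) = a := Subtype.ext hae.symm
      rw [h2]
      exact ha
    have hτB : ∀ c (hc : c ∈ B), τ ⟨c, hBA hc⟩ ∈ B' := by
      intro c hc
      rw [hB'def, mem_rac]
      have hc' : IsAlgebraic (adj l1 b) c := by
        rw [hBdef] at hc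
        exact mem_rac.1 hc
      exact isAlgebraic_image τ hadjA hadj (hBA hc) hc'
    -- the big field
    obtain ⟨Λ, hΛdef⟩ : ∃ Λ, Λ = L1 ⊔ Subfield.closure ({b, b'} : Set Ω) := ⟨_, rfl⟩
    have hLΛ : L1 ≤ Λ := by rw [hΛdef]; exact le_sup_left
    have hbΛ : b ∈ Λ := by
      rw [hΛdef]
      exact (le_sup_right : _ ≤ L1 ⊔ Subfield.closure ({b, b'} : Set Ω))
        (Subfield.subset_closure (by simp))
    have hb'Λ : b' ∈ Λ := by
      rw [hΛdef]
      exact (le_sup_right : _ ≤ L1 ⊔ Subfield.closure ({b, b'} : Set Ω))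
        (Subfield.subset_closure (by simp))
    have hfgΛ : FG l1 Λ := by
      obtain ⟨S, hS⟩ := hfg
      refine ⟨S ∪ {b, b'}, ?_⟩
      rw [hΛdef, hS, Finset.coe_union, Subfield.closure_union, sup_assoc]
      congr 3
      simp
    have hfgL : FG L1 Λ := ⟨{b, b'}, by rw [hΛdef]; congr 2; simp⟩
    -- Kummer descent for both
    have descent : ∀ (C : Subfield Ω) (c : Ω), C = rac (adj l1 c) → c ∈ Λ → ∀ x ∈ X, ∀ r ∈ L1 ⊔ C,
        r ^ ℓ = x → ∃ e ∈ C ⊓ Λ, ∃ w ∈ Λ, x = e * w ^ ℓ := by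
      intro C c hC hcΛ x hx r hr hrx
      have hCR : RAC C := by rw [hC]; exact RAC_rac _
      have hlC : l1 ≤ C := by rw [hC]; exact (le_adj l1 c).trans (le_rac _)
      have hcC : c ∈ C := by rw [hC]; exact le_rac _ (mem_adj l1 c)
      have hadjC : adj l1 c ≤ C ⊓ Λ :=
        adj_le (le_inf hlC (hlL.trans hLΛ)) (Subfield.mem_inf.2 ⟨hcC, hcΛ⟩)
      refine kummer_descent ℓ (C ⊓ Λ) Λ C inf_le_right ?_ ?_ ζ ?_ hζ (hLΛ (hX x hx).1)
        (hX x hx).2 (sup_le_sup_right hLΛ C hr) hrx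
      · intro z hz hza
        exact Subfield.mem_inf.2 ⟨hCR z (isAlgebraic_mono inf_le_left hza), hz⟩
      · intro z hz
        rw [hC, mem_rac] at hz
        exact isAlgebraic_mono hadjC hz
      · exact hadjC (le_adj l1 c hζl)
    obtain ⟨N, hN⟩ := int_fin ℓ (E₁ := B ⊓ Λ) (E₂ := B' ⊓ Λ) (y := b') hl1 hfgΛ
      (le_inf hlB (hlL.trans hLΛ)) (le_inf hlB' (hlL.trans hLΛ)) inf_le_right inf_le_right
      (Subfield.mem_inf.2 ⟨hb'B', hb'Λ⟩)
      (fun h => hbB' (hBR b' (isAlgebraic_mono inf_le_left h)))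
      (fun z hz => by
        have h1 := (Subfield.mem_inf.1 hz).1
        rw [hB'def, mem_rac] at h1
        exact h1)
    obtain ⟨N', hN'⟩ := fk ℓ hfgL (hlL hζl) hζ
    refine pigeon (fun x => x ∈ X) (fun x y => ∃ w ∈ Λ, x = y * w ^ ℓ)
      (fun x y => ∃ w ∈ L1, x = y * w ^ ℓ) ?_ ?_ ?_ N N' ?_ ?_ hinf
    · rintro x y hx hy ⟨w, hw, h⟩
      have hw0 : w ≠ 0 := by
        rintro rfl
        rw [zero_pow hℓ.ne_zero, mul_zero] at h
        exact (hX x hx).2 h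
      refine ⟨w⁻¹, Λ.inv_mem hw, ?_⟩
      rw [h, inv_pow, mul_inv_cancel_right₀ (pow_ne_zero _ hw0)]
    · rintro x y z - - - ⟨w, hw, h⟩ ⟨w', hw', h'⟩
      refine ⟨w' * w, Λ.mul_mem hw' hw, ?_⟩
      rw [h, h', mul_pow, mul_assoc]
    · intro x _
      exact ⟨1, Λ.one_mem, by rw [one_pow, mul_one]⟩
    · intro x hx
      have h1 : ∀ i, ∃ e ∈ B ⊓ Λ, ∃ w ∈ Λ, x i = e * w ^ ℓ := by
        intro i
        obtain ⟨r, hr, hrx⟩ := hpow (x i) (hx i)
        rw [← hBdef] at hr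
        exact descent B b hBdef hbΛ (x i) (hx i) r hr hrx
      have h2 : ∀ i, ∃ e ∈ B' ⊓ Λ, ∃ w ∈ Λ, x i = e * w ^ ℓ := by
        intro i
        obtain ⟨r, hr, hrx⟩ := hpow (x i) (hx i)
        rw [← hBdef] at hr
        have hrA : r ∈ rac L1 := (sup_le (le_rac L1) hBA) hr
        have h3 := image_sup τ (le_rac L1) hBA hτL hτB hr hrA
        refine descent B' b' hB'def hb'Λ (x i) (hx i) _ h3 ?_
        rw [← map_pow]
        have h4 : (⟨r, hrA⟩ : rac L1) ^ ℓ = ⟨x i, le_rac L1 (hX _ (hx i)).1⟩ := Subtype.ext hrx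
        rw [h4]
        exact hτL _ (hX _ (hx i)).1
      choose e he w hw hew using h1
      choose e' he' w' hw' hew' using h2
      have hw0 : ∀ i, w i ≠ 0 := by
        intro i h0
        have h3 := hew i
        rw [h0, zero_pow hℓ.ne_zero, mul_zero] at h3
        exact (hX _ (hx i)).2 h3
      have he0 : ∀ i, e i ≠ 0 := by
        intro i h0
        have h3 := hew i
        rw [h0, zero_mul] at h3
        exact (hX _ (hx i)).2 h3
      obtain ⟨i, j, hij, v, hv, hv0, hvij⟩ := hN e (fun i => ⟨he i, he0 i, e' i, he' i,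
        w' i / w i, Λ.div_mem (hw' i) (hw i), by
          rw [div_pow, ← mul_div_assoc, ← hew' i, hew i,
            mul_div_cancel_right₀ _ (pow_ne_zero _ (hw0 i))]⟩)
      refine ⟨i, j, hij, v * w i / w j,
        Λ.div_mem (Λ.mul_mem (Subfield.mem_inf.1 hv).2 (hw i)) (hw j), ?_⟩
      rw [hew i, hew j, hvij, div_pow, mul_pow]
      have h4 := pow_ne_zero ℓ (hw0 j)
      field_simp
    · intro x hx hR
      have hx0 : ∀ i, x i ≠ 0 := fun i => (hX _ (hx i)).2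
      obtain ⟨i, j, hij, v, hv, hv0, hvij⟩ := hN' (fun i => x i / x 0) (fun i => by
        obtain ⟨w, hw, h⟩ := hR i 0
        refine ⟨L1.div_mem (hX _ (hx i)).1 (hX _ (hx 0)).1, div_ne_zero (hx0 i) (hx0 0), w, hw, ?_⟩
        rw [h, mul_div_cancel_left₀ _ (hx0 0)])
      refine ⟨i, j, hij, v, hv, ?_⟩
      have h0 := hx0 0
      field_simp at hvij
      exact hvij
  -- STEP 2
  have hbtr : ¬ IsAlgebraic l1 b := fun h => hbl (hRl b h)
  have step2 : ∃ y0 ∈ B ⊓ L1, y0 ∉ l1 := by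
    by_contra hcon
    push Not at hcon
    apply hbtr
    have hmon := minpoly.monic hb.isIntegral
    have hcoef : ∀ i, (((minpoly L1 b).coeff i : L1) : Ω) ∈ l1 := by
      intro i
      apply hcon
      exact Subfield.mem_inf.2 ⟨coeff_mem_of_roots hmon step1 i, ((minpoly L1 b).coeff i).2⟩
    have hlift : minpoly L1 b ∈ Polynomial.lifts (Subfield.inclusion hlL) := by
      rw [Polynomial.lifts_iff_coeff_lifts]
      intro i
      exact ⟨⟨_, hcoef i⟩, Subtype.ext rfl⟩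
    obtain ⟨Q, hQ⟩ := hlift
    refine ⟨Q, ?_, ?_⟩
    · rintro rfl
      rw [map_zero] at hQ
      exact hmon.ne_zero hQ.symm
    · have h1 := minpoly.aeval L1 b
      rw [← hQ, coe_mapRingHom, aeval_def, eval₂_map] at h1
      rw [aeval_def]
      exact h1
  -- STEP 3
  obtain ⟨y0, hy0, hy0l⟩ := step2
  refine ⟨⟨y0, by rw [← hBdef]; exact hy0, hy0l⟩, ?_⟩
  intro x hx
  rw [← hBdef]
  have hy0B : IsAlgebraic (adj l1 b) y0 := by
    have h1 := (Subfield.mem_inf.1 hy0).1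
    rw [hBdef, mem_rac] at h1
    exact h1
  have hbalg : IsAlgebraic (adj l1 y0) b := exchange (fun h => hy0l (hRl y0 h)) hy0B
  have hadjE : adj l1 y0 ≤ B ⊓ L1 := adj_le (le_inf hlB hlL) hy0
  have hBE : ∀ z ∈ B, IsAlgebraic (B ⊓ L1 : Subfield Ω) z := by
    intro z hz
    rw [hBdef, mem_rac] at hz
    have h1 : adj l1 b ≤ rac (adj l1 y0) :=
      adj_le ((le_adj l1 y0).trans (le_rac _)) (mem_rac.2 hbalg)
    have h2 := RAC_rac _ z (isAlgebraic_mono h1 hz)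
    exact isAlgebraic_mono hadjE (mem_rac.1 h2)
  obtain ⟨r, hr, hrx⟩ := hpow x hx
  rw [← hBdef] at hr
  exact kummer_descent ℓ (B ⊓ L1) L1 B inf_le_right
    (fun z hz hza => Subfield.mem_inf.2 ⟨hBR z (isAlgebraic_mono inf_le_left hza), hz⟩)
    hBE ζ (hadjE (le_adj l1 y0 hζl)) hζ (hX x hx).1 (hX x hx).2 hr hrx

end Vale.Agent.P019
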