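import Vale.Agent.P019.Gen

/-!
# Images of subfields under places
-/

namespace Vale.Agent.P019

set_option linter.style.haveILetI false

open Polynomial

section im

variable {K Ω : Type*} [Field K] [Field Ω] (P : Pl K Ω)

/-- the residue homomorphism on a subfield of the valuation ring. -/
noncomputable def Pl.resHom (A : Subfield K) (hA : ∀ x ∈ A, x ∈ P.O) : A →+* Ω :=
  P.ψ.comp (RingHom.codRestrict A.subtype P.O.toSubring (fun x => hA x x.2))

theorem Pl.resHom_apply (A : Subfield K) (hA : ∀ x ∈ A, x ∈ P.O) (x : A) :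
    P.resHom A hA x = P.ev (x : K) := by
  rw [P.ev_of_mem (hA x x.2)]
  rfl

/-- the image of a subfield of the valuation ring. -/
noncomputable def Pl.im (A : Subfield K) (hA : ∀ x ∈ A, x ∈ P.O) : Subfield Ω :=
  (P.resHom A hA).fieldRange

theorem Pl.mem_im {A : Subfield K} {hA : ∀ x ∈ A, x ∈ P.O} {y : Ω} :
    y ∈ P.im A hA ↔ ∃ x ∈ A, P.ev x = y := by
  unfold Pl.im
  rw [RingHom.mem_fieldRange]
  constructor
  · rintro ⟨x, rfl⟩
    exact ⟨x, x.2, (P.resHom_apply A hA x).symm⟩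
  · rintro ⟨x, hx, rfl⟩
    exact ⟨⟨x, hx⟩, P.resHom_apply A hA _⟩

theorem Pl.ev_mem_im {A : Subfield K} (hA : ∀ x ∈ A, x ∈ P.O) {x : K} (hx : x ∈ A) :
    P.ev x ∈ P.im A hA := P.mem_im.2 ⟨x, hx, rfl⟩

theorem Pl.ev_inj {A : Subfield K} (hA : ∀ x ∈ A, x ∈ P.O) {x y : K} (hx : x ∈ A) (hy : y ∈ A)
    (h : P.ev x = P.ev y) : x = y := by
  have h1 : P.resHom A hA ⟨x, hx⟩ = P.resHom A hA ⟨y, hy⟩ := by
    rw [P.resHom_apply, P.resHom_apply]; exact h
  exact congrArg Subtype.val ((P.resHom A hA).injective h1)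

/-- the place attached to a valuation ring. -/
noncomputable def plOf (O : ValuationSubring K) :
    Pl K (AlgebraicClosure (IsLocalRing.ResidueField O)) where
  O := O
  ψ := (algebraMap (IsLocalRing.ResidueField O) _).comp (IsLocalRing.residue O)
  ker := by
    intro x
    rw [RingHom.comp_apply, map_eq_zero, IsLocalRing.residue_eq_zero_iff,
      ValuationSubring.valuation_lt_one_iff]

theorem plOf_O (O : ValuationSubring K) : (plOf O).O = O := rfl

/-- the isomorphism of a subfield of the valuation ring with its image. -/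
noncomputable def Pl.imEquiv (A : Subfield K) (hA : ∀ x ∈ A, x ∈ P.O) : A ≃+* P.im A hA :=
  RingEquiv.ofBijective (P.resHom A hA).rangeRestrictField
    ⟨(P.resHom A hA).rangeRestrictField.injective, by
      rintro ⟨y, ⟨x, rfl⟩⟩
      exact ⟨x, rfl⟩⟩

theorem Pl.coe_imEquiv (A : Subfield K) (hA : ∀ x ∈ A, x ∈ P.O) (x : A) :
    ((P.imEquiv A hA x : P.im A hA) : Ω) = P.resHom A hA x := rfl

theorem Pl.resHom_imEquiv_symm (A : Subfield K) (hA : ∀ x ∈ A, x ∈ P.O) (y : P.im A hA) :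
    P.resHom A hA ((P.imEquiv A hA).symm y) = (y : Ω) := by
  rw [← P.coe_imEquiv, RingEquiv.apply_symm_apply]

/-- evaluation of polynomials with coefficients in a subfield of the valuation ring. -/
theorem Pl.ev_aeval_im {A : Subfield K} (hA : ∀ x ∈ A, x ∈ P.O) {z : K} (hz : z ∈ P.O)
    (Q : A[X]) :
    aeval z Q ∈ P.O ∧ P.ev (aeval z Q) = eval₂ (P.resHom A hA) (P.ev z) Q := by
  induction Q using Polynomial.induction_on' with
  | add p q hp hq =>
    rw [map_add, eval₂_add, ← hp.2, ← hq.2]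
    exact ⟨P.O.add_mem _ _ hp.1 hq.1, P.ev_add hp.1 hq.1⟩
  | monomial n c =>
    rw [aeval_monomial, eval₂_monomial, P.resHom_apply]
    have h1 := hA c c.2
    refine ⟨P.O.mul_mem _ _ h1 (pow_mem hz n), ?_⟩
    change P.ev ((c : K) * z ^ n) = _
    rw [P.ev_mul h1 (pow_mem hz n), P.ev_pow hz]

/-- polynomials over the image. -/
theorem Pl.eval₂_eq_aeval {A : Subfield K} (hA : ∀ x ∈ A, x ∈ P.O) (w : Ω) (Q : A[X]) :
    eval₂ (P.resHom A hA) w Q = aeval w (Q.map (P.imEquiv A hA : A →+* P.im A hA)) := by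
  rw [aeval_def, eval₂_map]
  rfl

theorem Pl.eval₂_eq_aeval_symm {A : Subfield K} (hA : ∀ x ∈ A, x ∈ P.O) (w : Ω)
    (Q : (P.im A hA)[X]) :
    eval₂ (P.resHom A hA) w (Q.map ((P.imEquiv A hA).symm : P.im A hA →+* A)) = aeval w Q := by
  rw [aeval_def, eval₂_map]
  congr 1
  ext y
  exact P.resHom_imEquiv_symm A hA y

theorem Pl.map_symm_ne_zero {A : Subfield K} (hA : ∀ x ∈ A, x ∈ P.O) {Q : (P.im A hA)[X]}
    (hQ : Q ≠ 0) : Q.map ((P.imEquiv A hA).symm : P.im A hA →+* A) ≠ 0 := by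
  rw [Ne, Polynomial.map_eq_zero_iff (RingHom.injective _)]
  exact hQ

theorem Pl.map_ne_zero' {A : Subfield K} (hA : ∀ x ∈ A, x ∈ P.O) {Q : A[X]}
    (hQ : Q ≠ 0) : Q.map (P.imEquiv A hA : A →+* P.im A hA) ≠ 0 := by
  rw [Ne, Polynomial.map_eq_zero_iff (RingHom.injective _)]
  exact hQ

theorem Pl.map_map_symm {A : Subfield K} (hA : ∀ x ∈ A, x ∈ P.O) (Q : A[X]) :
    (Q.map (P.imEquiv A hA : A →+* P.im A hA)).map
      ((P.imEquiv A hA).symm : P.im A hA →+* A) = Q := by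
  rw [Polynomial.map_map]
  have h1 : ((P.imEquiv A hA).symm : P.im A hA →+* A).comp
      (P.imEquiv A hA : A →+* P.im A hA) = RingHom.id A := by
    ext x
    exact congrArg Subtype.val ((P.imEquiv A hA).symm_apply_apply x)
  rw [h1, Polynomial.map_id]

/-- R2. -/
theorem Pl.mem_adj_of_transcendental (E : Subfield K) (hE : ∀ x ∈ E, x ∈ P.O) {b : K}
    (hb : b ∈ P.O) (hbt : ¬ IsAlgebraic (P.im E hE) (P.ev b)) : ∀ x ∈ adj E b, x ∈ P.O := by
  intro x hx
  obtain ⟨r, s, rfl⟩ := Gn.mem_adj_frac hx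
  by_cases hs : s = 0
  · rw [hs, map_zero, div_zero]; exact P.O.zero_mem
  have hs' := P.ev_aeval_im hE hb s
  have hU : P.U (aeval b s) := by
    refine ⟨hs'.1, fun h => hbt ⟨s.map (P.imEquiv E hE : E →+* P.im E hE), P.map_ne_zero' hE hs, ?_⟩⟩
    rw [← P.eval₂_eq_aeval, ← hs'.2, h]
  rw [div_eq_mul_inv]
  exact P.O.mul_mem _ _ (P.ev_aeval_im hE hb r).1 hU.inv_mem

/-- R3. -/
theorem Gd.sup [CharZero K] {P : Pl K Ω} {π : K} {κ : Subfield Ω} {F E B : Subfield K}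
    (hπ : π ≠ 0) (hπO : π ∈ P.O) (hπ0 : P.ev π = 0) (hπF : π ∈ F) (hF : Gd P π κ F)
    (hEF : E ≤ F) (hEB : E ≤ B) (hB : ∀ x ∈ B, x ∈ P.O) (hκ : ∀ x ∈ B, P.ev x ∈ κ)
    (halg : ∀ x ∈ B, IsAlgebraic E x) : Gd P π κ (F ⊔ B) := by
  intro z hz hz0
  obtain ⟨T, hT, hzT⟩ := Gn.exists_finset_sup hz
  exact Gn.gd_finset hπ hπO hπ0 hπF hF hEF hEB hB hκ halg T hT z hzT hz0

/-- R4. -/
theorem exists_gd_adj (A : Subfield K) (hA : ∀ x ∈ A, x ∈ P.O) {z : K} (hz : z ∈ P.O)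
    (hzA : ¬ IsAlgebraic A z) (he : IsAlgebraic (P.im A hA) (P.ev z)) :
    ∃ π ∈ adj A z, π ≠ 0 ∧ π ∈ P.O ∧ P.ev π = 0 ∧ ∀ κ : Subfield Ω, P.im A hA ≤ κ →
      P.ev z ∈ κ → Gd P π κ (adj A z) := by
  classical
  set m := minpoly (P.im A hA) (P.ev z) with hm
  have hint : IsIntegral (P.im A hA) (P.ev z) := he.isIntegral
  have hmon : m.Monic := minpoly.monic hint
  set m' : A[X] := m.map ((P.imEquiv A hA).symm : P.im A hA →+* A) with hm'
  have hmon' : m'.Monic := hmon.map _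
  have hpi := P.ev_aeval_im hA hz m'
  have hpi0 : aeval z m' ≠ 0 := fun h => hzA ⟨m', hmon'.ne_zero, h⟩
  have hev0 : P.ev (aeval z m') = 0 := by
    rw [hpi.2, hm', P.eval₂_eq_aeval_symm, hm, minpoly.aeval]
  refine ⟨aeval z m', Gn.aeval_mem_adj z m', hpi0, hpi.1, hev0, ?_⟩
  intro κ hκ hzκ
  have hκ' : ∀ Q : A[X], eval₂ (P.resHom A hA) (P.ev z) Q ∈ κ := by
    intro Q
    rw [eval₂_eq_sum_range]
    refine κ.sum_mem (fun i _ => κ.mul_mem (hκ ⟨Q.coeff i, rfl⟩) (pow_mem hzκ i))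
  have hdeg : 0 < m'.degree := by
    rw [hm', degree_map]
    exact minpoly.degree_pos hint
  have key : ∀ Q : A[X], Q ≠ 0 → ∃ (n : ℕ) (u : K), P.U u ∧ P.ev u ∈ κ ∧
      aeval z Q = (aeval z m') ^ n * u := by
    intro Q hQ
    have hfin : FiniteMultiplicity m' Q :=
      Polynomial.finiteMultiplicity_of_degree_pos_of_monic hdeg hmon' hQ
    obtain ⟨h, hh, hh'⟩ := hfin.exists_eq_pow_mul_and_not_dvd
    have h1 := P.ev_aeval_im hA hz h
    refine ⟨multiplicity m' Q, aeval z h, ⟨h1.1, ?_⟩, ?_, ?_⟩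
    · intro h2
      apply hh'
      rw [h1.2, P.eval₂_eq_aeval] at h2
      have h3 := minpoly.dvd (P.im A hA) (P.ev z) h2
      have h4 := Polynomial.map_dvd ((P.imEquiv A hA).symm : P.im A hA →+* A) h3
      rw [P.map_map_symm] at h4
      exact h4
    · rw [h1.2]; exact hκ' h
    · conv_lhs => rw [hh, map_mul, map_pow]
  intro y hy hy0
  obtain ⟨r, s, rfl⟩ := Gn.mem_adj_frac hy
  have hr0 : r ≠ 0 := by
    rintro rfl
    rw [map_zero, zero_div] at hy0
    exact hy0 rfl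
  have hs0 : s ≠ 0 := by
    rintro rfl
    rw [map_zero, div_zero] at hy0
    exact hy0 rfl
  obtain ⟨n, u, hu, hu', e1⟩ := key r hr0
  obtain ⟨k, v, hv, hv', e2⟩ := key s hs0
  refine ⟨(k : ℤ) - n, ?_⟩
  have e3 : aeval z r / aeval z s * (aeval z m') ^ ((k : ℤ) - n) = u / v := by
    have := hv.ne_zero
    rw [e1, e2, zpow_sub₀ hpi0, zpow_natCast, zpow_natCast]
    field_simp
  rw [e3]
  exact ⟨hu.div hv, by rw [P.ev_div hu.1 hv]; exact κ.div_mem hu' hv'⟩

/-- R7. -/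
theorem Pl.isAlgebraic_of_im {A E : Subfield K} (hA : ∀ x ∈ A, x ∈ P.O) (hEA : E ≤ A) {x : K}
    (hx : x ∈ A) (h : IsAlgebraic (P.im E (fun x hx => hA x (hEA hx))) (P.ev x)) :
    IsAlgebraic E x := by
  obtain ⟨Q, hQ0, hQ⟩ := h
  have hE : ∀ x ∈ E, x ∈ P.O := fun x hx => hA x (hEA hx)
  refine ⟨Q.map ((P.imEquiv E hE).symm : P.im E hE →+* E), P.map_symm_ne_zero hE hQ0, ?_⟩
  have h1 := P.ev_aeval_im hE (hA x hx) (Q.map ((P.imEquiv E hE).symm : P.im E hE →+* E))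
  rw [P.eval₂_eq_aeval_symm, hQ] at h1
  refine P.ev_inj hA ?_ A.zero_mem (h1.2.trans P.ev_zero.symm)
  exact adj_le hEA hx (Gn.aeval_mem_adj x _)

/-- R7b. -/
theorem Pl.im_adj {A E : Subfield K} (hA : ∀ x ∈ A, x ∈ P.O) (hEA : E ≤ A) {y : K}
    (hy : y ∈ A) :
    P.im (adj E y) (fun x hx => hA x (adj_le hEA hy hx)) =
      adj (P.im E (fun x hx => hA x (hEA hx))) (P.ev y) := by
  have hE : ∀ x ∈ E, x ∈ P.O := fun x hx => hA x (hEA hx)
  apply le_antisymm
  · intro w hw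
    obtain ⟨x, hx, rfl⟩ := P.mem_im.1 hw
    obtain ⟨r, s, rfl⟩ := Gn.mem_adj_frac hx
    have hr := P.ev_aeval_im hE (hA y hy) r
    have hs := P.ev_aeval_im hE (hA y hy) s
    by_cases hs0 : aeval y s = 0
    · rw [hs0, div_zero, P.ev_zero]; exact Subfield.zero_mem _
    have hU : P.U (aeval y s) := by
      refine ⟨hs.1, fun h => hs0 ?_⟩
      exact P.ev_inj hA (adj_le hEA hy (Gn.aeval_mem_adj y s)) A.zero_mem (h.trans P.ev_zero.symm)
    rw [P.ev_div hr.1 hU, hr.2, hs.2, P.eval₂_eq_aeval, P.eval₂_eq_aeval]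
    exact Subfield.div_mem _ (Gn.aeval_mem_adj _ _) (Gn.aeval_mem_adj _ _)
  · refine adj_le ?_ (P.ev_mem_im _ (mem_adj E y))
    intro w hw
    obtain ⟨x, hx, rfl⟩ := P.mem_im.1 hw
    exact P.ev_mem_im _ (le_adj E y hx)

/-- R8. -/
theorem Pl.isAlgClosed_im {A : Subfield K} (hA : ∀ x ∈ A, x ∈ P.O) (h : IsAlgClosed A) :
    IsAlgClosed (P.im A hA) := by
  apply IsAlgClosed.of_exists_root
  intro p hp hirr
  obtain ⟨c, hc⟩ := IsAlgClosed.exists_root
    (p.map ((P.imEquiv A hA).symm : P.im A hA →+* A)) (by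
      rw [degree_map]
      exact (degree_pos_of_irreducible hirr).ne')
  refine ⟨P.imEquiv A hA c, ?_⟩
  have h1 : (P.imEquiv A hA).symm (p.eval (P.imEquiv A hA c)) = 0 := by
    rw [IsRoot.def, eval_map] at hc
    rw [← hc]
    have h2 := hom_eval₂ p (RingHom.id _) ((P.imEquiv A hA).symm : P.im A hA →+* A)
      (P.imEquiv A hA c)
    rw [RingHom.comp_id] at h2
    change (P.imEquiv A hA).symm (eval₂ (RingHom.id _) (P.imEquiv A hA c) p) = _
    refine h2.trans ?_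
    congr 1
    exact (P.imEquiv A hA).symm_apply_apply c
  exact (P.imEquiv A hA).symm.injective (h1.trans (map_zero _).symm)

theorem Pl.im_mono {A E : Subfield K} (hA : ∀ x ∈ A, x ∈ P.O) (hEA : E ≤ A) :
    P.im E (fun x hx => hA x (hEA hx)) ≤ P.im A hA := by
  intro w hw
  obtain ⟨x, hx, rfl⟩ := P.mem_im.1 hw
  exact P.ev_mem_im _ (hEA hx)

/-- R6. -/
theorem Pl.im_eq_rac {l B : Subfield K} (hB : ∀ x ∈ B, x ∈ P.O) (hBac : IsAlgClosed B)
    (hlB : l ≤ B) {z : K} (hz : z ∈ B) (halg : ∀ b ∈ B, IsAlgebraic (adj l z) b) :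
    P.im B hB = rac (adj (P.im l (fun x hx => hB x (hlB hx))) (P.ev z)) := by
  have hadj := P.im_adj hB hlB hz
  apply le_antisymm
  · intro w hw
    obtain ⟨x, hx, rfl⟩ := P.mem_im.1 hw
    rw [mem_rac]
    refine P.isAlgebraic_ev (adj l z) _ ?_ (halg x hx) (hB x hx)
    intro x hx _
    rw [← hadj]
    exact P.ev_mem_im _ hx
  · refine (RAC_of_isAlgClosed _ (P.isAlgClosed_im hB hBac)).le ?_
    rw [← hadj]
    exact P.im_mono hB (adj_le hlB hz)

/-- R8b. -/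
theorem Pl.fg_im {A E : Subfield K} (hA : ∀ x ∈ A, x ∈ P.O) (hEA : E ≤ A) (h : FG E A) :
    FG (P.im E (fun x hx => hA x (hEA hx))) (P.im A hA) := by
  classical
  obtain ⟨S, hS⟩ := h
  refine ⟨S.image P.ev, ?_⟩
  set R : Subfield Ω := P.im E (fun x hx => hA x (hEA hx)) ⊔
    Subfield.closure ((S.image P.ev : Finset Ω) : Set Ω) with hR
  have hSA : ∀ x ∈ S, x ∈ A := by
    intro x hx
    rw [hS]
    exact (le_sup_right : Subfield.closure (S : Set K) ≤ _) (Subfield.subset_closure hx)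
  apply le_antisymm
  · let D : Subfield K := (R.comap (P.resHom A hA)).map A.subtype
    have hD : A ≤ D := by
      have h1 : E ⊔ Subfield.closure (S : Set K) ≤ D := by
        refine sup_le ?_ (Subfield.closure_le.2 ?_)
        · intro x hx
          refine ⟨⟨x, hEA hx⟩, ?_, rfl⟩
          change P.resHom A hA ⟨x, hEA hx⟩ ∈ R
          rw [P.resHom_apply]
          exact (le_sup_left : _ ≤ R) (P.ev_mem_im _ hx)
        · intro x hx
          refine ⟨⟨x, hSA x hx⟩, ?_, rfl⟩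
          change P.resHom A hA ⟨x, hSA x hx⟩ ∈ R
          rw [P.resHom_apply]
          refine (le_sup_right : _ ≤ R) (Subfield.subset_closure ?_)
          rw [Finset.coe_image]
          exact ⟨x, hx, rfl⟩
      intro x hx
      apply h1
      rw [← hS]
      exact hx
    intro w hw
    obtain ⟨x, hx, rfl⟩ := P.mem_im.1 hw
    obtain ⟨a, ha, hax⟩ := hD hx
    change P.resHom A hA a ∈ R at ha
    rw [P.resHom_apply] at ha
    have hax' : (a : K) = x := hax
    rw [hax'] at ha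
    exact ha
  · refine sup_le (P.im_mono hA hEA) (Subfield.closure_le.2 ?_)
    intro w hw
    rw [Finset.coe_image] at hw
    obtain ⟨x, hx, rfl⟩ := hw
    exact P.ev_mem_im hA (hSA x hx)

end im

end Vale.Agent.P019
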