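import Mathlib

/-!
# Finiteness of the kernel of `V_F → V_L` for finitely generated extensions
-/

namespace Vale.Agent.P019

set_option linter.style.haveILetI false

open IntermediateField

section

variable {F L : Type*} [Field F] [Field L] [Algebra F L]

/-- linear independence over `F` of algebraic elements persists over `F(x)`, `x` algebraically
independent. -/
theorem linearIndependent_adjoin {ι : Type*} {x : ι → L} (hx : AlgebraicIndependent F x) {n : ℕ}
    {w : Fin n → L} (hw : ∀ i, IsAlgebraic F (w i)) (hli : LinearIndependent F w) :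
    LinearIndependent (adjoin F (Set.range x)) w := by
  classical
  open IntermediateField.algebraAdjoinAdjoin in
  refine (LinearIndependent.iff_fractionRing (Algebra.adjoin F (Set.range x))
    (adjoin F (Set.range x))).1 ?_
  rw [Fintype.linearIndependent_iff]
  intro a ha
  have hxE : AlgebraicIndependent (algebraicClosure F L) x := hx.algebraicClosure
  have hp : ∀ i, ∃ p : MvPolynomial ι F, MvPolynomial.aeval x p = (a i : L) := by
    intro i
    have h0 : ∀ y : L, y ∈ Algebra.adjoin F (Set.range x) → ∃ p : MvPolynomial ι F,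
        MvPolynomial.aeval x p = y := by
      intro y hy
      rw [Algebra.adjoin_range_eq_range_aeval] at hy
      exact hy
    exact h0 _ (a i).2
  choose p hp using hp
  let wE : Fin n → algebraicClosure F L := fun i => ⟨w i, mem_algebraicClosure_iff.2 (hw i)⟩
  let q : MvPolynomial ι (algebraicClosure F L) :=
    ∑ i, MvPolynomial.C (wE i) * MvPolynomial.map (algebraMap F (algebraicClosure F L)) (p i)
  have hq : MvPolynomial.aeval x q = 0 := by
    rw [map_sum, ← ha]
    refine Finset.sum_congr rfl (fun i _ => ?_)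
    rw [map_mul, MvPolynomial.aeval_C, MvPolynomial.aeval_map_algebraMap, hp, Algebra.smul_def,
      mul_comm]
    rfl
  have hq0 : q = 0 := (algebraicIndependent_iff.1 hxE) q hq
  intro i
  have hpi : p i = 0 := by
    ext m
    have h1 : ∑ j, (algebraMap F (algebraicClosure F L) ((p j).coeff m)) * wE j = 0 := by
      have h2 := congrArg (MvPolynomial.coeff m) hq0
      rw [MvPolynomial.coeff_sum, MvPolynomial.coeff_zero] at h2
      rw [← h2]
      refine Finset.sum_congr rfl (fun j _ => ?_)
      rw [MvPolynomial.coeff_C_mul, MvPolynomial.coeff_map, mul_comm]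
    have h3 : ∑ j, ((p j).coeff m) • w j = 0 := by
      have h4 := congrArg (fun z : algebraicClosure F L => (z : L)) h1
      simp only [AddSubmonoidClass.coe_finsetSum, MulMemClass.coe_mul, ZeroMemClass.coe_zero] at h4
      rw [← h4]
      refine Finset.sum_congr rfl (fun j _ => ?_)
      rw [Algebra.smul_def]
      rfl
    rw [Fintype.linearIndependent_iff] at hli
    rw [hli _ h3 i, MvPolynomial.coeff_zero]
  have h5 := hp i
  rw [hpi, map_zero] at h5
  exact Subtype.ext h5.symm

/-- `ℓ`-th roots of pairwise inequivalent elements are linearly independent. -/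
theorem linearIndependent_roots [CharZero F] (ℓ : ℕ) [Fact ℓ.Prime] (ζ : F)
    (hζ : IsPrimitiveRoot ζ ℓ) {n : ℕ} {w : Fin n → L} (hw0 : ∀ i, w i ≠ 0)
    (hw : ∀ i, ∃ a : F, w i ^ ℓ = algebraMap F L a)
    (hne : ∀ i j, i ≠ j → ¬ ∃ y : F, w i = w j * algebraMap F L y) :
    LinearIndependent F w := by
  classical
  haveI : NeZero ℓ := ⟨(Fact.out : ℓ.Prime).ne_zero⟩
  have halg : ∀ i, IsAlgebraic F (w i) := by
    intro i
    obtain ⟨a, ha⟩ := hw i
    refine (IsAlgebraic.of_pow (Fact.out : ℓ.Prime).pos ?_)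
    rw [ha]
    exact isAlgebraic_algebraMap a
  let E := algebraicClosure F L
  let Ω := AlgebraicClosure F
  haveI : Algebra.IsAlgebraic F E := algebraicClosure.isAlgebraic F L
  let j : E →ₐ[F] Ω := IsAlgClosed.lift
  haveI : CharZero Ω := charZero_of_injective_algebraMap (algebraMap F Ω).injective
  haveI : IsGalois F Ω := ⟨⟩
  let wE : Fin n → E := fun i => ⟨w i, mem_algebraicClosure_iff.2 (halg i)⟩
  let v : Fin n → Ω := fun i => j (wE i)
  have hv0 : ∀ i, v i ≠ 0 := by
    intro i h
    have : wE i = 0 := (map_eq_zero j).1 h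
    exact hw0 i (congrArg Subtype.val this)
  have hvl : ∀ i, ∃ a : F, v i ^ ℓ = algebraMap F Ω a := by
    intro i
    obtain ⟨a, ha⟩ := hw i
    refine ⟨a, ?_⟩
    have h1 : wE i ^ ℓ = algebraMap F E a := Subtype.ext ha
    change j (wE i) ^ ℓ = _
    rw [← map_pow, h1, AlgHom.commutes]
  have hchar : ∀ (i : Fin n) (σ : Ω ≃ₐ[F] Ω), ∃ c : F, σ (v i) = algebraMap F Ω c * v i := by
    intro i σ
    obtain ⟨a, ha⟩ := hvl i
    have h1 : (σ (v i) / v i) ^ ℓ = 1 := by
      rw [div_pow, ← map_pow, ha, AlgEquiv.commutes]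
      refine div_self ?_
      rw [← ha]; exact pow_ne_zero _ (hv0 i)
    have hζ' : IsPrimitiveRoot (algebraMap F Ω ζ) ℓ :=
      hζ.map_of_injective (algebraMap F Ω).injective
    obtain ⟨m, -, hm⟩ := hζ'.eq_pow_of_pow_eq_one h1
    refine ⟨ζ ^ m, ?_⟩
    rw [map_pow, hm, div_mul_cancel₀ _ (hv0 i)]
  let χ : Fin n → ((Ω ≃ₐ[F] Ω) →* Ω) := fun i =>
    { toFun := fun σ => σ (v i) / v i
      map_one' := by rw [AlgEquiv.one_apply, div_self (hv0 i)]
      map_mul' := by
        intro σ τ
        obtain ⟨c, hc⟩ := hchar i τ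
        rw [AlgEquiv.mul_apply, hc, map_mul, AlgEquiv.commutes, mul_div_assoc, mul_comm,
          mul_div_assoc, div_self (hv0 i), mul_one] }
  have hχ : Function.Injective χ := by
    intro i i' h
    by_contra hii
    have h1 : ∀ σ : Ω ≃ₐ[F] Ω, σ (v i / v i') = v i / v i' := by
      intro σ
      have h2 : σ (v i) / v i = σ (v i') / v i' := DFunLike.congr_fun h σ
      have h3 := hv0 i
      have h4 := hv0 i'
      have h5 : σ (v i') ≠ 0 := (map_ne_zero σ).2 h4
      rw [map_div₀, div_eq_div_iff h5 h4]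
      rw [div_eq_div_iff h3 h4] at h2
      rw [h2]; ring
    obtain ⟨y, hy⟩ := (InfiniteGalois.mem_range_algebraMap_iff_fixed _).2 h1
    apply hne i i' hii
    refine ⟨y, ?_⟩
    have h6 : j (wE i) = j (wE i' * algebraMap F E y) := by
      rw [map_mul, AlgHom.commutes, hy]
      have h4 := hv0 i'
      change v i = v i' * (v i / v i')
      rw [mul_div_cancel₀ _ h4]
    have h7 := j.injective h6
    exact congrArg Subtype.val h7
  have hli := (linearIndependent_monoidHom (Ω ≃ₐ[F] Ω) Ω).comp χ hχ
  rw [Fintype.linearIndependent_iff] at hli ⊢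
  intro c hc i
  have h1 : ∑ i, (algebraMap F Ω (c i) * v i) • (fun f : (Ω ≃ₐ[F] Ω) →* Ω => (f : (Ω ≃ₐ[F] Ω) → Ω))
      (χ i) = 0 := by
    funext σ
    rw [Finset.sum_apply, Pi.zero_apply]
    have h2 : ∑ i, c i • w i = 0 := hc
    have h3 : ∑ i, algebraMap F Ω (c i) * v i = 0 := by
      have h4 : ∑ i, c i • wE i = 0 := by
        apply Subtype.ext
        rw [AddSubmonoidClass.coe_finsetSum]
        exact h2
      have h5 := congrArg j h4
      rw [map_sum, map_zero] at h5
      rw [← h5]
      refine Finset.sum_congr rfl (fun i _ => ?_)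
      rw [Algebra.smul_def, map_mul, AlgHom.commutes]
    have h6 := congrArg σ h3
    rw [map_sum, map_zero] at h6
    rw [← h6]
    refine Finset.sum_congr rfl (fun i _ => ?_)
    rw [map_mul, AlgEquiv.commutes]
    change (algebraMap F Ω (c i) * v i) * (σ (v i) / v i) = _
    rw [mul_assoc, mul_div_cancel₀ _ (hv0 i)]
  have h7 := hli (fun i => algebraMap F Ω (c i) * v i) h1 i
  have h8 : algebraMap F Ω (c i) = 0 := (mul_eq_zero.1 h7).resolve_right (hv0 i)
  exact (map_eq_zero _).1 h8

/-- **Finite kernel.** -/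
theorem finite_kernel [CharZero F] [Algebra.EssFiniteType F L] (ℓ : ℕ) [Fact ℓ.Prime] (ζ : F)
    (hζ : IsPrimitiveRoot ζ ℓ) :
    ∃ N : ℕ, ∀ x : Fin (N + 1) → F, (∀ i, x i ≠ 0 ∧ ∃ w : L, w ^ ℓ = algebraMap F L (x i)) →
      ∃ i j, i ≠ j ∧ ∃ y : F, y ≠ 0 ∧ x i = x j * y ^ ℓ := by
  classical
  obtain ⟨S, hS⟩ := exists_isTranscendenceBasis F L
  haveI : Algebra.IsAlgebraic (adjoin F (Set.range ((↑) : S → L))) L := hS.isAlgebraic_field
  haveI : Algebra.EssFiniteType (adjoin F (Set.range ((↑) : S → L))) L :=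
    Algebra.EssFiniteType.of_comp F _ L
  haveI : Module.Finite (adjoin F (Set.range ((↑) : S → L))) L :=
    Algebra.finite_of_essFiniteType_of_isAlgebraic
  refine ⟨Module.finrank (adjoin F (Set.range ((↑) : S → L))) L, ?_⟩
  intro x hx
  by_contra hcon
  push Not at hcon
  choose hx0 w hw using hx
  have hℓ : ℓ ≠ 0 := (Fact.out : ℓ.Prime).ne_zero
  have hw0 : ∀ i, w i ≠ 0 := by
    intro i h
    have := hw i
    rw [h, zero_pow hℓ] at this
    exact hx0 i ((map_eq_zero _).1 this.symm)
  have h1 : LinearIndependent F w := by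
    refine linearIndependent_roots ℓ ζ hζ hw0 (fun i => ⟨x i, hw i⟩) ?_
    rintro i j hij ⟨y, hy⟩
    have hy0 : y ≠ 0 := by
      rintro rfl
      rw [map_zero, mul_zero] at hy
      exact hw0 i hy
    refine hcon i j hij y hy0 ?_
    apply (algebraMap F L).injective
    rw [← hw i, hy, mul_pow, hw j, map_mul, map_pow]
  have h2 := linearIndependent_adjoin hS.1 (fun i => by
    refine (IsAlgebraic.of_pow (Fact.out : ℓ.Prime).pos ?_)
    rw [hw i]
    exact isAlgebraic_algebraMap (x i)) h1
  have h3 := h2.fintype_card_le_finrank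
  rw [Fintype.card_fin] at h3
  omega

end

end Vale.Agent.P019
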