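import Mathlib

/-!
# Kummer descent
-/

namespace Vale.Agent.P019

set_option linter.style.haveILetI false

open Polynomial IntermediateField

section span

variable {Ω : Type*} [Field Ω]

/-- compositum with an algebraic subfield is spanned by it. -/
theorem mem_span_of_mem_sup (K B : Subfield Ω) (hB : ∀ b ∈ B, IsAlgebraic K b) {r : Ω}
    (hr : r ∈ K ⊔ B) : r ∈ Submodule.span K (B : Set Ω) := by
  have h1 : K ⊔ B ≤ (adjoin K (B : Set Ω)).toSubfield := by
    rw [sup_le_iff]
    constructor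
    · intro x hx
      exact (adjoin K (B : Set Ω)).algebraMap_mem ⟨x, hx⟩
    · intro x hx
      exact subset_adjoin K _ hx
  have h2 : r ∈ (adjoin K (B : Set Ω)).toSubalgebra := h1 hr
  rw [adjoin_toSubalgebra_of_isAlgebraic (fun x hx => hB x hx)] at h2
  have h3 : r ∈ Subalgebra.toSubmodule (Algebra.adjoin K (B : Set Ω)) := h2
  rw [Algebra.adjoin_eq_span_of_subset] at h3
  · exact h3
  · have : (Submonoid.closure (B : Set Ω) : Set Ω) ⊆ (B : Set Ω) := by
      intro x hx
      have h4 : Submonoid.closure (B : Set Ω) ≤ B.toSubmonoid :=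
        Submonoid.closure_le.2 (fun y hy => hy)
      exact h4 hx
    exact this.trans Submodule.subset_span

/-- a finite Galois extension inside an algebraically closed field containing finitely many
algebraic elements. -/
theorem exists_galois [IsAlgClosed Ω] (K : Subfield Ω) [CharZero K] (t : Finset Ω)
    (ht : ∀ b ∈ t, IsAlgebraic K b) :
    ∃ M : IntermediateField K Ω, (∀ b ∈ t, b ∈ M) ∧ FiniteDimensional K M ∧ IsGalois K M := by
  classical
  let p : K[X] := ∏ b ∈ t, minpoly K b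
  have hp : p ≠ 0 := Finset.prod_ne_zero_iff.2 (fun b hb => minpoly.ne_zero (ht b hb).isIntegral)
  haveI hsf : p.IsSplittingField K (adjoin K (p.rootSet Ω)) :=
    adjoin_rootSet_isSplittingField (IsAlgClosed.splits _)
  refine ⟨adjoin K (p.rootSet Ω), ?_, Polynomial.IsSplittingField.finiteDimensional _ p, ?_⟩
  · intro b hb
    apply subset_adjoin
    rw [mem_rootSet]
    refine ⟨hp, ?_⟩
    rw [map_prod]
    exact Finset.prod_eq_zero hb (minpoly.aeval K b)
  · haveI : Normal K (adjoin K (p.rootSet Ω)) := Normal.of_isSplittingField p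
    haveI : FiniteDimensional K (adjoin K (p.rootSet Ω)) :=
      Polynomial.IsSplittingField.finiteDimensional _ p
    exact ⟨⟩

end span

section kummer

variable {Ω : Type*} [Field Ω]

/-- algebraicity over a smaller subfield is preserved by automorphisms over a bigger one. -/
theorem isAlgebraic_aut {E K : Subfield Ω} (hEK : E ≤ K) {M : IntermediateField K Ω}
    (σ : M ≃ₐ[K] M) {e : M} (he : IsAlgebraic E (e : Ω)) : IsAlgebraic E ((σ e : M) : Ω) := by
  obtain ⟨Q, hQ0, hQ⟩ := he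
  refine ⟨Q, hQ0, ?_⟩
  let Q' : K[X] := Q.map (Subfield.inclusion hEK)
  have key : ∀ y : M, aeval (y : Ω) Q = ((aeval y Q' : M) : Ω) := by
    intro y
    have h1 : ((aeval y Q' : M) : Ω) = aeval (y : Ω) Q' := by
      change M.val (aeval y Q') = aeval (M.val y) Q'
      rw [aeval_algHom_apply]
    rw [h1, aeval_def, aeval_def, eval₂_map]
    rfl
  rw [key] at hQ ⊢
  have h2 : aeval (σ e) Q' = σ (aeval e Q') := by
    rw [← AlgEquiv.coe_toAlgHom, aeval_algHom_apply]
  have h3 : aeval e Q' = 0 := Subtype.ext hQ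
  rw [h2, h3, map_zero]
  rfl

/-- **Kummer descent.** -/
theorem kummer_descent [IsAlgClosed Ω] [CharZero Ω] (ℓ : ℕ) [Fact ℓ.Prime]
    (E K B : Subfield Ω) (hEK : E ≤ K) (hac : ∀ z ∈ K, IsAlgebraic E z → z ∈ E)
    (hB : ∀ b ∈ B, IsAlgebraic E b) (ζ : Ω) (hζE : ζ ∈ E) (hζ : IsPrimitiveRoot ζ ℓ)
    {h r : Ω} (hh : h ∈ K) (h0 : h ≠ 0) (hr : r ∈ K ⊔ B) (hrl : r ^ ℓ = h) :
    ∃ e ∈ E, ∃ w ∈ K, h = e * w ^ ℓ := by
  classical
  haveI : NeZero ℓ := ⟨(Fact.out : ℓ.Prime).ne_zero⟩
  have hBK : ∀ b ∈ B, IsAlgebraic K b := by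
    intro b hb
    obtain ⟨Q, hQ0, hQ⟩ := hB b hb
    refine ⟨Q.map (Subfield.inclusion hEK), ?_, ?_⟩
    · rw [Ne, Polynomial.map_eq_zero_iff (RingHom.injective _)]; exact hQ0
    · rw [aeval_def, eval₂_map]; exact hQ
  obtain ⟨t, htB, htr⟩ := Submodule.mem_span_finite_of_mem_span (mem_span_of_mem_sup K B hBK hr)
  obtain ⟨M, htM, hfd, hgal⟩ := exists_galois K t (fun b hb => hBK b (htB hb))
  have hr0 : r ≠ 0 := by
    rintro rfl
    rw [zero_pow (NeZero.ne ℓ)] at hrl
    exact h0 hrl.symm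
  -- `r` in `M`
  have hrM : r ∈ M := by
    have : Submodule.span K (t : Set Ω) ≤ Subalgebra.toSubmodule M.toSubalgebra := by
      rw [Submodule.span_le]
      intro b hb
      exact htM b hb
    exact this htr
  set rM : M := ⟨r, hrM⟩ with hrMdef
  have hrM0 : rM ≠ 0 := fun h' => hr0 (congrArg Subtype.val h')
  -- the character
  have hchar : ∀ σ : M ≃ₐ[K] M, ∃ c : E, c ≠ 0 ∧ σ rM = (algebraMap K M (Subfield.inclusion hEK c)) * rM := by
    intro σ
    have h1 : (σ rM / rM) ^ ℓ = 1 := by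
      have h2 : rM ^ ℓ = algebraMap K M ⟨h, hh⟩ := Subtype.ext hrl
      rw [div_pow, ← map_pow, h2, AlgEquiv.commutes]
      refine div_self ?_
      rw [← h2]; exact pow_ne_zero _ hrM0
    have h2 : (((σ rM / rM : M)) : Ω) ^ ℓ = 1 := by
      have := congrArg (fun x : M => (x : Ω)) h1
      simpa using this
    obtain ⟨i, -, hi⟩ := hζ.eq_pow_of_pow_eq_one h2
    refine ⟨⟨ζ ^ i, pow_mem hζE i⟩, ?_, ?_⟩
    · intro h3
      have : ζ ^ i = 0 := congrArg Subtype.val h3
      rw [this] at hi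
      rw [← hi, zero_pow (NeZero.ne ℓ)] at h2
      exact zero_ne_one h2
    · apply Subtype.ext
      have h3 : ((σ rM : M) : Ω) = ζ ^ i * r := by
        rw [hi]
        have : (((σ rM / rM : M)) : Ω) = ((σ rM : M) : Ω) / r := rfl
        rw [this]
        field_simp
      rw [h3]
      rfl
  choose c hc0 hc using hchar
  -- multiplicativity
  have hcmul : ∀ σ τ : M ≃ₐ[K] M, c (τ * σ) = c τ * c σ := by
    intro σ τ
    have h1 := hc (τ * σ)
    rw [AlgEquiv.mul_apply, hc σ, map_mul, AlgEquiv.commutes, hc τ] at h1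
    have h2 : algebraMap K M (Subfield.inclusion hEK (c (τ * σ))) =
        algebraMap K M (Subfield.inclusion hEK (c τ * c σ)) := by
      apply mul_right_cancel₀ hrM0
      rw [← h1, map_mul, map_mul]
      ring
    have h3 := (algebraMap K M).injective h2
    exact (Subfield.inclusion hEK).injective h3
  -- the projection
  let p : M →ₗ[K] M := ∑ σ : M ≃ₐ[K] M, (Subfield.inclusion hEK (c σ))⁻¹ • σ.toLinearMap
  have hp : ∀ y, p y = ∑ σ : M ≃ₐ[K] M, (Subfield.inclusion hEK (c σ))⁻¹ • σ y := by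
    intro y
    simp [p, LinearMap.sum_apply]
  have hpr : p rM ≠ 0 := by
    have h1 : p rM = ∑ σ : M ≃ₐ[K] M, rM := by
      rw [hp]
      refine Finset.sum_congr rfl (fun σ _ => ?_)
      rw [hc σ, Algebra.smul_def, ← mul_assoc, ← map_mul, inv_mul_cancel₀, map_one, one_mul]
      intro h2
      exact hc0 σ ((map_eq_zero _).1 h2)
    rw [h1, Finset.sum_const, nsmul_eq_mul]
    refine mul_ne_zero ?_ hrM0
    haveI : CharZero M := charZero_of_injective_algebraMap (algebraMap K M).injective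
    rw [Nat.cast_ne_zero]
    exact Finset.card_ne_zero_of_mem (Finset.mem_univ (1 : M ≃ₐ[K] M))
  -- find `e`
  have hex : ∃ (b : Ω) (hb : b ∈ t), p ⟨b, htM b hb⟩ ≠ 0 := by
    by_contra hcon
    push Not at hcon
    apply hpr
    -- `r` is in the span
    have : ∀ (x : Ω) (hx : x ∈ Submodule.span K (t : Set Ω)),
        ∃ hxM : x ∈ M, p ⟨x, hxM⟩ = 0 := by
      intro x hx
      induction hx using Submodule.span_induction with
      | mem x hx => exact ⟨htM x hx, hcon x hx⟩
      | zero => exact ⟨M.zero_mem, map_zero p⟩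
      | add x y _ _ hx hy =>
        obtain ⟨hxM, hx⟩ := hx
        obtain ⟨hyM, hy⟩ := hy
        refine ⟨M.add_mem hxM hyM, ?_⟩
        have := map_add p ⟨x, hxM⟩ ⟨y, hyM⟩
        rw [hx, hy, add_zero] at this
        exact this
      | smul a x _ hx =>
        obtain ⟨hxM, hx⟩ := hx
        refine ⟨M.smul_mem hxM, ?_⟩
        have := map_smul p a ⟨x, hxM⟩
        rw [hx, smul_zero] at this
        exact this
    exact (this r htr).2
  obtain ⟨b, hbt, hb⟩ := hex
  set e₀ : M := ⟨b, htM b hbt⟩ with he₀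
  set T : M := p e₀ with hT
  have hTtr : ∀ τ : M ≃ₐ[K] M, τ T = algebraMap K M (Subfield.inclusion hEK (c τ)) * T := by
    intro τ
    rw [hT, hp, map_sum, Finset.mul_sum]
    refine Fintype.sum_bijective (fun σ => τ * σ) (Group.mulLeft_bijective τ) _ _ (fun σ => ?_)
    rw [hcmul, Algebra.smul_def, Algebra.smul_def, map_mul, AlgEquiv.commutes,
      AlgEquiv.mul_apply, map_mul, mul_inv, map_mul, ← mul_assoc, ← mul_assoc, ← map_mul,
      mul_inv_cancel₀, map_one, one_mul]
    intro h2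
    exact hc0 τ ((map_eq_zero _).1 h2)
  -- `r / T` is in `K`
  have hw : ∃ w : K, algebraMap K M w = rM / T := by
    have : rM / T ∈ (⊥ : IntermediateField K M) := by
      rw [IsGalois.mem_bot_iff_fixed]
      intro τ
      rw [map_div₀, hTtr, hc, mul_div_mul_left]
      intro h2
      exact hc0 τ ((map_eq_zero _).1 ((map_eq_zero _).1 h2))
    exact IntermediateField.mem_bot.1 this
  have hTl : ∃ w : K, algebraMap K M w = T ^ ℓ := by
    have : T ^ ℓ ∈ (⊥ : IntermediateField K M) := by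
      rw [IsGalois.mem_bot_iff_fixed]
      intro τ
      have h1 : (algebraMap K M (Subfield.inclusion hEK (c τ))) ^ ℓ = 1 := by
        have h2 : rM ^ ℓ = algebraMap K M ⟨h, hh⟩ := Subtype.ext hrl
        have h3 : τ (rM ^ ℓ) = rM ^ ℓ := by rw [h2, AlgEquiv.commutes]
        rw [map_pow, hc, mul_pow] at h3
        exact mul_right_cancel₀ (pow_ne_zero ℓ hrM0) (h3.trans (one_mul _).symm)
      rw [map_pow, hTtr, mul_pow, h1, one_mul]
    exact IntermediateField.mem_bot.1 this
  obtain ⟨w, hw⟩ := hw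
  obtain ⟨e, he⟩ := hTl
  -- `T` algebraic over `E`
  have hTalg : IsAlgebraic E ((T : M) : Ω) := by
    have h1 : ((T : M) : Ω) = ∑ σ : M ≃ₐ[K] M, (((c σ : E) : Ω))⁻¹ * ((σ e₀ : M) : Ω) := by
      rw [hT, hp, ← IntermediateField.coe_val, map_sum]
      refine Finset.sum_congr rfl (fun σ _ => ?_)
      rfl
    rw [h1]
    have h2 : ∀ σ ∈ (Finset.univ : Finset (M ≃ₐ[K] M)),
        (((c σ : E) : Ω))⁻¹ * ((σ e₀ : M) : Ω) ∈ integralClosure E Ω := by
      intro σ _
      refine Subalgebra.mul_mem _ ?_ ?_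
      · have : (((c σ : E) : Ω))⁻¹ = algebraMap E Ω (c σ)⁻¹ := by simp; rfl
        rw [this]
        exact Subalgebra.algebraMap_mem _ _
      · exact (isAlgebraic_aut hEK σ (hB b (htB hbt))).isIntegral
    have h3 : (∑ σ : M ≃ₐ[K] M, (((c σ : E) : Ω))⁻¹ * ((σ e₀ : M) : Ω)) ∈ integralClosure E Ω :=
      Subalgebra.sum_mem _ h2
    exact IsIntegral.isAlgebraic h3
  refine ⟨(e : Ω), ?_, (w : Ω), w.2, ?_⟩
  · apply hac _ e.2
    have h1 : (e : Ω) = ((T : M) : Ω) ^ ℓ := congrArg (fun x : M => (x : Ω)) he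
    rw [h1]
    exact hTalg.pow ℓ
  · have h1 : (e : Ω) = ((T : M) : Ω) ^ ℓ := congrArg (fun x : M => (x : Ω)) he
    have h2 : (w : Ω) = r / ((T : M) : Ω) := congrArg (fun x : M => (x : Ω)) hw
    have hT0 : ((T : M) : Ω) ≠ 0 := fun h3 => hb (Subtype.ext h3)
    rw [h1, h2, div_pow, hrl]
    field_simp

end kummer

end Vale.Agent.P019
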