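import Mathlib

/-!
# Places and the unramified lemma
-/

namespace Vale.Agent.P019

open Polynomial

/-- A place of `F` with values in `C`. -/
structure Pl (F C : Type*) [Field F] [Field C] where
  O : ValuationSubring F
  ψ : O →+* C
  ker : ∀ x : O, ψ x = 0 ↔ O.valuation (x : F) < 1

namespace Pl

variable {F C : Type*} [Field F] [Field C] (P : Pl F C)

/-- evaluation, extended by zero. -/
noncomputable def ev (x : F) : C := by classical exact if h : x ∈ P.O then P.ψ ⟨x, h⟩ else 0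

theorem ev_of_mem {x : F} (h : x ∈ P.O) : P.ev x = P.ψ ⟨x, h⟩ := by simp [ev, h]

/-- units of the place. -/
def U (x : F) : Prop := x ∈ P.O ∧ P.ev x ≠ 0

theorem ev_zero : P.ev 0 = 0 := by
  rw [P.ev_of_mem P.O.zero_mem]; exact map_zero P.ψ

theorem ev_one : P.ev 1 = 1 := by
  rw [P.ev_of_mem P.O.one_mem]; exact map_one P.ψ

theorem ev_mul {x y : F} (hx : x ∈ P.O) (hy : y ∈ P.O) : P.ev (x * y) = P.ev x * P.ev y := by
  rw [P.ev_of_mem hx, P.ev_of_mem hy, P.ev_of_mem (P.O.mul_mem _ _ hx hy), ← map_mul]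
  rfl

theorem ev_add {x y : F} (hx : x ∈ P.O) (hy : y ∈ P.O) : P.ev (x + y) = P.ev x + P.ev y := by
  rw [P.ev_of_mem hx, P.ev_of_mem hy, P.ev_of_mem (P.O.add_mem _ _ hx hy), ← map_add]
  rfl

theorem ev_neg {x : F} (hx : x ∈ P.O) : P.ev (-x) = - P.ev x := by
  rw [P.ev_of_mem hx, P.ev_of_mem (P.O.neg_mem _ hx), ← map_neg]
  rfl

theorem ev_sub {x y : F} (hx : x ∈ P.O) (hy : y ∈ P.O) : P.ev (x - y) = P.ev x - P.ev y := by
  rw [sub_eq_add_neg, P.ev_add hx (P.O.neg_mem _ hy), P.ev_neg hy, sub_eq_add_neg]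

theorem ev_pow {x : F} (hx : x ∈ P.O) (n : ℕ) : P.ev (x ^ n) = P.ev x ^ n := by
  induction n with
  | zero => simp [ev_one]
  | succ n ih =>
    rw [pow_succ, pow_succ, P.ev_mul (pow_mem hx n) hx, ih]

theorem ev_eq_zero_iff {x : F} (hx : x ∈ P.O) : P.ev x = 0 ↔ P.O.valuation x < 1 := by
  rw [P.ev_of_mem hx, P.ker]

theorem mem_of_lt {x : F} (h : P.O.valuation x < 1) : x ∈ P.O :=
  (P.O.valuation_le_one_iff x).1 h.le

theorem ev_of_lt {x : F} (h : P.O.valuation x < 1) : P.ev x = 0 :=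
  (P.ev_eq_zero_iff (P.mem_of_lt h)).2 h

theorem U_iff {x : F} : P.U x ↔ P.O.valuation x = 1 := by
  constructor
  · rintro ⟨h, h'⟩
    rw [Ne, P.ev_eq_zero_iff h, not_lt] at h'
    exact le_antisymm ((P.O.valuation_le_one_iff x).2 h) h'
  · intro h
    have hx := (P.O.valuation_le_one_iff x).1 h.le
    refine ⟨hx, ?_⟩
    rw [Ne, P.ev_eq_zero_iff hx, h]
    exact lt_irrefl 1

theorem U.mem {P : Pl F C} {x : F} (h : P.U x) : x ∈ P.O := h.1

theorem U.ne_zero {P : Pl F C} {x : F} (h : P.U x) : x ≠ 0 := by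
  rintro rfl
  exact h.2 P.ev_zero

theorem U.mul {P : Pl F C} {x y : F} (h : P.U x) (h' : P.U y) : P.U (x * y) :=
  ⟨P.O.mul_mem _ _ h.1 h'.1, by rw [P.ev_mul h.1 h'.1]; exact mul_ne_zero h.2 h'.2⟩

theorem U.inv_mem {P : Pl F C} {x : F} (h : P.U x) : x⁻¹ ∈ P.O := by
  rw [← P.O.valuation_le_one_iff, map_inv₀, P.U_iff.1 h, inv_one]

theorem U.ev_inv {P : Pl F C} {x : F} (h : P.U x) : P.ev x⁻¹ = (P.ev x)⁻¹ := by
  have h1 := P.ev_mul h.1 h.inv_mem
  rw [mul_inv_cancel₀ h.ne_zero, P.ev_one] at h1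
  exact eq_inv_of_mul_eq_one_right h1.symm

theorem U.inv {P : Pl F C} {x : F} (h : P.U x) : P.U x⁻¹ :=
  ⟨h.inv_mem, by rw [h.ev_inv]; exact inv_ne_zero h.2⟩

theorem U.pow {P : Pl F C} {x : F} (h : P.U x) (n : ℕ) : P.U (x ^ n) :=
  ⟨pow_mem h.1 n, by rw [P.ev_pow h.1]; exact pow_ne_zero n h.2⟩

theorem U.zpow {P : Pl F C} {x : F} (h : P.U x) (n : ℤ) : P.U (x ^ n) := by
  cases n with
  | ofNat n => simpa using h.pow n
  | negSucc n =>
    rw [zpow_negSucc]
    exact (h.pow _).inv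

theorem U.div {P : Pl F C} {x y : F} (h : P.U x) (h' : P.U y) : P.U (x / y) := by
  rw [div_eq_mul_inv]; exact h.mul h'.inv

theorem ev_div {x y : F} (hx : x ∈ P.O) (h' : P.U y) : P.ev (x / y) = P.ev x / P.ev y := by
  rw [div_eq_mul_inv, P.ev_mul hx h'.inv_mem, h'.ev_inv, div_eq_mul_inv]

theorem U_one : P.U 1 := ⟨P.O.one_mem, by rw [P.ev_one]; exact one_ne_zero⟩

end Pl

section unr

variable {K Ω : Type*} [Field K] [Field Ω]

/-- `P` is discrete on `F` with uniformizer `π` and residue field inside `κ`. -/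
def Gd (P : Pl K Ω) (π : K) (κ : Subfield Ω) (F : Subfield K) : Prop :=
  ∀ z ∈ F, z ≠ 0 → ∃ n : ℤ, P.U (z * π ^ n) ∧ P.ev (z * π ^ n) ∈ κ

theorem zpow_unit_eq_zero {P : Pl K Ω} {π : K} (hπ : π ≠ 0) (hπO : π ∈ P.O) (hπ0 : P.ev π = 0)
    {n : ℤ} (h : P.U (π ^ n)) : n = 0 := by
  rcases lt_trichotomy n 0 with h1 | h1 | h1
  · exfalso
    obtain ⟨m, hm⟩ := Int.eq_ofNat_of_zero_le (a := -n) (by omega)
    have h2 := h.inv
    rw [← zpow_neg, hm, zpow_natCast] at h2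
    have h3 := h2.2
    rw [P.ev_pow hπO, hπ0, zero_pow (by omega)] at h3
    exact h3 rfl
  · exact h1
  · exfalso
    obtain ⟨m, hm⟩ := Int.eq_ofNat_of_zero_le (a := n) (by omega)
    rw [hm, zpow_natCast] at h
    have h3 := h.2
    rw [P.ev_pow hπO, hπ0, zero_pow (by omega)] at h3
    exact h3 rfl

variable {P : Pl K Ω} {π : K} {κ : Subfield Ω} {F : Subfield K}

/-- an element of `F` in the valuation ring is `π ^ n * unit` with `n` natural. -/
theorem Gd.nat (hπ : π ≠ 0) (hπO : π ∈ P.O) (hπ0 : P.ev π = 0) (hF : Gd P π κ F)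
    {z : K} (hz : z ∈ F) (hz0 : z ≠ 0) (hzO : z ∈ P.O) :
    ∃ (n : ℕ) (u : K), z = π ^ n * u ∧ P.U u ∧ P.ev u ∈ κ := by
  obtain ⟨n, hn, hn'⟩ := hF z hz hz0
  have hn0 : n ≤ 0 := by
    by_contra hcon
    push Not at hcon
    obtain ⟨m, hm⟩ := Int.eq_ofNat_of_zero_le (a := n) (by omega)
    rw [hm, zpow_natCast] at hn
    have h3 := hn.2
    rw [P.ev_mul hzO (pow_mem hπO m), P.ev_pow hπO, hπ0, zero_pow (by omega), mul_zero] at h3
    exact h3 rfl
  obtain ⟨m, hm⟩ := Int.eq_ofNat_of_zero_le (a := -n) (by omega)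
  refine ⟨m, z * π ^ n, ?_, hn, hn'⟩
  have : n = -(m : ℤ) := by omega
  rw [this, zpow_neg, zpow_natCast]
  field_simp

theorem Gd.ev_mem (hπ : π ≠ 0) (hπO : π ∈ P.O) (hπ0 : P.ev π = 0) (hF : Gd P π κ F)
    {z : K} (hz : z ∈ F) (hzO : z ∈ P.O) : P.ev z ∈ κ := by
  by_cases hz0 : z = 0
  · rw [hz0, P.ev_zero]; exact κ.zero_mem
  obtain ⟨n, u, rfl, hu, hu'⟩ := hF.nat hπ hπO hπ0 hz hz0 hzO
  rw [P.ev_mul (pow_mem hπO n) hu.1, P.ev_pow hπO, hπ0]
  rcases Nat.eq_zero_or_pos n with h | h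
  · rw [h]; simpa using hu'
  · rw [zero_pow h.ne', zero_mul]; exact κ.zero_mem

theorem Gd.div_pi (hπ : π ≠ 0) (hπO : π ∈ P.O) (hπ0 : P.ev π = 0) (hπF : π ∈ F)
    (hF : Gd P π κ F) {z : K} (hz : z ∈ F) (hzO : z ∈ P.O) (hz0 : P.ev z = 0) :
    ∃ w ∈ F, w ∈ P.O ∧ z = π * w := by
  by_cases h0 : z = 0
  · exact ⟨0, F.zero_mem, P.O.zero_mem, by rw [h0, mul_zero]⟩
  obtain ⟨n, u, he, hu, hu'⟩ := hF.nat hπ hπO hπ0 hz h0 hzO
  have hn : n ≠ 0 := by
    rintro rfl
    rw [he, pow_zero, one_mul] at hz0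
    exact hu.2 hz0
  obtain ⟨m, rfl⟩ := Nat.exists_eq_succ_of_ne_zero hn
  refine ⟨π ^ m * u, ?_, P.O.mul_mem _ _ (pow_mem hπO m) hu.1, ?_⟩
  · have : π ^ m * u = z / π := by rw [he, pow_succ]; field_simp
    rw [this]; exact F.div_mem hz hπF
  · rw [he, pow_succ]; ring

variable (P F) in
/-- the valuation ring of `F`. -/
def RF : Subring F := P.O.toSubring.comap (algebraMap F K)

theorem mem_RF {a : F} : a ∈ RF P F ↔ (a : K) ∈ P.O := Iff.rfl

variable (P F) in
/-- evaluation on the valuation ring of `F`. -/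
noncomputable def evF : RF P F →+* Ω :=
  P.ψ.comp (RingHom.codRestrict ((algebraMap F K).comp (RF P F).subtype) P.O.toSubring
    (fun a => a.2))

theorem evF_apply (a : RF P F) : evF P F a = P.ev ((a : F) : K) := by
  rw [P.ev_of_mem (mem_RF.1 a.2)]
  rfl

variable (P F) in
/-- polynomial evaluation at `θ`. -/
noncomputable def evθ (θ : K) : (RF P F)[X] →+* K :=
  Polynomial.eval₂RingHom ((algebraMap F K).comp (RF P F).subtype) θ

theorem evθ_mem {θ : K} (hθ : θ ∈ P.O) (G : (RF P F)[X]) : evθ P F θ G ∈ P.O := by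
  have : evθ P F θ G = G.sum (fun n a => ((a : F) : K) * θ ^ n) := by
    change eval₂ _ θ G = _
    rw [eval₂_eq_sum]
    rfl
  rw [this]
  exact P.O.toSubring.sum_mem (fun n _ => P.O.mul_mem _ _ (mem_RF.1 (G.coeff n).2) (pow_mem hθ n))

theorem ev_evθ {θ : K} (hθ : θ ∈ P.O) (G : (RF P F)[X]) :
    P.ev (evθ P F θ G) = (G.map (evF P F)).eval (P.ev θ) := by
  induction G using Polynomial.induction_on' with
  | add p q hp hq =>
    rw [map_add, P.ev_add (evθ_mem hθ p) (evθ_mem hθ q), hp, hq, Polynomial.map_add, eval_add]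
  | monomial n a =>
    have h1 : evθ P F θ (monomial n a) = ((a : F) : K) * θ ^ n := by
      change eval₂ _ θ (monomial n a) = _
      rw [eval₂_monomial]
      rfl
    rw [h1, P.ev_mul (mem_RF.1 a.2) (pow_mem hθ n), P.ev_pow hθ, map_monomial, eval_monomial,
      evF_apply]

/-- lifting: all coefficients of `G` reduce to zero implies `G = π * G'`. -/
theorem exists_pi_mul (hπ : π ≠ 0) (hπO : π ∈ P.O) (hπ0 : P.ev π = 0) (hπF : π ∈ F)
    (hF : Gd P π κ F) (G : (RF P F)[X]) (hG : G.map (evF P F) = 0) :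
    ∃ G' : (RF P F)[X], G = C ⟨⟨π, hπF⟩, hπO⟩ * G' := by
  have h : ∀ n, ∃ w : RF P F, G.coeff n = ⟨⟨π, hπF⟩, hπO⟩ * w := by
    intro n
    have h1 : evF P F (G.coeff n) = 0 := by
      rw [← coeff_map, hG, coeff_zero]
    rw [evF_apply] at h1
    obtain ⟨w, hw, hw', e⟩ := hF.div_pi hπ hπO hπ0 hπF (G.coeff n : F).2 (mem_RF.1 (G.coeff n).2) h1
    exact ⟨⟨⟨w, hw⟩, hw'⟩, Subtype.ext (Subtype.ext e)⟩
  exact (C_dvd_iff_dvd_coeff _ _).2 (fun n => ⟨(h n).choose, (h n).choose_spec⟩)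

/-- every monic-type minimal choice. -/
theorem exists_min_poly (θ' : Ω) (Φ : (RF P F)[X]) (hmon : Φ.Monic)
    (hΦ : (Φ.map (evF P F)).eval θ' = 0) :
    ∃ g : (RF P F)[X], g.Monic ∧ (g.map (evF P F)).eval θ' = 0 ∧
      ∀ r : (RF P F)[X], r.degree < g.degree → (r.map (evF P F)).eval θ' = 0 →
        r.map (evF P F) = 0 := by
  classical
  have hex : ∃ d : ℕ, ∃ g : (RF P F)[X], g.Monic ∧ (g.map (evF P F)).eval θ' = 0 ∧
      g.natDegree = d := ⟨_, Φ, hmon, hΦ, rfl⟩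
  obtain ⟨g, hg1, hg2, hg3⟩ := Nat.find_spec hex
  refine ⟨g, hg1, hg2, ?_⟩
  intro r hr hr0
  by_contra hne
  -- leading unit coefficient
  set rb := r.map (evF P F) with hrb
  have hlead : rb.leadingCoeff ≠ 0 := leadingCoeff_ne_zero.2 hne
  set d := rb.natDegree with hd
  have hcd : evF P F (r.coeff d) ≠ 0 := by
    rw [← coeff_map]; exact hlead
  rw [evF_apply] at hcd
  have hU : P.U ((r.coeff d : F) : K) := ⟨mem_RF.1 (r.coeff d).2, hcd⟩
  let c : RF P F := ⟨(r.coeff d : F)⁻¹, by rw [mem_RF]; simpa using hU.inv_mem⟩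
  have hc : c * r.coeff d = 1 := by
    apply Subtype.ext; apply Subtype.ext
    change ((r.coeff d : F) : K)⁻¹ * ((r.coeff d : F) : K) = 1
    exact inv_mul_cancel₀ hU.ne_zero
  -- truncated polynomial
  let t : (RF P F)[X] := C c * (∑ i ∈ Finset.range d, monomial i (r.coeff i)) + X ^ d
  have hdeg : (C c * (∑ i ∈ Finset.range d, monomial i (r.coeff i))).degree < (d : WithBot ℕ) := by
    refine lt_of_le_of_lt (degree_mul_le _ _) ?_
    have h1 : (∑ i ∈ Finset.range d, monomial i (r.coeff i)).degree < (d : WithBot ℕ) := by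
      refine lt_of_le_of_lt (degree_sum_le _ _) ?_
      refine (Finset.sup_lt_iff (WithBot.bot_lt_coe d)).2 ?_
      intro i hi
      refine lt_of_le_of_lt (degree_monomial_le _ _) ?_
      exact WithBot.coe_lt_coe.2 (Finset.mem_range.1 hi)
    refine lt_of_le_of_lt (add_le_add_left degree_C_le _) ?_
    rwa [zero_add]
  have htmon : t.Monic := monic_X_pow_add hdeg |> fun h => by
    rwa [add_comm] at h
  have htdeg : t.natDegree = d := by
    have : t.degree = d := by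
      change (_ + X ^ d : (RF P F)[X]).degree = d
      rw [degree_add_eq_right_of_degree_lt]
      · exact degree_X_pow d
      · rw [degree_X_pow]; exact hdeg
    exact natDegree_eq_of_degree_eq_some this
  have hteval : (t.map (evF P F)).eval θ' = 0 := by
    have h1 : t.map (evF P F) = C (evF P F c) * rb := by
      have h2 : rb = ∑ i ∈ Finset.range (d + 1), monomial i (rb.coeff i) :=
        rb.as_sum_range
      rw [h2, Finset.sum_range_succ]
      change (C c * (∑ i ∈ Finset.range d, monomial i (r.coeff i)) + X ^ d).map (evF P F) = _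
      rw [Polynomial.map_add, Polynomial.map_mul, Polynomial.map_C, Polynomial.map_pow,
        Polynomial.map_X, Polynomial.map_sum, mul_add]
      congr 1
      · congr 1
        refine Finset.sum_congr rfl fun i _ => ?_
        rw [map_monomial, hrb, coeff_map]
      · rw [C_mul_monomial, hrb, coeff_map, ← map_mul, hc, map_one, ← X_pow_eq_monomial]
    rw [h1, eval_mul, hr0, mul_zero]
  have hlt : d < Nat.find hex := by
    rw [← hg3]
    have h1 : d ≤ r.natDegree := natDegree_map_le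
    have h2 : r ≠ 0 := by
      rintro rfl
      exact hne (by rw [hrb, Polynomial.map_zero])
    have h3 := natDegree_lt_natDegree h2 hr
    omega
  exact Nat.find_min hex hlt ⟨t, htmon, hteval, htdeg⟩


theorem eval_mem_subfield (κ : Subfield Ω) (G : Polynomial Ω) (hG : ∀ i, G.coeff i ∈ κ) {x : Ω}
    (hx : x ∈ κ) : G.eval x ∈ κ := by
  rw [eval_eq_sum]
  exact κ.toSubring.sum_mem (fun n _ => κ.mul_mem (hG n) (pow_mem hx n))

/-- elements of a simple algebraic extension are polynomials in the generator. -/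
theorem exists_aeval_of_mem_closure {θ : K} (hθ : IsIntegral F θ) {z : K}
    (hz : z ∈ Subfield.closure ((F : Set K) ∪ {θ})) : ∃ Q : F[X], aeval θ Q = z := by
  have h1 : Subfield.closure ((F : Set K) ∪ {θ}) ≤ (IntermediateField.adjoin F {θ}).toSubfield := by
    rw [Subfield.closure_le]
    rintro x (hx | hx)
    · exact (IntermediateField.adjoin F {θ}).algebraMap_mem ⟨x, hx⟩
    · rw [Set.mem_singleton_iff] at hx
      rw [hx]
      exact IntermediateField.mem_adjoin_simple_self F θ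
  have h2 : z ∈ (IntermediateField.adjoin F {θ}).toSubalgebra := h1 hz
  rw [IntermediateField.adjoin_simple_toSubalgebra_of_isAlgebraic hθ.isAlgebraic,
    Algebra.adjoin_singleton_eq_range_aeval] at h2
  obtain ⟨Q, hQ⟩ := h2
  exact ⟨Q, hQ⟩

theorem Gd.clear_one (hπO : π ∈ P.O) (hF : Gd P π κ F) (hπF : π ∈ F) {a : K} (ha : a ∈ F) :
    ∃ N : ℕ, π ^ N * a ∈ P.O := by
  by_cases ha0 : a = 0
  · exact ⟨0, by rw [ha0, mul_zero]; exact P.O.zero_mem⟩
  obtain ⟨n, hn, -⟩ := hF a ha ha0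
  rcases le_total 0 n with h | h
  · obtain ⟨m, rfl⟩ := Int.eq_ofNat_of_zero_le h
    refine ⟨m, ?_⟩
    rw [mul_comm, ← zpow_natCast]
    exact hn.1
  · refine ⟨0, ?_⟩
    by_cases hπ : π = 0
    · by_cases hn0 : n = 0
      · rw [hn0] at hn
        simpa using hn.1
      · rw [hπ, zero_zpow n hn0, mul_zero] at hn
        exact absurd rfl hn.ne_zero
    · obtain ⟨m, hm⟩ := Int.eq_ofNat_of_zero_le (a := -n) (by omega)
      have e : π ^ 0 * a = (a * π ^ n) * π ^ m := by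
        have : n = -(m : ℤ) := by omega
        rw [this, zpow_neg, zpow_natCast]
        field_simp
      rw [e]
      exact P.O.mul_mem _ _ hn.1 (pow_mem hπO m)

theorem evθ_C {θ : K} (a : RF P F) : evθ P F θ (Polynomial.C a) = ((a : F) : K) := by
  change eval₂ _ θ (Polynomial.C a) = _
  rw [eval₂_C]
  rfl

theorem Gd.clear (hπO : π ∈ P.O) (hF : Gd P π κ F) (hπF : π ∈ F) (θ : K) (Q : F[X]) :
    ∃ (N : ℕ) (G : (RF P F)[X]), evθ P F θ G = π ^ N * aeval θ Q := by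
  induction Q using Polynomial.induction_on' with
  | add p q hp hq =>
    obtain ⟨N, G, h⟩ := hp
    obtain ⟨M, H, h'⟩ := hq
    refine ⟨N + M, Polynomial.C ⟨⟨π, hπF⟩, hπO⟩ ^ M * G + Polynomial.C ⟨⟨π, hπF⟩, hπO⟩ ^ N * H, ?_⟩
    rw [map_add, map_mul, map_mul, map_pow, map_pow, evθ_C, h, h', map_add]
    change π ^ M * _ + π ^ N * _ = _
    ring
  | monomial n a =>
    obtain ⟨N, hN⟩ := hF.clear_one hπO hπF a.2
    refine ⟨N, monomial n ⟨⟨π ^ N * a, F.mul_mem (pow_mem hπF N) a.2⟩, hN⟩, ?_⟩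
    have h1 : evθ P F θ (monomial n ⟨⟨π ^ N * a, F.mul_mem (pow_mem hπF N) a.2⟩, hN⟩) =
        (π ^ N * a) * θ ^ n := by
      change eval₂ _ θ (monomial n _) = _
      rw [eval₂_monomial]
      rfl
    rw [h1, aeval_monomial]
    change _ = π ^ N * ((a : K) * θ ^ n)
    ring

/-- **Unramified lemma.** -/
theorem Gd.adjoin (hπ : π ≠ 0) (hπO : π ∈ P.O) (hπ0 : P.ev π = 0) (hπF : π ∈ F)
    (hF : Gd P π κ F) {θ : K} (hθ : θ ∈ P.O) (hθκ : P.ev θ ∈ κ)
    (Φ : F[X]) (hmon : Φ.Monic) (hcoef : ∀ i, ((Φ.coeff i : F) : K) ∈ P.O)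
    (hroot : aeval θ Φ = 0) (hder : P.U (aeval θ (derivative Φ))) :
    Gd P π κ (Subfield.closure (F ∪ {θ})) := by
  classical
  -- lift `Φ` to the valuation ring
  have hlift : Φ ∈ Polynomial.lifts (RF P F).subtype := by
    rw [Polynomial.lifts_iff_coeff_lifts]
    intro n
    exact ⟨⟨Φ.coeff n, hcoef n⟩, rfl⟩
  obtain ⟨Ψ, hΨ, -, hΨmon⟩ := Polynomial.lifts_and_degree_eq_and_monic hlift hmon
  have hev : ∀ G : (RF P F)[X], evθ P F θ G = aeval θ (G.map (RF P F).subtype) := by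
    intro G
    rw [aeval_def, eval₂_map]
    rfl
  have hevΨ : evθ P F θ Ψ = 0 := by rw [hev, hΨ, hroot]
  have hevΨ' : evθ P F θ (derivative Ψ) = aeval θ (derivative Φ) := by
    rw [hev, ← derivative_map, hΨ]
  have hΨ0 : (Ψ.map (evF P F)).eval (P.ev θ) = 0 := by
    rw [← ev_evθ hθ, hevΨ, P.ev_zero]
  obtain ⟨g, hgmon, hg0, hgmin⟩ := exists_min_poly (P.ev θ) Ψ hΨmon hΨ0
  set πR : RF P F := ⟨⟨π, hπF⟩, hπO⟩ with hπR
  have hEπ : evθ P F θ (Polynomial.C πR) = π := evθ_C _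
  have hevg : P.ev (evθ P F θ g) = 0 := by rw [ev_evθ hθ, hg0]
  have hdiv : ∀ G : (RF P F)[X], P.ev (evθ P F θ G) = 0 →
      ∃ s s' : (RF P F)[X], G = g * s + Polynomial.C πR * s' := by
    intro G hG
    have h1 := modByMonic_add_div G g
    have h2 : ((G %ₘ g).map (evF P F)).eval (P.ev θ) = 0 := by
      have h3 : G %ₘ g = G - g * (G /ₘ g) := by rw [eq_sub_iff_add_eq]; exact h1
      rw [h3, Polynomial.map_sub, Polynomial.map_mul, eval_sub, eval_mul, hg0, zero_mul, sub_zero,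
        ← ev_evθ hθ, hG]
    have h4 := hgmin _ (degree_modByMonic_lt G hgmon) h2
    obtain ⟨s', hs'⟩ := exists_pi_mul hπ hπO hπ0 hπF hF _ h4
    exact ⟨G /ₘ g, s', by rw [← hs', add_comm]; exact h1.symm⟩
  obtain ⟨h, e, hhe⟩ := hdiv Ψ (by rw [hevΨ, P.ev_zero])
  have hhO := evθ_mem (P := P) (F := F) hθ h
  have hh : P.ev (evθ P F θ h) ≠ 0 := by
    intro hh0
    apply hder.2
    have h1 : derivative Ψ = derivative g * h + g * derivative h +
        Polynomial.C πR * derivative e := by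
      rw [hhe]
      simp only [derivative_add, derivative_mul, derivative_C, zero_mul, zero_add]
    rw [← hevΨ', h1, map_add, map_add, map_mul, map_mul, map_mul, hEπ,
      P.ev_add (P.O.add_mem _ _ (P.O.mul_mem _ _ (evθ_mem hθ _) hhO)
        (P.O.mul_mem _ _ (evθ_mem hθ _) (evθ_mem hθ _))) (P.O.mul_mem _ _ hπO (evθ_mem hθ _)),
      P.ev_add (P.O.mul_mem _ _ (evθ_mem hθ _) hhO) (P.O.mul_mem _ _ (evθ_mem hθ _) (evθ_mem hθ _)),
      P.ev_mul (evθ_mem hθ _) hhO, P.ev_mul (evθ_mem hθ _) (evθ_mem hθ _),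
      P.ev_mul hπO (evθ_mem hθ _), hh0, hevg, hπ0]
    simp
  have hhU : P.U (evθ P F θ h) := ⟨hhO, hh⟩
  have hgh : evθ P F θ g * evθ P F θ h = - (π * evθ P F θ e) := by
    have h1 := hevΨ
    rw [hhe, map_add, map_mul, map_mul, hEπ] at h1
    linear_combination h1
  -- Step A
  have stepA : ∀ G : (RF P F)[X], P.ev (evθ P F θ G) = 0 →
      ∃ G₁ : (RF P F)[X], evθ P F θ G * evθ P F θ h = π * evθ P F θ G₁ := by
    intro G hG
    obtain ⟨s, s', rfl⟩ := hdiv G hG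
    refine ⟨s' * h - e * s, ?_⟩
    rw [map_add, map_mul, map_mul, map_sub, map_mul, map_mul, hEπ]
    linear_combination (evθ P F θ s) * hgh
  -- `θ` is integral
  have hint : IsIntegral F θ := ⟨Φ, hmon, hroot⟩
  -- Step B
  have stepB : ∀ G : (RF P F)[X], evθ P F θ G ≠ 0 →
      ∃ (n : ℕ) (G' : (RF P F)[X]), P.ev (evθ P F θ G') ≠ 0 ∧
        evθ P F θ G * evθ P F θ h ^ n = π ^ n * evθ P F θ G' := by
    intro G hG
    by_contra hcon
    push Not at hcon
    have hall : ∀ n : ℕ, ∃ G' : (RF P F)[X],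
        evθ P F θ G * evθ P F θ h ^ n = π ^ n * evθ P F θ G' := by
      intro n
      induction n with
      | zero => exact ⟨G, by simp⟩
      | succ n ih =>
        obtain ⟨G', hG'⟩ := ih
        have h0 : P.ev (evθ P F θ G') = 0 := by
          by_contra hne
          exact hcon n G' hne hG'
        obtain ⟨G₁, hG₁⟩ := stepA G' h0
        refine ⟨G₁, ?_⟩
        rw [pow_succ, pow_succ]
        linear_combination (evθ P F θ h) * hG' + π ^ n * hG₁
    -- inverse of `y`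
    have hmem : (evθ P F θ G)⁻¹ ∈ Subfield.closure ((F : Set K) ∪ {θ}) := by
      apply Subfield.inv_mem
      rw [hev, aeval_eq_sum_range]
      refine Subfield.sum_mem _ (fun i _ => ?_)
      rw [Algebra.smul_def]
      refine Subfield.mul_mem _ ?_ (pow_mem ?_ i)
      · exact Subfield.subset_closure (Or.inl (SetLike.coe_mem _))
      · exact Subfield.subset_closure (Or.inr rfl)
    obtain ⟨Q, hQ⟩ := exists_aeval_of_mem_closure hint hmem
    obtain ⟨N, G', hG'⟩ := hF.clear hπO hπF θ Q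
    rw [hQ] at hG'
    obtain ⟨G'', hG''⟩ := hall (N + 1)
    have key : evθ P F θ h ^ (N + 1) = π * (evθ P F θ G'' * evθ P F θ G') := by
      have hπN : π ^ N ≠ 0 := pow_ne_zero N hπ
      have e1 : evθ P F θ G * evθ P F θ G' = π ^ N := by
        rw [hG']; field_simp
      have e2 : π ^ N * evθ P F θ h ^ (N + 1) = π ^ N * (π * (evθ P F θ G'' * evθ P F θ G')) := by
        rw [← e1]
        linear_combination (evθ P F θ G') * hG'' - (π * evθ P F θ G'' * evθ P F θ G') * e1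
      exact mul_left_cancel₀ hπN e2
    have h1 := (hhU.pow (N + 1)).2
    rw [key, P.ev_mul hπO (P.O.mul_mem _ _ (evθ_mem hθ _) (evθ_mem hθ _)), hπ0, zero_mul] at h1
    exact h1 rfl
  -- residues
  have hκ : ∀ G : (RF P F)[X], P.ev (evθ P F θ G) ∈ κ := by
    intro G
    rw [ev_evθ hθ]
    refine eval_mem_subfield κ _ (fun i => ?_) hθκ
    rw [coeff_map, evF_apply]
    exact hF.ev_mem hπ hπO hπ0 (G.coeff i : F).2 (mem_RF.1 (G.coeff i).2)
  intro z hz hz0
  obtain ⟨Q, rfl⟩ := exists_aeval_of_mem_closure hint hz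
  obtain ⟨N, G, hG⟩ := hF.clear hπO hπF θ Q
  have hG0 : evθ P F θ G ≠ 0 := by
    rw [hG]; exact mul_ne_zero (pow_ne_zero N hπ) hz0
  obtain ⟨n, G', hG'0, hG'⟩ := stepB G hG0
  have hU : P.U (evθ P F θ G') := ⟨evθ_mem hθ _, hG'0⟩
  have e1 : aeval θ Q * π ^ ((N : ℤ) - n) = evθ P F θ G' / evθ P F θ h ^ n := by
    have hn : π ^ n ≠ 0 := pow_ne_zero n hπ
    have hhn : evθ P F θ h ^ n ≠ 0 := (hhU.pow n).ne_zero
    rw [zpow_sub₀ hπ, zpow_natCast, zpow_natCast]
    rw [hG] at hG'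
    field_simp
    linear_combination hG'
  refine ⟨(N : ℤ) - n, ?_, ?_⟩
  · rw [e1]; exact hU.div (hhU.pow n)
  · rw [e1, P.ev_div hU.1 (hhU.pow n), P.ev_pow hhO]
    exact κ.div_mem (hκ _) (pow_mem (hκ _) n)

end unr

end Vale.Agent.P019
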