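import Vale.Agent.P019.Local
import Vale.Agent.P019.PlUnr
import Vale.Agent.P019.Kummer
import Vale.Agent.P019.FK

/-!
# Subfields, relative algebraic closures, constants, models
-/

namespace Vale.Agent.P019

set_option linter.style.haveILetI false

open Polynomial

section rac

variable {K : Type*} [Field K]

/-- relative algebraic closure of a subfield in the ambient field. -/
def rac (E : Subfield K) : Subfield K := (algebraicClosure E K).toSubfield

theorem mem_rac {E : Subfield K} {z : K} : z ∈ rac E ↔ IsAlgebraic E z := by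
  change z ∈ algebraicClosure E K ↔ _
  exact mem_algebraicClosure_iff

/-- the subfield `E(t)`. -/
def adj (E : Subfield K) (t : K) : Subfield K := E ⊔ Subfield.closure {t}

theorem le_adj (E : Subfield K) (t : K) : E ≤ adj E t := le_sup_left

theorem mem_adj (E : Subfield K) (t : K) : t ∈ adj E t :=
  (le_sup_right : Subfield.closure {t} ≤ adj E t) (Subfield.subset_closure rfl)

theorem adj_le {E F : Subfield K} {t : K} (h : E ≤ F) (ht : t ∈ F) : adj E t ≤ F :=
  sup_le h (Subfield.closure_le.2 (by rintro _ rfl; exact ht))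

theorem adj_mono {E F : Subfield K} (h : E ≤ F) (t : K) : adj E t ≤ adj F t :=
  adj_le (h.trans (le_adj F t)) (mem_adj F t)

theorem isAlgebraic_mono {E F : Subfield K} (h : E ≤ F) {z : K} (hz : IsAlgebraic E z) :
    IsAlgebraic F z := by
  obtain ⟨Q, hQ0, hQ⟩ := hz
  refine ⟨Q.map (Subfield.inclusion h), ?_, ?_⟩
  · rw [Ne, Polynomial.map_eq_zero_iff (RingHom.injective _)]; exact hQ0
  · rw [aeval_def, eval₂_map]; exact hQ

theorem rac_mono {E F : Subfield K} (h : E ≤ F) : rac E ≤ rac F := fun _ hz =>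
  mem_rac.2 (isAlgebraic_mono h (mem_rac.1 hz))

theorem isAlgebraic_of_mem {E : Subfield K} {z : K} (hz : z ∈ E) : IsAlgebraic E z :=
  isAlgebraic_algebraMap (⟨z, hz⟩ : E)

theorem le_rac (E : Subfield K) : E ≤ rac E := fun _ hz => mem_rac.2 (isAlgebraic_of_mem hz)

/-- `E` is relatively algebraically closed in the ambient field. -/
def RAC (E : Subfield K) : Prop := ∀ z, IsAlgebraic E z → z ∈ E

theorem RAC.le {E F : Subfield K} (hF : RAC F) (h : E ≤ F) : rac E ≤ F := fun _ hz =>
  hF _ (isAlgebraic_mono h (mem_rac.1 hz))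

/-- transitivity of algebraicity. -/
theorem isAlgebraic_trans {E F : Subfield K} (h : E ≤ F) (hF : ∀ z ∈ F, IsAlgebraic E z) {z : K}
    (hz : IsAlgebraic F z) : IsAlgebraic E z := by
  letI : Algebra E F := (Subfield.inclusion h).toAlgebra
  haveI : IsScalarTower E F K := IsScalarTower.of_algebraMap_eq (fun _ => rfl)
  haveI : Algebra.IsAlgebraic E F := ⟨fun x => by
    have h1 := hF x.1 x.2
    rw [← isAlgebraic_algebraMap_iff (R := E) (A := K) (algebraMap F K).injective]
    exact h1⟩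
  exact hz.restrictScalars E

theorem isAlgebraic_rac {E : Subfield K} {z : K} (hz : IsAlgebraic (rac E) z) :
    IsAlgebraic E z :=
  isAlgebraic_trans (le_rac E) (fun _ h => mem_rac.1 h) hz

theorem RAC_rac (E : Subfield K) : RAC (rac E) := fun _ hz => mem_rac.2 (isAlgebraic_rac hz)

/-- algebraically closed fields are relatively algebraically closed. -/
theorem RAC_of_isAlgClosed (E : Subfield K) (hE : IsAlgClosed E) : RAC E := by
  intro z hz
  have h1 : IsIntegral E z := hz.isIntegral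
  obtain ⟨c, hc⟩ := IsAlgClosed.exists_root (minpoly E z)
    (fun h => (minpoly.degree_pos h1).ne' h)
  have h2 : minpoly E z = X - C c := by
    have h3 := minpoly.irreducible h1
    have h4 : (X - C c) ∣ minpoly E z := dvd_iff_isRoot.2 hc
    exact eq_of_monic_of_dvd_of_natDegree_le (monic_X_sub_C c) (minpoly.monic h1) h4 (by
      rw [natDegree_X_sub_C]
      have h6 := degree_eq_one_of_irreducible_of_root h3 hc
      exact (natDegree_eq_of_degree_eq_some h6).le)
  have h3 := minpoly.aeval E z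
  rw [h2, map_sub, aeval_X, aeval_C, sub_eq_zero] at h3
  rw [h3]
  exact c.2

/-- a relatively algebraically closed subfield of an algebraically closed subfield. -/
theorem isAlgClosed_of_RAC {E k : Subfield K} (hk : IsAlgClosed k) (hE : RAC E) (h : E ≤ k) :
    IsAlgClosed E := by
  apply IsAlgClosed.of_exists_root
  intro p hp hirr
  obtain ⟨c, hc⟩ := IsAlgClosed.exists_root (p.map (Subfield.inclusion h)) (by
    rw [degree_map]
    exact (degree_pos_of_irreducible hirr).ne')
  have h1 : aeval (c : K) p = 0 := by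
    have h2 := congrArg (algebraMap k K) (hc : eval c _ = 0)
    rw [eval_map, map_zero] at h2
    rw [← h2, aeval_def, hom_eval₂]
    rfl
  have h2 : (c : K) ∈ E := hE _ ⟨p, hirr.ne_zero, h1⟩
  refine ⟨⟨c, h2⟩, ?_⟩
  apply (algebraMap E K).injective
  rw [map_zero, ← h1]
  change _ = aeval (algebraMap E K ⟨c, h2⟩) p
  rw [aeval_algebraMap_apply, coe_aeval_eq_eval]

end rac

section VS

variable (ℓ : ℕ) {K : Type*} [Field K]

/-- the subspace of `V` given by the classes of the elements of a subfield. -/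
noncomputable def VS (E : Subfield K) : Submodule (ZMod ℓ) (V ℓ K) :=
  AddSubgroup.toZModSubmodule ℓ
  { carrier := {v | ∃ x ∈ E, x ≠ 0 ∧ v = cl ℓ x}
    zero_mem' := ⟨1, E.one_mem, one_ne_zero, (cl_one ℓ).symm⟩
    add_mem' := by
      rintro _ _ ⟨x, hx, hx0, rfl⟩ ⟨y, hy, hy0, rfl⟩
      exact ⟨x * y, E.mul_mem hx hy, mul_ne_zero hx0 hy0, (cl_mul ℓ hx0 hy0).symm⟩
    neg_mem' := by
      rintro _ ⟨x, hx, hx0, rfl⟩
      exact ⟨x⁻¹, E.inv_mem hx, inv_ne_zero hx0, (cl_inv ℓ x).symm⟩ }

variable {ℓ}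

theorem mem_VS {E : Subfield K} {v : V ℓ K} :
    v ∈ VS ℓ E ↔ ∃ x ∈ E, x ≠ 0 ∧ v = cl ℓ x := Iff.rfl

theorem cl_mem_VS {E : Subfield K} {x : K} (hx : x ∈ E) : cl ℓ x ∈ VS ℓ E := by
  by_cases h : x = 0
  · rw [h, cl_zero]; exact Submodule.zero_mem _
  · exact ⟨x, hx, h, rfl⟩

theorem VS_mono {E F : Subfield K} (h : E ≤ F) : VS ℓ E ≤ VS ℓ F := by
  rintro _ ⟨x, hx, _, rfl⟩
  exact cl_mem_VS (h hx)

theorem cl_ne_zero_mem_VS {E : Subfield K} {x : K} (hx : x ≠ 0) :
    cl ℓ x ∈ VS ℓ E ↔ ∃ e ∈ E, e ≠ 0 ∧ ∃ w : K, w ≠ 0 ∧ x = e * w ^ ℓ := by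
  constructor
  · rintro ⟨e, he, he0, h⟩
    obtain ⟨w, hw, h'⟩ := (cl_eq_iff ℓ hx he0).1 h
    exact ⟨e, he, he0, w, hw, h'⟩
  · rintro ⟨e, he, he0, w, hw, h'⟩
    exact ⟨e, he, he0, (cl_eq_iff ℓ hx he0).2 ⟨w, hw, h'⟩⟩

end VS

section FG

variable {K : Type*} [Field K]

/-- `Λ` is a finitely generated field extension of `E`. -/
def FG (E Λ : Subfield K) : Prop := ∃ S : Finset K, Λ = E ⊔ Subfield.closure (S : Set K)

/-- `t` is a non-constant with `k(t)` relatively algebraically closed. -/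
def Good (k : Subfield K) (t : K) : Prop := t ∉ k ∧ RAC (adj k t)

end FG

/-- A model of a function field of transcendence degree at least two over an algebraically closed
field of constants. -/
structure Mdl (K : Type*) [Field K] where
  k : Subfield K
  k0 : Subfield K
  K0 : Subfield K
  le_k : k0 ≤ k
  le_K0 : k0 ≤ K0
  ack : IsAlgClosed k
  ack0 : IsAlgClosed k0
  sup : K0 ⊔ k = ⊤
  ctb : (K0 : Set K).Countable
  fg : FG k0 K0
  free : ∀ N : Subfield K, RAC N → k0 ≤ N → N ≤ k →
    ∀ a ∈ k, IsAlgebraic (K0 ⊔ N : Subfield K) a → a ∈ N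
  x : K
  y : K
  hx : x ∈ K0
  hy : y ∈ K0
  hxk : x ∉ k
  hyx : ¬ IsAlgebraic (adj k x) y

namespace Mdl

variable {K : Type*} [Field K] (M : Mdl K)

/-- the function field over smaller constants. -/
def F (N : Subfield K) : Subfield K := M.K0 ⊔ N

/-- algebraically closed subfields of the constants. -/
structure Sub (N : Subfield K) : Prop where
  rac : RAC N
  ge : M.k0 ≤ N
  le : N ≤ M.k

variable {M}

theorem Sub.isAlgClosed {N : Subfield K} (h : M.Sub N) : IsAlgClosed N :=
  isAlgClosed_of_RAC M.ack h.rac h.le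

theorem Sub.le_F (N : Subfield K) : N ≤ M.F N := le_sup_right

theorem K0_le (N : Subfield K) : M.K0 ≤ M.F N := le_sup_left

theorem F_mono {N N' : Subfield K} (h : N ≤ N') : M.F N ≤ M.F N' := sup_le_sup_left h _

theorem RAC_k (M : Mdl K) : RAC M.k := RAC_of_isAlgClosed _ M.ack

theorem sub_k (M : Mdl K) : M.Sub M.k := ⟨M.RAC_k, M.le_k, le_rfl⟩

theorem F_k (M : Mdl K) : M.F M.k = ⊤ := M.sup

theorem sub_rac {N : Subfield K} (h0 : M.k0 ≤ N) (h : N ≤ M.k) : M.Sub (rac N) :=
  ⟨RAC_rac N, h0.trans (le_rac N), M.RAC_k.le h⟩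

end Mdl

end Vale.Agent.P019
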