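import Vale.Agent.P019.Prime
import Vale.Agent.P019.Fld

/-!
# The tame symbol on a subfield
-/

namespace Vale.Agent.P019

set_option linter.style.haveILetI false

/-- R5. tame symbol at a place which is discrete on the subfield `E`. -/
theorem tame_sub {K Ω : Type*} [Field K] [Field Ω] (P : Pl K Ω) {E : Subfield K} {π : K}
    {κ : Subfield Ω} (hπE : π ∈ E) (hπ : π ≠ 0) (hπO : π ∈ P.O) (hπ0 : P.ev π = 0)
    (hGd : Gd P π κ E) (ℓ : ℕ) [Fact ℓ.Prime] (hneg : ∃ i ∈ E, i ^ ℓ = -1) {x G : K} (hx : x ∈ E)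
    (hxU : P.U x) (hG : G ∈ E) (hG0 : G ≠ 0) (hGn : ∀ n : ℤ, P.U (G * π ^ n) → ¬ (ℓ : ℤ) ∣ n)
    (h : Orth (cl ℓ (⟨x, hx⟩ : E)) (cl ℓ (⟨G, hG⟩ : E))) : ∃ r ∈ κ, r ^ ℓ = P.ev x := by
  have hℓ : ℓ ≠ 0 := (Fact.out : ℓ.Prime).ne_zero
  let O' : ValuationSubring E := P.O.comap (algebraMap E K)
  have hmem : ∀ z : E, O'.valuation z ≤ 1 ↔ P.O.valuation (z : K) ≤ 1 := by
    intro z
    rw [ValuationSubring.valuation_le_one_iff, ValuationSubring.valuation_le_one_iff]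
    exact Iff.rfl
  have hone : ∀ z : E, O'.valuation z = 1 ↔ P.O.valuation (z : K) = 1 := by
    intro z
    constructor
    · intro hz
      have h1 := (hmem z).1 hz.le
      have h2 := (hmem z⁻¹).1 (by rw [map_inv₀, hz, inv_one])
      have hz0 : (z : K) ≠ 0 := by
        intro h0
        have : z = 0 := Subtype.ext h0
        rw [this, map_zero] at hz
        exact zero_ne_one hz
      have e1 : ((z⁻¹ : E) : K) = (z : K)⁻¹ := rfl
      rw [e1, map_inv₀, inv_le_one₀ (by rw [Valuation.pos_iff]; exact hz0)] at h2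
      exact le_antisymm h1 h2
    · intro hz
      have h1 := (hmem z).2 hz.le
      have h2 := (hmem z⁻¹).2 (by
        have e1 : ((z⁻¹ : E) : K) = (z : K)⁻¹ := rfl
        rw [e1, map_inv₀, hz, inv_one])
      have hz0 : z ≠ 0 := by
        rintro rfl
        have e0 : ((0 : E) : K) = 0 := rfl
        rw [e0, map_zero] at hz
        exact zero_ne_one hz
      rw [map_inv₀, inv_le_one₀ (by rw [Valuation.pos_iff]; exact hz0)] at h2
      exact le_antisymm h1 h2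
  have hlt : ∀ z : E, O'.valuation z < 1 ↔ P.O.valuation (z : K) < 1 := by
    intro z
    rw [lt_iff_le_and_ne, lt_iff_le_and_ne, hmem, Ne, Ne, hone]
  have hU : IsUnif O' (⟨π, hπE⟩ : E) := by
    refine ⟨?_, ?_, ?_⟩
    · intro h0
      exact hπ (congrArg Subtype.val h0)
    · exact (hlt _).2 ((P.ev_eq_zero_iff hπO).1 hπ0)
    · intro z hz0
      have hz0' : (z : K) ≠ 0 := fun h0 => hz0 (Subtype.ext h0)
      obtain ⟨n, hn, -⟩ := hGd z z.2 hz0'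
      refine ⟨n, (hone _).2 ?_⟩
      have e1 : ((z * (⟨π, hπE⟩ : E) ^ n : E) : K) = (z : K) * π ^ n := rfl
      rw [e1]
      exact P.U_iff.1 hn
  have hneg' : ∃ i : E, i ^ ℓ = -1 := by
    obtain ⟨i, hi, hi'⟩ := hneg
    exact ⟨⟨i, hi⟩, Subtype.ext hi'⟩
  have hxE0 : (⟨x, hx⟩ : E) ≠ 0 := fun h0 => hxU.ne_zero (congrArg Subtype.val h0)
  have hGE0 : (⟨G, hG⟩ : E) ≠ 0 := fun h0 => hG0 (congrArg Subtype.val h0)
  have h1 := tame_orth hneg' O' (hU.fn ℓ) (hU.fn_unit ℓ) h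
  rw [hU.fn_unit ℓ (⟨x, hx⟩ : E) ((hone _).2 (P.U_iff.1 hxU)), zero_smul, sub_zero] at h1
  have hc : hU.fn ℓ (cl ℓ (⟨G, hG⟩ : E)) ≠ 0 := by
    rw [hU.fn_cl ℓ hGE0]
    intro h0
    rw [ZMod.intCast_zmod_eq_zero_iff_dvd] at h0
    refine hGn (-(hU.ord (⟨G, hG⟩ : E))) ?_ ((dvd_neg).2 h0)
    rw [P.U_iff]
    exact (hone _).1 (hU.ord_spec hGE0)
  rw [Submodule.smul_mem_iff _ hc] at h1
  obtain ⟨m, hm, hxm⟩ := h1
  obtain ⟨y, hy0, hy⟩ := (cl_eq_iff ℓ hxE0 (one_add_ne_zero hm)).1 hxm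
  have hm' : P.O.valuation (m : K) < 1 := (hlt m).1 hm
  have hyK : x = (1 + (m : K)) * (y : K) ^ ℓ := congrArg Subtype.val hy
  have hmU : P.U (1 + (m : K)) := P.U_iff.2 (val_one_add hm')
  have hyl : P.U ((y : K) ^ ℓ) := by
    have h2 : (y : K) ^ ℓ = x / (1 + (m : K)) := by
      rw [hyK]
      have := hmU.ne_zero
      field_simp
    rw [h2]
    exact hxU.div hmU
  have hyU : P.U (y : K) := by
    rw [P.U_iff] at hyl ⊢
    rw [map_pow] at hyl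
    exact (pow_eq_one_iff.1 hyl).resolve_right hℓ
  refine ⟨P.ev (y : K), Gd.ev_mem hπ hπO hπ0 hGd y.2 hyU.1, ?_⟩
  rw [← P.ev_pow hyU.1]
  conv_rhs => rw [hyK]
  rw [P.ev_mul hmU.1 hyl.1, P.ev_add P.O.one_mem (P.mem_of_lt hm'), P.ev_one,
    P.ev_of_lt hm', add_zero, one_mul]

end Vale.Agent.P019
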