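import Vale.Agent.P019.MathlibUsed

namespace Vale.Agent.P019

open scoped TensorProduct

/-- `V_F = F^× / (F^×)^ℓ`, written additively. -/
def V (ℓ : ℕ) (F : Type*) [Field F] : Type _ :=
  Additive (Fˣ ⧸ (powMonoidHom ℓ : Fˣ →* Fˣ).range)

noncomputable instance (ℓ : ℕ) (F : Type*) [Field F] : AddCommGroup (V ℓ F) :=
  Additive.addCommGroup (α := Fˣ ⧸ (powMonoidHom ℓ : Fˣ →* Fˣ).range)

/-- The class `[x]` in `V_F` of a unit `x` of `F`. -/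
def V.mk (ℓ : ℕ) {F : Type*} [Field F] (x : Fˣ) : V ℓ F :=
  Additive.ofMul (QuotientGroup.mk x)

noncomputable instance (ℓ : ℕ) (F : Type*) [Field F] : Module (ZMod ℓ) (V ℓ F) :=
  AddCommGroup.zmodModule (n := ℓ) (G := V ℓ F) (by
    intro x
    obtain ⟨y, rfl⟩ := Additive.ofMul.surjective x
    obtain ⟨z, rfl⟩ := QuotientGroup.mk_surjective y
    change Additive.ofMul ((QuotientGroup.mk z : Fˣ ⧸ (powMonoidHom ℓ : Fˣ →* Fˣ).range) ^ ℓ) = 0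
    rw [← QuotientGroup.mk_pow, ofMul_eq_zero, QuotientGroup.eq_one_iff]
    exact ⟨z, rfl⟩)

/-- The span `R_F` in `V_F ⊗ V_F` of all `[x] ⊗ [1 - x]`, `x ≠ 0, 1`. -/
noncomputable def R (ℓ : ℕ) (F : Type*) [Field F] :
    Submodule (ZMod ℓ) (V ℓ F ⊗[ZMod ℓ] V ℓ F) :=
  Submodule.span (ZMod ℓ)
    {t | ∃ x y : Fˣ, (x : F) + (y : F) = 1 ∧ t = V.mk ℓ x ⊗ₜ[ZMod ℓ] V.mk ℓ y}

/-- A linear isomorphism `Θ : V_K → V_L` is compatible if `(Θ ⊗ Θ)(R_K) = R_L`. -/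
def Compatible {ℓ : ℕ} {K L : Type*} [Field K] [Field L]
    (Θ : V ℓ K ≃ₗ[ZMod ℓ] V ℓ L) : Prop :=
  (R ℓ K).map (TensorProduct.map Θ.toLinearMap Θ.toLinearMap) = R ℓ L

end Vale.Agent.P019
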