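import Mathlib
import Vale.Agent.P019.Defs

namespace Vale.Agent.P019

open scoped TensorProduct

section cl

variable (ℓ : ℕ) {F : Type*} [Field F]

/-- class map extended by `0` at `0`. -/
noncomputable def cl (z : F) : V ℓ F := by
  classical exact if h : z = 0 then 0 else V.mk ℓ (Units.mk0 z h)

theorem cl_zero : cl ℓ (0 : F) = 0 := by simp [cl]

theorem cl_of_ne {z : F} (h : z ≠ 0) : cl ℓ z = V.mk ℓ (Units.mk0 z h) := by simp [cl, h]

theorem cl_unit (x : Fˣ) : cl ℓ (x : F) = V.mk ℓ x := by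
  rw [cl_of_ne ℓ x.ne_zero]; simp

theorem mk_mul (x y : Fˣ) : V.mk ℓ (x * y) = V.mk ℓ x + V.mk ℓ y := rfl

theorem mk_one : V.mk ℓ (1 : Fˣ) = 0 := rfl

theorem mk_inv (x : Fˣ) : V.mk ℓ x⁻¹ = - V.mk ℓ x := rfl

theorem mk_surj (v : V ℓ F) : ∃ x : Fˣ, V.mk ℓ x = v := by
  obtain ⟨y, rfl⟩ := Additive.ofMul.surjective v
  obtain ⟨z, rfl⟩ := QuotientGroup.mk_surjective y
  exact ⟨z, rfl⟩

theorem mk_eq_zero_iff (x : Fˣ) : V.mk ℓ x = 0 ↔ ∃ y : Fˣ, y ^ ℓ = x := by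
  change Additive.ofMul (QuotientGroup.mk x : Fˣ ⧸ (powMonoidHom ℓ : Fˣ →* Fˣ).range) = 0 ↔ _
  rw [ofMul_eq_zero, QuotientGroup.eq_one_iff]
  rfl

theorem cl_one : cl ℓ (1 : F) = 0 := by
  rw [cl_of_ne ℓ one_ne_zero]; simp [mk_one]

theorem cl_mul {x y : F} (hx : x ≠ 0) (hy : y ≠ 0) : cl ℓ (x * y) = cl ℓ x + cl ℓ y := by
  rw [cl_of_ne ℓ hx, cl_of_ne ℓ hy, cl_of_ne ℓ (mul_ne_zero hx hy), ← mk_mul]
  congr 1
  ext; simp

theorem cl_inv (x : F) : cl ℓ x⁻¹ = - cl ℓ x := by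
  by_cases hx : x = 0
  · simp [hx, cl_zero]
  · rw [cl_of_ne ℓ hx, cl_of_ne ℓ (inv_ne_zero hx), ← mk_inv]
    congr 1
    ext; simp

theorem cl_div {x y : F} (hx : x ≠ 0) (hy : y ≠ 0) : cl ℓ (x / y) = cl ℓ x - cl ℓ y := by
  rw [div_eq_mul_inv, cl_mul ℓ hx (inv_ne_zero hy), cl_inv, sub_eq_add_neg]

theorem cl_pow (x : F) (n : ℕ) : cl ℓ (x ^ n) = n • cl ℓ x := by
  by_cases hx : x = 0
  · subst hx
    rcases Nat.eq_zero_or_pos n with h | h
    · subst h; simp [cl_one]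
    · rw [zero_pow h.ne', cl_zero]; simp
  · induction n with
    | zero => simp [cl_one]
    | succ n ih => rw [pow_succ, cl_mul ℓ (pow_ne_zero _ hx) hx, ih, succ_nsmul]

theorem cl_zpow (x : F) (n : ℤ) : cl ℓ (x ^ n) = n • cl ℓ x := by
  cases n with
  | ofNat n => simpa using cl_pow ℓ x n
  | negSucc n =>
    rw [zpow_negSucc, cl_inv, cl_pow, negSucc_zsmul]

theorem cl_surj (v : V ℓ F) : ∃ z : F, z ≠ 0 ∧ cl ℓ z = v := by
  obtain ⟨x, rfl⟩ := mk_surj ℓ v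
  exact ⟨x, x.ne_zero, cl_unit ℓ x⟩

theorem cl_eq_zero_iff {z : F} (hz : z ≠ 0) : cl ℓ z = 0 ↔ ∃ w : F, w ≠ 0 ∧ w ^ ℓ = z := by
  rw [cl_of_ne ℓ hz, mk_eq_zero_iff]
  constructor
  · rintro ⟨y, hy⟩
    refine ⟨y, y.ne_zero, ?_⟩
    have := congrArg (fun u : Fˣ => (u : F)) hy
    simpa using this
  · rintro ⟨w, hw, h⟩
    refine ⟨Units.mk0 w hw, ?_⟩
    ext; simpa using h

theorem cl_pow_self (x : F) : cl ℓ (x ^ ℓ) = 0 := by
  by_cases hx : x = 0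
  · subst hx
    rcases Nat.eq_zero_or_pos ℓ with h | h
    · subst h; simp [cl_one]
    · rw [zero_pow h.ne', cl_zero]
  · rw [cl_eq_zero_iff ℓ (pow_ne_zero _ hx)]
    exact ⟨x, hx, rfl⟩

theorem cl_eq_iff {x y : F} (hx : x ≠ 0) (hy : y ≠ 0) :
    cl ℓ x = cl ℓ y ↔ ∃ w : F, w ≠ 0 ∧ x = y * w ^ ℓ := by
  rw [← sub_eq_zero, ← cl_div ℓ hx hy, cl_eq_zero_iff ℓ (div_ne_zero hx hy)]
  constructor
  · rintro ⟨w, hw, h⟩
    exact ⟨w, hw, by rw [h]; field_simp⟩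
  · rintro ⟨w, hw, h⟩
    exact ⟨w, hw, by rw [h]; field_simp⟩

theorem cl_neg (h : ∃ i : F, i ^ ℓ = -1) (x : F) : cl ℓ (-x) = cl ℓ x := by
  by_cases hx : x = 0
  · simp [hx]
  · obtain ⟨i, hi⟩ := h
    have hi0 : (-1 : F) ≠ 0 := by simp
    have : (-x) = (-1) * x := by ring
    rw [this, cl_mul ℓ hi0 hx, ← hi, cl_pow_self, zero_add]

end cl

section lift

variable {ℓ : ℕ} {F : Type*} [Field F]

/-- A homomorphism `F^× → ZMod ℓ` induces a linear functional on `V`. -/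
noncomputable def V.lift (φ : Fˣ →* Multiplicative (ZMod ℓ)) : V ℓ F →ₗ[ZMod ℓ] ZMod ℓ :=
  AddMonoidHom.toZModLinearMap ℓ
    (MonoidHom.toAdditiveLeft
      (QuotientGroup.lift (powMonoidHom ℓ : Fˣ →* Fˣ).range φ (by
        rintro _ ⟨y, rfl⟩
        rw [MonoidHom.mem_ker, powMonoidHom_apply, map_pow]
        apply Multiplicative.toAdd.injective
        rw [toAdd_pow, toAdd_one, nsmul_eq_mul]
        simp)))

theorem V.lift_mk (φ : Fˣ →* Multiplicative (ZMod ℓ)) (x : Fˣ) :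
    V.lift φ (V.mk ℓ x) = (φ x).toAdd := rfl

end lift

section orth

variable {ℓ : ℕ} {K L : Type*} [Field K] [Field L]

/-- `u ⟂ w` : the product of `u` and `w` in `K_2/ℓ` vanishes. -/
def Orth (u w : V ℓ K) : Prop := u ⊗ₜ[ZMod ℓ] w ∈ R ℓ K

theorem Orth.add_left {u u' w : V ℓ K} (h : Orth u w) (h' : Orth u' w) : Orth (u + u') w := by
  unfold Orth at *
  rw [TensorProduct.add_tmul]; exact Submodule.add_mem _ h h'

theorem Orth.add_right {u w w' : V ℓ K} (h : Orth u w) (h' : Orth u w') : Orth u (w + w') := by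
  unfold Orth at *
  rw [TensorProduct.tmul_add]; exact Submodule.add_mem _ h h'

theorem Orth.smul_left {u w : V ℓ K} (c : ZMod ℓ) (h : Orth u w) : Orth (c • u) w := by
  unfold Orth at *
  rw [← TensorProduct.smul_tmul']; exact Submodule.smul_mem _ _ h

theorem Orth.smul_right {u w : V ℓ K} (c : ZMod ℓ) (h : Orth u w) : Orth u (c • w) := by
  unfold Orth at *
  rw [TensorProduct.tmul_smul]; exact Submodule.smul_mem _ _ h

theorem Orth.neg_left {u w : V ℓ K} (h : Orth u w) : Orth (-u) w := by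
  unfold Orth at *
  rw [TensorProduct.neg_tmul]; exact Submodule.neg_mem _ h

theorem Orth.neg_right {u w : V ℓ K} (h : Orth u w) : Orth u (-w) := by
  unfold Orth at *
  rw [TensorProduct.tmul_neg]; exact Submodule.neg_mem _ h

theorem Orth.sub_left {u u' w : V ℓ K} (h : Orth u w) (h' : Orth u' w) : Orth (u - u') w := by
  rw [sub_eq_add_neg]; exact h.add_left h'.neg_left

theorem Orth.sub_right {u w w' : V ℓ K} (h : Orth u w) (h' : Orth u w') : Orth u (w - w') := by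
  rw [sub_eq_add_neg]; exact h.add_right h'.neg_right

theorem orth_zero_left (w : V ℓ K) : Orth 0 w := by
  unfold Orth; rw [TensorProduct.zero_tmul]; exact Submodule.zero_mem _

theorem orth_zero_right (w : V ℓ K) : Orth w 0 := by
  unfold Orth; rw [TensorProduct.tmul_zero]; exact Submodule.zero_mem _

/-- Steinberg relation. -/
theorem orth_one_sub (x : K) : Orth (cl ℓ x) (cl ℓ (1 - x)) := by
  by_cases hx : x = 0
  · rw [hx, cl_zero]; exact orth_zero_left _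
  by_cases hx1 : 1 - x = 0
  · rw [hx1, cl_zero]; exact orth_zero_right _
  · rw [cl_of_ne ℓ hx, cl_of_ne ℓ hx1]
    exact Submodule.subset_span ⟨_, _, by simp, rfl⟩

/-- A subspace is isotropic if all its pairs are orthogonal. -/
def Isotropic (U : Submodule (ZMod ℓ) (V ℓ K)) : Prop := ∀ u ∈ U, ∀ w ∈ U, Orth u w

theorem Compatible.symm {Θ : V ℓ K ≃ₗ[ZMod ℓ] V ℓ L} (h : Compatible Θ) :
    Compatible Θ.symm := by
  unfold Compatible at *
  rw [← h, ← Submodule.map_comp, ← TensorProduct.map_comp]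
  simp

theorem Compatible.orth {Θ : V ℓ K ≃ₗ[ZMod ℓ] V ℓ L} (h : Compatible Θ) {u w : V ℓ K}
    (huw : Orth u w) : Orth (Θ u) (Θ w) := by
  unfold Compatible Orth at *
  rw [← h]
  exact ⟨u ⊗ₜ w, huw, by simp⟩

theorem Compatible.orth_iff {Θ : V ℓ K ≃ₗ[ZMod ℓ] V ℓ L} (h : Compatible Θ) {u w : V ℓ K} :
    Orth (Θ u) (Θ w) ↔ Orth u w := by
  refine ⟨fun h' => ?_, h.orth⟩
  simpa using h.symm.orth h'

theorem Compatible.isotropic {Θ : V ℓ K ≃ₗ[ZMod ℓ] V ℓ L} (h : Compatible Θ)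
    {U : Submodule (ZMod ℓ) (V ℓ K)} (hU : Isotropic U) :
    Isotropic (U.map (Θ : V ℓ K →ₗ[ZMod ℓ] V ℓ L)) := by
  rintro _ ⟨u, hu, rfl⟩ _ ⟨w, hw, rfl⟩
  exact h.orth (hU u hu w hw)

end orth

section cpair

variable {ℓ : ℕ} {K L : Type*} [Field K] [Field L]

/-- `f, g` form a C-pair. -/
def CPair (f g : V ℓ K →ₗ[ZMod ℓ] ZMod ℓ) : Prop :=
  ∀ x : K, f (cl ℓ x) * g (cl ℓ (1 - x)) = f (cl ℓ (1 - x)) * g (cl ℓ x)

/-- the alternating form `f ∧ g`. -/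
noncomputable def wedge (f g : V ℓ K →ₗ[ZMod ℓ] ZMod ℓ) :
    V ℓ K ⊗[ZMod ℓ] V ℓ K →ₗ[ZMod ℓ] ZMod ℓ :=
  TensorProduct.lift ((LinearMap.mul (ZMod ℓ) (ZMod ℓ)).compl₁₂ f g) -
  TensorProduct.lift ((LinearMap.mul (ZMod ℓ) (ZMod ℓ)).compl₁₂ g f)

theorem wedge_tmul (f g : V ℓ K →ₗ[ZMod ℓ] ZMod ℓ) (u w : V ℓ K) :
    wedge f g (u ⊗ₜ w) = f u * g w - g u * f w := by
  simp [wedge]

theorem cpair_iff (f g : V ℓ K →ₗ[ZMod ℓ] ZMod ℓ) :
    CPair f g ↔ ∀ t ∈ R ℓ K, wedge f g t = 0 := by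
  constructor
  · intro h t ht
    have : R ℓ K ≤ LinearMap.ker (wedge f g) := by
      unfold R
      rw [Submodule.span_le]
      rintro _ ⟨x, y, hxy, rfl⟩
      have hy : (y : K) = 1 - x := by rw [← hxy]; ring
      have := h (x : K)
      rw [← hy, cl_unit, cl_unit] at this
      rw [SetLike.mem_coe, LinearMap.mem_ker, wedge_tmul, this]
      ring
    exact this ht
  · intro h x
    have := h _ (orth_one_sub (ℓ := ℓ) x)
    rw [wedge_tmul, sub_eq_zero] at this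
    rw [this]; ring

/-- the common kernel of all functionals forming a C-pair with `f`. -/
def H (f : V ℓ K →ₗ[ZMod ℓ] ZMod ℓ) : Submodule (ZMod ℓ) (V ℓ K) where
  carrier := {v | ∀ g : V ℓ K →ₗ[ZMod ℓ] ZMod ℓ, CPair f g → g v = 0}
  zero_mem' := by intro g _; simp
  add_mem' := by intro a b ha hb g hg; rw [map_add, ha g hg, hb g hg, add_zero]
  smul_mem' := by intro c a ha g hg; rw [map_smul, ha g hg, smul_zero]

theorem mem_H {f : V ℓ K →ₗ[ZMod ℓ] ZMod ℓ} {v : V ℓ K} :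
    v ∈ H f ↔ ∀ g : V ℓ K →ₗ[ZMod ℓ] ZMod ℓ, CPair f g → g v = 0 := Iff.rfl

theorem CPair.self (f : V ℓ K →ₗ[ZMod ℓ] ZMod ℓ) : CPair f f := by
  intro x; ring

theorem H_le_ker (f : V ℓ K →ₗ[ZMod ℓ] ZMod ℓ) {v : V ℓ K} (hv : v ∈ H f) : f v = 0 :=
  hv f (CPair.self f)

theorem Compatible.cpair {Θ : V ℓ K ≃ₗ[ZMod ℓ] V ℓ L} (h : Compatible Θ)
    {f g : V ℓ L →ₗ[ZMod ℓ] ZMod ℓ} (hfg : CPair f g) :
    CPair (f ∘ₗ Θ.toLinearMap) (g ∘ₗ Θ.toLinearMap) := by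
  intro x
  have h1 := h.orth (orth_one_sub (ℓ := ℓ) x)
  have := (cpair_iff f g).1 hfg _ h1
  rw [wedge_tmul, sub_eq_zero] at this
  simp only [LinearMap.comp_apply, LinearEquiv.coe_coe]
  rw [this]; ring

theorem Compatible.mem_H {Θ : V ℓ K ≃ₗ[ZMod ℓ] V ℓ L} (h : Compatible Θ)
    {f : V ℓ L →ₗ[ZMod ℓ] ZMod ℓ} {v : V ℓ K} :
    Θ v ∈ H f ↔ v ∈ H (f ∘ₗ Θ.toLinearMap) := by
  constructor
  · intro hv g hg
    have h2 := h.symm.cpair hg
    have h3 : (f ∘ₗ Θ.toLinearMap) ∘ₗ Θ.symm.toLinearMap = f := by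
      ext; simp
    rw [h3] at h2
    have := hv _ h2
    simpa using this
  · intro hv g hg
    exact hv _ (h.cpair hg)

end cpair

end Vale.Agent.P019
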