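import Mathlib.Algebra.Algebra.Field
import Mathlib.Algebra.Algebra.Hom.Rat
import Mathlib.Algebra.Algebra.Subalgebra.Centralizer
import Mathlib.Algebra.Algebra.Subalgebra.Matrix
import Mathlib.Algebra.Algebra.Subalgebra.Order
import Mathlib.Algebra.Algebra.Subalgebra.Pi
import Mathlib.Algebra.Algebra.Subalgebra.Unitization
import Mathlib.Algebra.AlgebraicCard
import Mathlib.Algebra.BigOperators.Group.Finset.Gaps
import Mathlib.Algebra.BigOperators.Group.Finset.Interval
import Mathlib.Algebra.BigOperators.ModEq
import Mathlib.Algebra.BigOperators.Ring.Nat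
import Mathlib.Algebra.BigOperators.Sym
import Mathlib.Algebra.CharP.MixedCharZero
import Mathlib.Algebra.CubicDiscriminant
import Mathlib.Algebra.Divisibility.Finite
import Mathlib.Algebra.DualQuaternion
import Mathlib.Algebra.Exact
import Mathlib.Algebra.Expr
import Mathlib.Algebra.Field.Power
import Mathlib.Algebra.Field.Shrink
import Mathlib.Algebra.Field.ULift
import Mathlib.Algebra.GCDMonoid.FinsetLemmas
import Mathlib.Algebra.GCDMonoid.PUnit
import Mathlib.Algebra.Group.Action.Equidecomp
import Mathlib.Algebra.Group.Action.Option
import Mathlib.Algebra.Group.Action.Sigma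
import Mathlib.Algebra.Group.Action.Sum
import Mathlib.Algebra.Group.Equiv.Finite
import Mathlib.Algebra.Group.ForwardDiff
import Mathlib.Algebra.Group.Nat.TypeTags
import Mathlib.Algebra.Group.Pointwise.Finset.BigOperators
import Mathlib.Algebra.Group.Pointwise.Finset.Density
import Mathlib.Algebra.Group.Pointwise.Finset.Interval
import Mathlib.Algebra.Group.Pointwise.Set.Small
import Mathlib.Algebra.Group.Subgroup.Finsupp
import Mathlib.Algebra.Group.Submonoid.Finsupp
import Mathlib.Algebra.Group.Submonoid.Saturation
import Mathlib.Algebra.Group.Translate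
import Mathlib.Algebra.GroupWithZero.Action.ConjAct
import Mathlib.Algebra.GroupWithZero.Action.Faithful
import Mathlib.Algebra.GroupWithZero.Action.Pointwise.Finset
import Mathlib.Algebra.GroupWithZero.Int
import Mathlib.Algebra.GroupWithZero.Shrink
import Mathlib.Algebra.GroupWithZero.Submonoid.CancelMulZero
import Mathlib.Algebra.HierarchyDesign
import Mathlib.Algebra.Lie.Basis
import Mathlib.Algebra.Lie.CartanCriterion
import Mathlib.Algebra.Lie.CartanExists
import Mathlib.Algebra.Lie.Character
import Mathlib.Algebra.Lie.Classical
import Mathlib.Algebra.Lie.DirectSum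
import Mathlib.Algebra.Lie.LieTheorem
import Mathlib.Algebra.Lie.Loop
import Mathlib.Algebra.Lie.SemiDirect
import Mathlib.Algebra.Lie.SerreConstruction
import Mathlib.Algebra.Lie.TransferInstance
import Mathlib.Algebra.LinearRecurrence
import Mathlib.Algebra.ModEq
import Mathlib.Algebra.Module.Bimodule
import Mathlib.Algebra.Module.GradedModule
import Mathlib.Algebra.Module.Lattice
import Mathlib.Algebra.Module.LinearMap.FiniteRange
import Mathlib.Algebra.Module.LinearMap.Index
import Mathlib.Algebra.Module.PointwisePi
import Mathlib.Algebra.Module.StablyFree.FreeOfInvertible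
import Mathlib.Algebra.Module.Submodule.Order
import Mathlib.Algebra.Module.Torsion.PrimaryComponent
import Mathlib.Algebra.MonoidAlgebra.ToDirectSum
import Mathlib.Algebra.MvPolynomial.Comap
import Mathlib.Algebra.MvPolynomial.Counit
import Mathlib.Algebra.MvPolynomial.Invertible
import Mathlib.Algebra.MvPolynomial.SchwartzZippel
import Mathlib.Algebra.NoZeroSMulDivisors.Pi
import Mathlib.Algebra.NoZeroSMulDivisors.Prod
import Mathlib.Algebra.Order.Antidiag.FinsuppEquiv
import Mathlib.Algebra.Order.Antidiag.Nat
import Mathlib.Algebra.Order.Chebyshev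
import Mathlib.Algebra.Order.Group.Bounds
import Mathlib.Algebra.Order.Group.CompleteLattice
import Mathlib.Algebra.Order.Group.Ideal
import Mathlib.Algebra.Order.Group.Int.Sum
import Mathlib.Algebra.Order.Group.PartialSups
import Mathlib.Algebra.Order.GroupWithZero.Lex
import Mathlib.Algebra.Order.Monoid.Associated
import Mathlib.Algebra.Order.Monoid.ToMulBot
import Mathlib.Algebra.Order.Monoid.Unbundled.Units
import Mathlib.Algebra.Order.PUnit
import Mathlib.Algebra.Order.Quantale
import Mathlib.Algebra.Order.Ring.Cone
import Mathlib.Algebra.Order.Ring.Opposite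
import Mathlib.Algebra.Order.Ring.StandardPart
import Mathlib.Algebra.Order.Ring.Units
import Mathlib.Algebra.Order.Star.Conjneg
import Mathlib.Algebra.Order.Star.Pi
import Mathlib.Algebra.Order.Sub.Prod
import Mathlib.Algebra.Order.SuccPred.TypeTags
import Mathlib.Algebra.Order.Sum
import Mathlib.Algebra.Order.UpperLower
import Mathlib.Algebra.PEmptyInstances
import Mathlib.Algebra.Polynomial.Degree.CardPowDegree
import Mathlib.Algebra.Polynomial.Degree.Definitions
import Mathlib.Algebra.Polynomial.Degree.IsMonicOfDegree
import Mathlib.Algebra.Polynomial.DenomsClearable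
import Mathlib.Algebra.Polynomial.Homogenize
import Mathlib.Algebra.Polynomial.OfFn
import Mathlib.Algebra.Polynomial.PartialFractions
import Mathlib.Algebra.Polynomial.RuleOfSigns
import Mathlib.Algebra.Polynomial.SpecificDegree
import Mathlib.Algebra.Polynomial.SumIteratedDerivative
import Mathlib.Algebra.Quandle
import Mathlib.Algebra.QuaternionBasis
import Mathlib.Algebra.Ring.Action.Pointwise.Finset
import Mathlib.Algebra.Ring.BooleanRing
import Mathlib.Algebra.Ring.Ext
import Mathlib.Algebra.Ring.Identities
import Mathlib.Algebra.Ring.IsFormallyReal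
import Mathlib.Algebra.Ring.Subgroup
import Mathlib.Algebra.Ring.Subring.IntPolynomial
import Mathlib.Algebra.Ring.WithZero
import Mathlib.Algebra.Star.CHSH
import Mathlib.Algebra.Star.CentroidHom
import Mathlib.Algebra.Star.Free
import Mathlib.Algebra.Star.RingQuot
import Mathlib.Algebra.Star.TransferInstance
import Mathlib.Algebra.Symmetrized
import Mathlib.Algebra.TrivSqZeroExt
import Mathlib.Analysis.CStarAlgebra.ApproximateUnit
import Mathlib.Analysis.CStarAlgebra.CompletelyPositiveMap
import Mathlib.Analysis.CStarAlgebra.ContinuousLinearMap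
import Mathlib.Analysis.CStarAlgebra.Extreme
import Mathlib.Analysis.CStarAlgebra.GelfandNaimarkSegal
import Mathlib.Analysis.CStarAlgebra.Hom
import Mathlib.Analysis.CStarAlgebra.Multiplier
import Mathlib.Analysis.CStarAlgebra.Projection
import Mathlib.Analysis.CStarAlgebra.lpSpace
import Mathlib.Analysis.Complex.AbelLimit
import Mathlib.Analysis.Complex.Angle
import Mathlib.Analysis.Complex.BorelCaratheodory
import Mathlib.Analysis.Complex.CanonicalDecomposition
import Mathlib.Analysis.Complex.ExponentialBounds
import Mathlib.Analysis.Complex.Hadamard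
import Mathlib.Analysis.Complex.HalfPlane
import Mathlib.Analysis.Complex.IsIntegral
import Mathlib.Analysis.Complex.JensenFormula
import Mathlib.Analysis.Complex.OpenMapping
import Mathlib.Analysis.Complex.OperatorNorm
import Mathlib.Analysis.Complex.Polynomial.GaussLucas
import Mathlib.Analysis.Complex.Positivity
import Mathlib.Analysis.Complex.RiemannMapping
import Mathlib.Analysis.Complex.SqrtDeriv
import Mathlib.Analysis.Complex.SummableUniformlyOn
import Mathlib.Analysis.Complex.Tietze
import Mathlib.Analysis.Fourier.FiniteAbelian.PontryaginDuality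
import Mathlib.Analysis.Normed.Field.Dense
import Mathlib.Analysis.Normed.Field.Instances
import Mathlib.Analysis.Normed.Field.ProperSpace
import Mathlib.Analysis.Normed.Field.WithAbs
import Mathlib.Analysis.Normed.Ring.InfiniteProd
import Mathlib.Analysis.Normed.Ring.Int
import Mathlib.Analysis.SpecialFunctions.Trigonometric.Cotangent
import Mathlib.Analysis.SpecialFunctions.Trigonometric.InverseDeriv
import Mathlib.Analysis.SpecialFunctions.Trigonometric.Meromorphic
import Mathlib.Analysis.SpecialFunctions.Trigonometric.Series
import Mathlib.Combinatorics.Colex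
import Mathlib.Combinatorics.Compactness
import Mathlib.Combinatorics.Configuration
import Mathlib.Combinatorics.HalesJewett
import Mathlib.Combinatorics.Hindman
import Mathlib.Combinatorics.KatonaCircle
import Mathlib.Combinatorics.Nullstellensatz
import Mathlib.Combinatorics.Pigeonhole
import Mathlib.Combinatorics.Schnirelmann
import Mathlib.Computability.Ackermann
import Mathlib.Computability.ContextFreeGrammar
import Mathlib.Computability.EpsilonNFA
import Mathlib.Computability.MyhillNerode
import Mathlib.Computability.PostTuringMachine
import Mathlib.Computability.Primrec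
import Mathlib.Computability.Reduce
import Mathlib.Computability.RegularExpressions
import Mathlib.Computability.TMComputable
import Mathlib.Computability.TMConfig
import Mathlib.Computability.TMToPartrec
import Mathlib.Computability.Tape
import Mathlib.Computability.TuringDegree
import Mathlib.Computability.TuringMachine
import Mathlib.Data.Char
import Mathlib.Data.ENat.BigOperators
import Mathlib.Data.Erased
import Mathlib.Data.Fin.Init
import Mathlib.Data.Fin.Pigeonhole
import Mathlib.Data.Fin.SuccPredOrder
import Mathlib.Data.Fin.Tuple.BubbleSortInduction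
import Mathlib.Data.Fin.Tuple.Curry
import Mathlib.Data.Fin.Tuple.Take
import Mathlib.Data.FinEnum
import Mathlib.Data.Finite.Card
import Mathlib.Data.Finmap
import Mathlib.Data.Finset.CastCard
import Mathlib.Data.Finset.DenselyOrdered
import Mathlib.Data.Finset.Functor
import Mathlib.Data.Finset.Interval
import Mathlib.Data.Finset.Lattice.Pi
import Mathlib.Data.Finset.NatDivisors
import Mathlib.Data.Finset.PImage
import Mathlib.Data.Finset.PiInduction
import Mathlib.Data.Finset.Sups
import Mathlib.Data.Finsupp.BigOperators
import Mathlib.Data.Finsupp.NeLocus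
import Mathlib.Data.Finsupp.Pointwise
import Mathlib.Data.Finsupp.PointwiseSMul
import Mathlib.Data.Finsupp.Sigma
import Mathlib.Data.Fintype.Units
import Mathlib.Data.Fintype.WithTopBot
import Mathlib.Data.FunLike.Fintype
import Mathlib.Data.FunLike.Graded
import Mathlib.Data.Holor
import Mathlib.Data.Int.CardIntervalMod
import Mathlib.Data.Int.Lemmas
import Mathlib.Data.Int.Log
import Mathlib.Data.Int.NatPrime
import Mathlib.Data.Matrix.Action
import Mathlib.Data.Matrix.Auto
import Mathlib.Data.Matrix.Bilinear
import Mathlib.Data.Matrix.Cartan
import Mathlib.Data.Matrix.DMatrix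
import Mathlib.Data.Matrix.DualNumber
import Mathlib.Data.Matrix.Invertible
import Mathlib.Data.Multiset.DershowitzManna
import Mathlib.Data.Multiset.Interval
import Mathlib.Data.Multiset.Pairwise
import Mathlib.Data.Nat.Cast.SetInterval
import Mathlib.Data.Nat.Cast.Synonym
import Mathlib.Data.Nat.ChineseRemainder
import Mathlib.Data.Nat.Choose.Dvd
import Mathlib.Data.Nat.Choose.Lucas
import Mathlib.Data.Nat.Dist
import Mathlib.Data.Nat.EvenOddRec
import Mathlib.Data.Nat.Factorial.NatCast
import Mathlib.Data.Nat.Factorization.Divisors
import Mathlib.Data.Nat.Factorization.Root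
import Mathlib.Data.Nat.Hyperoperation
import Mathlib.Data.Nat.Lattice
import Mathlib.Data.Nat.Prime.Nth
import Mathlib.Data.Nat.Upto
import Mathlib.Data.Rat.Cardinal
import Mathlib.Data.Rat.Denumerable
import Mathlib.Data.Rat.Star
import Mathlib.Data.Semiquot
import Mathlib.Data.Set.Accumulate
import Mathlib.Data.Set.Card.Arithmetic
import Mathlib.Data.Set.Dissipate
import Mathlib.Data.Set.Enumerate
import Mathlib.Data.Set.Equitable
import Mathlib.Data.Set.Finite.List
import Mathlib.Data.Set.Finite.Monad
import Mathlib.Data.Set.FiniteExhaustion
import Mathlib.Data.Set.Opposite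
import Mathlib.Data.SubtypeNeLift
import Mathlib.Data.Sum.Interval
import Mathlib.Data.Sum.Lattice
import Mathlib.Data.TwoPointing
import Mathlib.Data.TypeVec
import Mathlib.Data.UInt
import Mathlib.Data.Vector3
import Mathlib.Data.ZMod.Coprime
import Mathlib.Data.ZMod.Factorial
import Mathlib.Dynamics.FixedPoints.Prufer
import Mathlib.Dynamics.FixedPoints.Support
import Mathlib.FieldTheory.AbelRuffini
import Mathlib.FieldTheory.AbsoluteGaloisGroup
import Mathlib.FieldTheory.AxGrothendieck
import Mathlib.FieldTheory.CardinalEmb
import Mathlib.FieldTheory.Cardinality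
import Mathlib.FieldTheory.ChevalleyWarning
import Mathlib.FieldTheory.FinTrdeg
import Mathlib.FieldTheory.Finite.Extension
import Mathlib.FieldTheory.Finite.Polynomial
import Mathlib.FieldTheory.Galois.NormalBasis
import Mathlib.FieldTheory.Galois.Profinite
import Mathlib.FieldTheory.IntermediateField.ExtendRight
import Mathlib.FieldTheory.IsPerfectClosure
import Mathlib.FieldTheory.Isaacs
import Mathlib.FieldTheory.JacobsonNoether
import Mathlib.FieldTheory.Laurent
import Mathlib.FieldTheory.Minpoly.ConjRootClass
import Mathlib.FieldTheory.NormalizedTrace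
import Mathlib.FieldTheory.PrimeField
import Mathlib.FieldTheory.PurelyInseparable.AdjoinPthRoots
import Mathlib.FieldTheory.PurelyInseparable.Exponent
import Mathlib.FieldTheory.PurelyInseparable.Tower
import Mathlib.FieldTheory.RatFunc.Luroth
import Mathlib.FieldTheory.RatFunc.Valuation
import Mathlib.FieldTheory.SeparablyGenerated
import Mathlib.GroupTheory.Commensurable
import Mathlib.GroupTheory.CommutingProbability
import Mathlib.GroupTheory.Descent
import Mathlib.GroupTheory.DivisibleHull
import Mathlib.GroupTheory.DoubleCoset
import Mathlib.GroupTheory.EckmannHilton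
import Mathlib.GroupTheory.FinitelyPresentedGroup
import Mathlib.GroupTheory.FixedPointFree
import Mathlib.GroupTheory.Focal
import Mathlib.GroupTheory.Frattini
import Mathlib.GroupTheory.Generators
import Mathlib.GroupTheory.GroupAction.Iwasawa
import Mathlib.GroupTheory.GroupAction.OfQuotient
import Mathlib.GroupTheory.GroupAction.Period
import Mathlib.GroupTheory.GroupAction.SubMulAction.Combination
import Mathlib.GroupTheory.GroupAction.Support
import Mathlib.GroupTheory.HNNExtension
import Mathlib.GroupTheory.IndexNSmul
import Mathlib.GroupTheory.IsPerfect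
import Mathlib.GroupTheory.IsSubnormal
import Mathlib.GroupTheory.MonoidLocalization.DivPairs
import Mathlib.GroupTheory.MonoidLocalization.Finite
import Mathlib.GroupTheory.MonoidLocalization.Lemmas
import Mathlib.GroupTheory.MonoidLocalization.Order
import Mathlib.GroupTheory.Perm.Centralizer
import Mathlib.GroupTheory.Perm.Subgroup
import Mathlib.GroupTheory.PushoutI
import Mathlib.GroupTheory.RegularWreathProduct
import Mathlib.GroupTheory.ResiduallyFinite
import Mathlib.GroupTheory.SchurZassenhaus
import Mathlib.GroupTheory.SemidirectProduct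
import Mathlib.LinearAlgebra.Basis.Flag
import Mathlib.LinearAlgebra.Basis.MulOpposite
import Mathlib.LinearAlgebra.Center
import Mathlib.LinearAlgebra.Coevaluation
import Mathlib.LinearAlgebra.ConvexSpace
import Mathlib.LinearAlgebra.Countable
import Mathlib.LinearAlgebra.Eigenspace.Charpoly
import Mathlib.LinearAlgebra.Eigenspace.ContinuousLinearMap
import Mathlib.LinearAlgebra.FreeModule.Int
import Mathlib.LinearAlgebra.FreeModule.ModN
import Mathlib.LinearAlgebra.FreeModule.Norm
import Mathlib.LinearAlgebra.Goursat
import Mathlib.LinearAlgebra.LinearIndependent.BaseChange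
import Mathlib.LinearAlgebra.Matrix.AbsoluteValue
import Mathlib.LinearAlgebra.Matrix.Charpoly.Disc
import Mathlib.LinearAlgebra.Matrix.Charpoly.FiniteField
import Mathlib.LinearAlgebra.Matrix.Circulant
import Mathlib.LinearAlgebra.Matrix.Determinant.Misc
import Mathlib.LinearAlgebra.Matrix.Determinant.TotallyUnimodular
import Mathlib.LinearAlgebra.Matrix.FiniteDimensional
import Mathlib.LinearAlgebra.Matrix.FixedDetMatrices
import Mathlib.LinearAlgebra.Matrix.Gershgorin
import Mathlib.LinearAlgebra.Matrix.HadamardMatrix
import Mathlib.LinearAlgebra.Matrix.Integer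
import Mathlib.LinearAlgebra.Matrix.IsDiag
import Mathlib.LinearAlgebra.Matrix.Module
import Mathlib.LinearAlgebra.Matrix.Nonsingular
import Mathlib.LinearAlgebra.Matrix.Permanent
import Mathlib.LinearAlgebra.Matrix.Stochastic
import Mathlib.LinearAlgebra.Matrix.Swap
import Mathlib.LinearAlgebra.Matrix.Unique
import Mathlib.LinearAlgebra.Matrix.WithConv
import Mathlib.LinearAlgebra.PiTensorProduct
import Mathlib.LinearAlgebra.Quotient.Bilinear
import Mathlib.LinearAlgebra.SpecialLinearGroup
import Mathlib.LinearAlgebra.TensorProduct.Free
import Mathlib.LinearAlgebra.TensorProduct.Matrix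
import Mathlib.LinearAlgebra.TensorProduct.Opposite
import Mathlib.LinearAlgebra.Transvection
import Mathlib.Logic.Equiv.Array
import Mathlib.Logic.Equiv.Bool
import Mathlib.Logic.Equiv.Pairwise
import Mathlib.Logic.Function.Coequalizer
import Mathlib.Logic.Function.FiberPartition
import Mathlib.Logic.Hydra
import Mathlib.Logic.IsEmpty
import Mathlib.Order.Birkhoff
import Mathlib.Order.Booleanisation
import Mathlib.Order.Bounded
import Mathlib.Order.Comparable
import Mathlib.Order.CompleteLattice.MulticoequalizerDiagram
import Mathlib.Order.CompleteLattice.PiLex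
import Mathlib.Order.CompleteLattice.SetLike
import Mathlib.Order.CompletePartialOrder
import Mathlib.Order.Completion
import Mathlib.Order.CountableDenseLinearOrder
import Mathlib.Order.CountableSupClosed
import Mathlib.Order.Filter.AtTopBot.Interval
import Mathlib.Order.Filter.Cocardinal
import Mathlib.Order.Filter.FilterProduct
import Mathlib.Order.Filter.ListTraverse
import Mathlib.Order.Filter.Partial
import Mathlib.Order.Height
import Mathlib.Order.Interval.Finset.Floor
import Mathlib.Order.Interval.Set.Final
import Mathlib.Order.Interval.Set.InitialSeg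
import Mathlib.Order.Interval.Set.Limit
import Mathlib.Order.Interval.Set.Nat
import Mathlib.Order.Interval.Set.SuccOrder
import Mathlib.Order.Interval.Set.SurjOn
import Mathlib.Order.Interval.Set.Union
import Mathlib.Order.KonigLemma
import Mathlib.Order.Lattice.Congruence
import Mathlib.Order.Monotone.Extension
import Mathlib.Order.Monotone.MonovaryOrder
import Mathlib.Order.NonemptyFiniteChains
import Mathlib.Order.PrimeSeparator
import Mathlib.Order.Restriction
import Mathlib.Order.SaddlePoint
import Mathlib.Order.SemiconjSup
import Mathlib.Order.Set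
import Mathlib.Order.Shrink
import Mathlib.Order.Std
import Mathlib.Order.Sublocale
import Mathlib.Order.Synonym
import Mathlib.Order.TeichmullerTukey
import Mathlib.Order.TransfiniteIteration
import Mathlib.Order.WithBotTop
import Mathlib.RingTheory.Adjoin.Polynomial
import Mathlib.RingTheory.Adjoin.Polynomial.Bivariate
import Mathlib.RingTheory.Algebraic.Denominator
import Mathlib.RingTheory.Algebraic.Pi
import Mathlib.RingTheory.ClassGroup
import Mathlib.RingTheory.Complex
import Mathlib.RingTheory.DedekindDomain.FiniteAdeleRing
import Mathlib.RingTheory.DedekindDomain.GaussLemma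
import Mathlib.RingTheory.DedekindDomain.Instances
import Mathlib.RingTheory.DedekindDomain.LinearDisjoint
import Mathlib.RingTheory.DedekindDomain.SInteger
import Mathlib.RingTheory.DedekindDomain.SelmerGroup
import Mathlib.RingTheory.Derivation.Lie
import Mathlib.RingTheory.DualNumber
import Mathlib.RingTheory.Etale.Descent
import Mathlib.RingTheory.Etale.Finite
import Mathlib.RingTheory.Etale.QuasiFinite
import Mathlib.RingTheory.Etale.Weakly
import Mathlib.RingTheory.Finiteness.ModuleFinitePresentation
import Mathlib.RingTheory.Fintype
import Mathlib.RingTheory.Flat.CategoryTheory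
import Mathlib.RingTheory.Flat.Domain
import Mathlib.RingTheory.Flat.FaithfullyFlat.Descent
import Mathlib.RingTheory.Flat.LocallyFree
import Mathlib.RingTheory.Frobenius
import Mathlib.RingTheory.Grassmannian
import Mathlib.RingTheory.Henselian
import Mathlib.RingTheory.Ideal.Finsupp
import Mathlib.RingTheory.Ideal.HasGoingUp
import Mathlib.RingTheory.Ideal.Int
import Mathlib.RingTheory.Ideal.IsAugmentation
import Mathlib.RingTheory.Ideal.IsPrincipalPowQuotient
import Mathlib.RingTheory.Ideal.NatInt
import Mathlib.RingTheory.Ideal.Pure
import Mathlib.RingTheory.Ideal.UFD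
import Mathlib.RingTheory.KrullDimension.LocalRing
import Mathlib.RingTheory.KrullDimension.Regular
import Mathlib.RingTheory.Lasker
import Mathlib.RingTheory.LaurentSeries
import Mathlib.RingTheory.LittleWedderburn
import Mathlib.RingTheory.LocalIso
import Mathlib.RingTheory.LocalRing.Etale
import Mathlib.RingTheory.LocalRing.MaximalIdeal.Square
import Mathlib.RingTheory.LocalRing.NonLocalRing
import Mathlib.RingTheory.LocalRing.Pullback
import Mathlib.RingTheory.LocalRing.Subring
import Mathlib.RingTheory.Localization.Pi
import Mathlib.RingTheory.Localization.Rat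
import Mathlib.RingTheory.MvPolynomial.EulerIdentity
import Mathlib.RingTheory.MvPolynomial.IrreducibleQuadratic
import Mathlib.RingTheory.MvPowerSeries.Equiv
import Mathlib.RingTheory.NoetherNormalization
import Mathlib.RingTheory.NormTrace
import Mathlib.RingTheory.NormalClosure
import Mathlib.RingTheory.PiTensorProduct
import Mathlib.RingTheory.Polynomial.Cyclotomic.Factorization
import Mathlib.RingTheory.Polynomial.Dickson
import Mathlib.RingTheory.Polynomial.HilbertPoly
import Mathlib.RingTheory.Polynomial.IrreducibleRing
import Mathlib.RingTheory.Polynomial.Morse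
import Mathlib.RingTheory.Polynomial.Opposites
import Mathlib.RingTheory.Polynomial.Radical
import Mathlib.RingTheory.Polynomial.Selmer
import Mathlib.RingTheory.Polynomial.ShiftedLegendre
import Mathlib.RingTheory.Polynomial.SmallDegreeVieta
import Mathlib.RingTheory.PowerSeries.Binomial
import Mathlib.RingTheory.PowerSeries.Catalan
import Mathlib.RingTheory.PowerSeries.Expand
import Mathlib.RingTheory.PowerSeries.Log
import Mathlib.RingTheory.PowerSeries.Restricted
import Mathlib.RingTheory.PowerSeries.Schroder
import Mathlib.RingTheory.PowerSeries.WeierstrassPreparation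
import Mathlib.RingTheory.Prime
import Mathlib.RingTheory.Radical
import Mathlib.RingTheory.RegularLocalRing.Polynomial
import Mathlib.RingTheory.RingInvo
import Mathlib.RingTheory.RootsOfUnity.AlgebraicallyClosed
import Mathlib.RingTheory.RootsOfUnity.CyclotomicUnits
import Mathlib.RingTheory.RootsOfUnity.Lemmas
import Mathlib.RingTheory.SimpleModule.InjectiveProjective
import Mathlib.RingTheory.SimpleModule.IsAlgClosed
import Mathlib.RingTheory.SimpleModule.Rank
import Mathlib.RingTheory.SimpleRing.DivisionRing
import Mathlib.RingTheory.SimpleRing.Principal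
import Mathlib.RingTheory.Spectrum.Prime.Chevalley
import Mathlib.RingTheory.Spectrum.Prime.Homeomorph
import Mathlib.RingTheory.Spectrum.Prime.IsOpenComapC
import Mathlib.RingTheory.Teichmuller
import Mathlib.RingTheory.TensorProduct.DirectLimitFG
import Mathlib.RingTheory.TensorProduct.IncludeLeftSubRight
import Mathlib.RingTheory.TensorProduct.IsBaseChangeRightExact
import Mathlib.RingTheory.UniqueFactorizationDomain.Localization
import Mathlib.RingTheory.UniqueFactorizationDomain.Moebius
import Mathlib.RingTheory.Unramified.Dedekind
import Mathlib.RingTheory.Unramified.LocalStructure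
import Mathlib.RingTheory.Valuation.AlgebraInstances
import Mathlib.RingTheory.Valuation.Archimedean
import Mathlib.RingTheory.Valuation.DiscreteValuativeRel
import Mathlib.RingTheory.Valuation.Extension
import Mathlib.RingTheory.Valuation.FiniteField
import Mathlib.RingTheory.Valuation.LocalSubring
import Mathlib.RingTheory.Valuation.Minpoly
import Mathlib.RingTheory.Valuation.Quotient
import Mathlib.RingTheory.Valuation.RamificationGroup
import Mathlib.SetTheory.Cardinal.Cofinality
import Mathlib.SetTheory.Cardinal.EventuallyConst
import Mathlib.SetTheory.Cardinal.Free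
import Mathlib.SetTheory.Cardinal.HasCardinalLT
import Mathlib.SetTheory.Cardinal.NatCount
import Mathlib.SetTheory.Cardinal.UnivLE
import Mathlib.SetTheory.Ordinal.CantorNormalForm
import Mathlib.SetTheory.Ordinal.Commute
import Mathlib.SetTheory.Ordinal.FixedPointApproximants
import Mathlib.SetTheory.Ordinal.Notation
import Mathlib.SetTheory.Ordinal.Rank
import Mathlib.SetTheory.Ordinal.Topology
import Mathlib.SetTheory.Ordinal.Veblen
import Mathlib.Tactic

/-! A larger part of Mathlib, for files that need more than MathlibUsed. -/
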