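import Mathlib.Algebra.GroupWithZero.Submonoid.CancelMulZero
import Mathlib.Algebra.Lie.OfAssociative
import Mathlib.Algebra.Module.StablyFree.Basic
import Mathlib.Algebra.Module.Torsion.Prod
import Mathlib.Algebra.Order.Ring.Star
import Mathlib.Analysis.CStarAlgebra.Classes
import Mathlib.Analysis.Complex.Polynomial.Basic
import Mathlib.Analysis.Fourier.FiniteAbelian.PontryaginDuality
import Mathlib.Combinatorics.Pigeonhole
import Mathlib.Computability.Reduce
import Mathlib.Data.Finsupp.Pointwise
import Mathlib.Data.Int.Star
import Mathlib.FieldTheory.IsAlgClosed.Classification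
import Mathlib.FieldTheory.PurelyInseparable.Tower
import Mathlib.FieldTheory.RatFunc.Luroth
import Mathlib.FieldTheory.SeparablyGenerated
import Mathlib.GroupTheory.Nilpotent
import Mathlib.LinearAlgebra.Charpoly.ToMatrix
import Mathlib.LinearAlgebra.Eigenspace.Triangularizable
import Mathlib.Order.CompletePartialOrder
import Mathlib.Order.Filter.FilterProduct
import Mathlib.RingTheory.Adjoin.Polynomial.Bivariate
import Mathlib.RingTheory.DedekindDomain.Different
import Mathlib.RingTheory.Etale.Weakly
import Mathlib.RingTheory.Finiteness.ModuleFinitePresentation
import Mathlib.RingTheory.Henselian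
import Mathlib.RingTheory.PicardGroup
import Mathlib.RingTheory.Polynomial.IsIntegral
import Mathlib.RingTheory.Polynomial.Resultant.Basic
import Mathlib.RingTheory.Polynomial.Wronskian
import Mathlib.RingTheory.PowerSeries.Derivative
import Mathlib.RingTheory.PowerSeries.Expand
import Mathlib.RingTheory.PowerSeries.Inverse
import Mathlib.RingTheory.RegularLocalRing.Defs
import Mathlib.RingTheory.RootsOfUnity.AlgebraicallyClosed
import Mathlib.RingTheory.SimpleRing.Principal
import Mathlib.RingTheory.TotallySplit
import Mathlib.RingTheory.Valuation.LocalSubring
import Mathlib.Tactic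

/-! The part of Mathlib that the development of this folder uses. -/

namespace O19

/-! Vector spaces are free, torsion-free, projective and flat (used as local shortcuts). -/

theorem fr.{u1, u2} {K : Type u1} {V : Type u2} [Field K] [AddCommGroup V] [Module K V] :
    Module.Free K V := Module.Free.of_divisionRing K V
theorem tf.{u1, u2} {K : Type u1} {V : Type u2} [Field K] [AddCommGroup V] [Module K V] :
    Module.IsTorsionFree K V := inferInstance
theorem pj.{u1, u2} {K : Type u1} {V : Type u2} [Field K] [AddCommGroup V] [Module K V] :
    Module.Projective K V := inferInstance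
theorem fl.{u1, u2} {K : Type u1} {V : Type u2} [Field K] [AddCommGroup V] [Module K V] :
    Module.Flat K V := inferInstance

end O19
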