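import Vale.Agent.P019.DefB

/-!
# Functions on an uncountable field that are almost invariant
-/

namespace Vale.Agent.P019

open Filter

/-- On countably infinite sets of good shifts, `g` is almost constant, and `h` is constant with the
same value outside of a countable set. -/
theorem const_of_ae_aux {K T : Type*} [Field K] {k : Subfield K}
    (hk : ¬ (k : Set K).Countable) {f g h : K → T}
    (h1 : ∀ᶠ a in ae k, ∀ᶠ b in ae k, f (a + b) = g b) {T₀ : Set K} (hc : T₀.Countable)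
    (hi : T₀.Infinite) (hT : ∀ b ∈ T₀, b ∈ k ∧ ∀ᶠ a in ae k, f (a + b) = h a) :
    ∃ e, {b | b ∈ T₀ ∧ g b ≠ e}.Finite ∧ ∃ C : Set K, C.Countable ∧ ∀ a ∈ k, a ∉ C → h a = e := by
  rw [ae_iff] at h1
  set C : Set K := {a : K | a ∈ k ∧ ¬ ∀ᶠ b in ae k, f (a + b) = g b} ∪
    ⋃ b ∈ T₀, {a : K | a ∈ k ∧ ¬ f (a + b) = h a} with hC
  have hCc : C.Countable := by
    refine h1.countable.union (hc.biUnion fun b hb => ?_)
    exact (ae_iff.1 (hT b hb).2).countable
  -- the key property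
  have key : ∀ a ∈ k, a ∉ C → {b | b ∈ T₀ ∧ g b ≠ h a}.Finite := by
    intro a ha haC
    have ha1 : ∀ᶠ b in ae k, f (a + b) = g b := by
      by_contra hne
      exact haC (Or.inl ⟨ha, hne⟩)
    rw [ae_iff] at ha1
    refine ha1.subset ?_
    rintro b ⟨hb, hne⟩
    refine ⟨(hT b hb).1, fun heq => hne ?_⟩
    rw [← heq]
    by_contra hne'
    refine haC (Or.inr ?_)
    simp only [Set.mem_iUnion]
    exact ⟨b, hb, ha, hne'⟩
  obtain ⟨a₀, ha₀, ha₀C⟩ : ∃ a ∈ k, a ∉ C := by
    by_contra hne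
    push Not at hne
    exact hk (hCc.mono hne)
  refine ⟨h a₀, key a₀ ha₀ ha₀C, C, hCc, fun a ha haC => ?_⟩
  by_contra hne
  refine hi (((key a ha haC).union (key a₀ ha₀ ha₀C)).subset ?_)
  intro b hb
  by_cases hg : g b = h a
  · right
    exact ⟨hb, fun h' => hne (hg.symm.trans h')⟩
  · left
    exact ⟨hb, hg⟩

theorem exists_countable_infinite {K : Type*} {S : Set K} (hS : S.Infinite) :
    ∃ T₀ : Set K, T₀ ⊆ S ∧ T₀.Countable ∧ T₀.Infinite := by
  refine ⟨Set.range fun n => (hS.natEmbedding S n : K), ?_, Set.countable_range _, ?_⟩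
  · rintro _ ⟨n, rfl⟩
    exact (hS.natEmbedding S n).2
  · apply Set.infinite_range_of_injective
    exact Subtype.val_injective.comp (hS.natEmbedding S).injective

theorem const_of_ae_half {K T : Type*} [Field K] [CharZero K] {k : Subfield K}
    (hk : ¬ (k : Set K).Countable) {f g h : K → T}
    (h1 : ∀ᶠ a in ae k, ∀ᶠ b in ae k, f (a + b) = g b)
    (h2 : ∀ᶠ b in ae k, ∀ᶠ a in ae k, f (a + b) = h a) :
    ∃ e, (∀ᶠ b in ae k, g b = e) ∧ ∃ C : Set K, C.Countable ∧ ∀ a ∈ k, a ∉ C → h a = e := by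
  set S : Set K := {b : K | b ∈ k ∧ ∀ᶠ a in ae k, f (a + b) = h a} with hS
  have hSf : {b : K | b ∈ k ∧ b ∉ S}.Finite := by
    rw [ae_iff] at h2
    refine h2.subset ?_
    rintro b ⟨hb, hbS⟩
    exact ⟨hb, fun h' => hbS ⟨hb, h'⟩⟩
  have hki : (k : Set K).Infinite := fun hf => hk hf.countable
  have hSi : S.Infinite := by
    intro hf
    refine hki ((hf.union hSf).subset ?_)
    intro b hb
    by_cases hbS : b ∈ S
    · exact Or.inl hbS
    · exact Or.inr ⟨hb, hbS⟩
  obtain ⟨T₁, hT₁S, hT₁c, hT₁i⟩ := exists_countable_infinite hSi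
  obtain ⟨e, he, C, hC, hCe⟩ := const_of_ae_aux hk h1 hT₁c hT₁i (fun b hb => hT₁S hb)
  refine ⟨e, ?_, C, hC, hCe⟩
  rw [ae_iff]
  by_contra hinf
  have hinf' : ({b : K | b ∈ S ∧ g b ≠ e}).Infinite := by
    intro hf
    refine hinf ((hf.union hSf).subset ?_)
    rintro b ⟨hb, hne⟩
    by_cases hbS : b ∈ S
    · exact Or.inl ⟨hbS, hne⟩
    · exact Or.inr ⟨hb, hbS⟩
  obtain ⟨T₂, hT₂S, hT₂c, hT₂i⟩ := exists_countable_infinite hinf'
  obtain ⟨e', he', -⟩ := const_of_ae_aux hk h1 (hT₁c.union hT₂c) (hT₁i.mono Set.subset_union_left)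
    (fun b hb => by
      rcases hb with hb | hb
      · exact hT₁S hb
      · exact (hT₂S hb).1)
  have hee : e' = e := by
    by_contra hne
    refine hT₁i ((he.union he').subset ?_)
    intro b hb
    by_cases hg : g b = e
    · right
      exact ⟨Or.inl hb, fun h' => hne (h'.symm.trans hg)⟩
    · left
      exact ⟨hb, hg⟩
  rw [hee] at he'
  refine hT₂i (he'.subset ?_)
  intro b hb
  exact ⟨Or.inr hb, (hT₂S hb).2⟩

theorem const_of_ae {K T : Type*} [Field K] [CharZero K] {k : Subfield K}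
    (hk : ¬ (k : Set K).Countable) {f g h : K → T}
    (h1 : ∀ᶠ a in ae k, ∀ᶠ b in ae k, f (a + b) = g b)
    (h2 : ∀ᶠ b in ae k, ∀ᶠ a in ae k, f (a + b) = h a) :
    ∃ e, (∀ᶠ b in ae k, g b = e) ∧ (∀ᶠ a in ae k, h a = e) := by
  obtain ⟨e, he, C, hC, hCe⟩ := const_of_ae_half hk h1 h2
  obtain ⟨e', he', -⟩ := const_of_ae_half (g := h) (h := g) hk
    (by simpa only [add_comm] using h2) (by simpa only [add_comm] using h1)
  refine ⟨e, he, ?_⟩
  have hee : e' = e := by
    by_contra hne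
    rw [ae_iff] at he'
    refine hk ((hC.union he'.countable).mono ?_)
    intro a ha
    by_cases haC : a ∈ C
    · exact Or.inl haC
    · exact Or.inr ⟨ha, fun h' => hne (h'.symm.trans (hCe a ha haC))⟩
  rwa [hee] at he'

/-- functions with few shifts are constant (pure). -/
theorem const_of_shift {K T : Type*} [Field K] {k : Subfield K}
    (hk : ¬ (k : Set K).Countable) {f g : K → T} {C : Set K} (hC : C.Countable)
    (h : ∀ a ∈ k, a ∉ C → ∀ b ∈ k, f b = g (a + b)) :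
    ∀ b ∈ k, ∀ b' ∈ k, f b = f b' ∧ f b = g b' := by
  have hg : ∀ z ∈ k, ∀ z' ∈ k, g z = g z' := by
    intro z hz z' hz'
    obtain ⟨b, hb, hb1, hb2⟩ : ∃ b ∈ k, z - b ∉ C ∧ z' - b ∉ C := by
      by_contra hne
      push Not at hne
      refine hk (((hC.image fun c => z - c).union (hC.image fun c => z' - c)).mono ?_)
      intro b hb
      by_cases hb1 : z - b ∈ C
      · left
        exact ⟨z - b, hb1, by simp⟩
      · right
        exact ⟨z' - b, hne b hb hb1, by simp⟩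
    have e1 := h (z - b) (sub_mem hz hb) hb1 b hb
    have e2 := h (z' - b) (sub_mem hz' hb) hb2 b hb
    rw [sub_add_cancel] at e1 e2
    rw [← e1, e2]
  obtain ⟨a, ha, haC⟩ : ∃ a ∈ k, a ∉ C := by
    by_contra hne
    push Not at hne
    exact hk (hC.mono hne)
  have hf : ∀ b ∈ k, ∀ b' ∈ k, f b = g b' := by
    intro b hb b' hb'
    rw [h a ha haC b hb]
    exact hg _ (add_mem ha hb) _ hb'
  intro b hb b' hb'
  exact ⟨(hf b hb b' hb').trans (hf b' hb' b' hb').symm, hf b hb b' hb'⟩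

end Vale.Agent.P019
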