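import Vale.Agent.P019.Gen

/-!
# Lueroth's theorem for subfields
-/

namespace Vale.Agent.P019

open Polynomial

set_option linter.unusedVariables false in
theorem luroth_sub {N : Type*} [Field N] {k E : Subfield N} {σ : N} (hσ : ¬ IsAlgebraic k σ)
    (hkE : k ≤ E) (hE : E ≤ adj k σ) (hne : ¬ E ≤ k) : ∃ u ∈ E, E = adj k u := by
  have hinj : Function.Injective (aeval σ : k[X] →ₐ[k] N) := by
    rw [injective_iff_map_eq_zero]
    intro p hp
    by_contra h
    exact hσ ⟨p, h, hp⟩
  let φ : RatFunc k →ₐ[k] N := RatFunc.liftAlgHom (aeval σ : k[X] →ₐ[k] N)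
    (nonZeroDivisors_le_comap_nonZeroDivisors_of_injective _ hinj)
  let E1 : IntermediateField k N :=
    { E with algebraMap_mem' := fun x => hkE x.2 }
  let A : N → IntermediateField k N := fun u =>
    { adj k u with algebraMap_mem' := fun x => le_adj k u x.2 }
  let E' : IntermediateField k (RatFunc k) := E1.comap φ
  have hmemE' : ∀ z, z ∈ E' ↔ φ z ∈ E := fun z => Iff.rfl
  refine ⟨φ (RatFunc.Luroth.generator E'), (hmemE' _).1 RatFunc.Luroth.generator_mem, ?_⟩
  apply le_antisymm
  · intro z hz
    obtain ⟨r, s, hrs⟩ := Gn.mem_adj_frac (hE hz)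
    have h1 : φ (algebraMap k[X] (RatFunc k) r / algebraMap k[X] (RatFunc k) s) = z := by
      rw [hrs]
      exact RatFunc.liftAlgHom_apply_div _ _ _ _
    have h2 : algebraMap k[X] (RatFunc k) r / algebraMap k[X] (RatFunc k) s ∈ E' := by
      rw [hmemE', h1]
      exact hz
    rw [RatFunc.Luroth.eq_adjoin_generator (E := E')] at h2
    have h3 : IntermediateField.adjoin k {RatFunc.Luroth.generator E'} ≤
        (A (φ (RatFunc.Luroth.generator E'))).comap φ := by
      rw [IntermediateField.adjoin_le_iff]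
      rintro _ rfl
      exact mem_adj k _
    have h4 : φ (algebraMap k[X] (RatFunc k) r / algebraMap k[X] (RatFunc k) s) ∈
        adj k (φ (RatFunc.Luroth.generator E')) := h3 h2
    rw [h1] at h4
    exact h4
  · exact adj_le hkE ((hmemE' _).1 RatFunc.Luroth.generator_mem)

end Vale.Agent.P019
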