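import Vale.Agent.P019.FrameB
import Vale.Agent.P019.Line

/-!
# Valuations that are nontrivial on curves
-/

namespace Vale.Agent.P019

open Polynomial Filter

variable {K : Type*} [Field K]

theorem Crv.alg {k E : Subfield K} (hk : RAC k) (h : Crv k E) {y : K} (hy : y ∈ E)
    (hyk : y ∉ k) : ∀ z ∈ E, IsAlgebraic (adj k y) z := by
  obtain ⟨y0, hy0, -, hall⟩ := h.ex
  intro z hz
  have h1 : ¬ IsAlgebraic k y := fun h' => hyk (hk y h')
  have h2 : IsAlgebraic (adj k y) y0 := exchange h1 (hall y hy)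
  have h3 : adj k y0 ≤ Vale.Agent.P019.rac (adj k y) :=
    adj_le ((le_adj k y).trans (le_rac _)) (mem_rac.2 h2)
  exact isAlgebraic_rac (isAlgebraic_mono h3 (hall z hz))

theorem Crv.of_good {k : Subfield K} {t : K} (h : Good k t) : Crv k (adj k t) :=
  ⟨le_adj k t, h.2, t, mem_adj k t, h.1, fun _ hz => isAlgebraic_of_mem hz⟩

theorem Crv.eq {k E₁ E₂ : Subfield K} (hk : RAC k) (h₁ : Crv k E₁) (h₂ : Crv k E₂) {y : K}
    (hy₁ : y ∈ E₁) (hy₂ : y ∈ E₂) (hyk : y ∉ k) : E₁ = E₂ := by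
  apply le_antisymm
  · intro z hz
    exact h₂.rac z (isAlgebraic_mono (adj_le h₂.le hy₂) (h₁.alg hk hy₁ hyk z hz))
  · intro z hz
    exact h₁.rac z (isAlgebraic_mono (adj_le h₁.le hy₁) (h₂.alg hk hy₂ hyk z hz))

theorem exists_const {k E : Subfield K} (hk : IsAlgClosed k) (hE : Crv k E)
    {O : ValuationSubring K} (hOk : TrivOn O k) (hOE : ¬ TrivOn O E) {w : K} (hw : w ∈ E)
    (hw1 : O.valuation w = 1) : ∃ c ∈ k, O.valuation (w - c) < 1 := by
  by_contra hcon
  push Not at hcon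
  have hone : ∀ c ∈ k, O.valuation (w - c) = 1 := by
    intro c hc
    refine le_antisymm ?_ (hcon c hc)
    refine (O.valuation.map_sub _ _).trans (max_le hw1.le (hOk.le_one hc))
  have hwk : w ∉ k := by
    intro h
    have h1 := hone w h
    rw [sub_self, map_zero] at h1
    exact zero_ne_one h1
  have hms : ∀ m : Multiset k,
      O.valuation (aeval w (m.map fun a => X - C a).prod) = 1 := by
    intro m
    induction m using Multiset.induction_on with
    | empty => simp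
    | cons a m ih =>
      have e : aeval w (((a ::ₘ m).map fun a => X - C a).prod : k[X]) =
          (w - (a : K)) * aeval w ((m.map fun a => X - C a).prod : k[X]) := by
        rw [Multiset.map_cons, Multiset.prod_cons, map_mul, map_sub, aeval_X, aeval_C]
        rfl
      rw [e, map_mul, ih, mul_one]
      exact hone a a.2
  have hpoly : ∀ P : k[X], P ≠ 0 → O.valuation (aeval w P) = 1 := by
    intro P hP
    have h1 := (IsAlgClosed.splits P).eq_prod_roots
    rw [h1, map_mul, aeval_C, map_mul, hms, mul_one]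
    exact hOk.eq_one (P.leadingCoeff).2 (fun h => hP (leadingCoeff_eq_zero.1 (Subtype.ext h)))
  have htriv : TrivOn O (adj k w) := by
    intro z hz
    obtain ⟨p, q, rfl⟩ := line_mem hz
    rw [← O.valuation_le_one_iff, map_div₀]
    by_cases hq : q = 0
    · rw [hq, map_zero, map_zero, div_zero]; exact zero_le_one
    · rw [hpoly q hq, div_one]
      by_cases hp : p = 0
      · rw [hp, map_zero, map_zero]; exact zero_le_one
      · exact (hpoly p hp).le
  apply hOE
  intro z hz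
  exact htriv.mem_of_isAlgebraic (hE.alg (RAC_of_isAlgClosed k hk) hw hwk z hz)

/-- a vanishing sum has two terms of equal nonzero valuation. -/
theorem exists_pair_of_sum_zero {ι : Type*} [DecidableEq ι] (O : ValuationSubring K)
    (s : Finset ι) (f : ι → K) (hs : s.Nonempty) (hf : ∀ i ∈ s, f i ≠ 0)
    (h0 : ∑ i ∈ s, f i = 0) :
    ∃ i ∈ s, ∃ j ∈ s, i ≠ j ∧ O.valuation (f i) = O.valuation (f j) := by
  obtain ⟨j, hj, hmax⟩ := s.exists_max_image (fun i => O.valuation (f i)) hs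
  by_contra hcon
  push Not at hcon
  have hlt : ∀ i ∈ s.erase j, O.valuation (f i) < O.valuation (f j) := by
    intro i hi
    exact lt_of_le_of_ne (hmax i (Finset.mem_of_mem_erase hi))
      (hcon i (Finset.mem_of_mem_erase hi) j hj (Finset.ne_of_mem_erase hi))
  have hvj : O.valuation (f j) ≠ 0 := (Valuation.ne_zero_iff _).2 (hf j hj)
  have h1 : O.valuation (∑ i ∈ s.erase j, f i) < O.valuation (f j) :=
    Valuation.map_sum_lt _ hvj hlt
  have h2 := Finset.add_sum_erase s f hj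
  rw [h0] at h2
  have h3 : f j = - ∑ i ∈ s.erase j, f i := eq_neg_of_add_eq_zero_left h2
  rw [← Valuation.map_neg, ← h3] at h1
  exact lt_irrefl _ h1

theorem triv_of_rk2 {ℓ : ℕ} [Fact ℓ.Prime] {k E : Subfield K} (hk : IsAlgClosed k)
    (hE : Crv k E) {O : ValuationSubring K} (hOk : TrivOn O k)
    (h : Rk2 (VS ℓ E) (U1 ℓ O)) : TrivOn O E := by
  by_contra hOE
  have hex : ∃ c ∈ E, c ∉ O := by
    unfold TrivOn at hOE
    push Not at hOE
    exact hOE
  obtain ⟨c, hc, hcO⟩ := hex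
  have hc1 : 1 < O.valuation c := by
    rw [← not_le, O.valuation_le_one_iff]; exact hcO
  have hc0 : c ≠ 0 := by rintro rfl; exact hcO O.zero_mem
  set y : K := c⁻¹ with hy
  have hyE : y ∈ E := E.inv_mem hc
  have hy0 : y ≠ 0 := inv_ne_zero hc0
  have hy1 : O.valuation y < 1 := by
    rw [hy, map_inv₀]; exact inv_lt_one_of_one_lt₀ hc1
  have hyk : y ∉ k := by
    intro h'
    exact hy0 (hOk.eq_zero h' hy1)
  have hRk := RAC_of_isAlgClosed k hk
  -- elements of k(y)
  have hky : ∀ a ∈ adj k y, a ≠ 0 → ∃ n : ℤ, O.valuation a * O.valuation y ^ n = 1 := by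
    intro a ha ha0
    have ha' : a ∈ IntermediateField.adjoin k {y} := by
      have : a ∈ (IntermediateField.adjoin k {y}).toSubfield := by rw [← adj_eq]; exact ha
      exact this
    obtain ⟨n, d, hd, hd0, hlt⟩ := exists_residue hOk hy1 hy0 ha' ha0
    have h1 := val_of_sub (hOk.eq_one hd hd0) hlt
    refine ⟨n, ?_⟩
    rwa [map_mul, map_zpow₀] at h1
  have hvy : O.valuation y ≠ 0 := (Valuation.ne_zero_iff _).2 hy0
  -- the claim for one element
  have hclaim : ∀ u ∈ E, u ≠ 0 → ∃ n m : ℤ, n ≠ 0 ∧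
      O.valuation u ^ n * O.valuation y ^ m = 1 := by
    intro u hu hu0
    obtain ⟨P, hP0, hP⟩ := hE.alg hRk hyE hyk u hu
    have hvu : O.valuation u ≠ 0 := (Valuation.ne_zero_iff _).2 hu0
    rw [aeval_eq_sum_range] at hP
    have hsum : ∑ i ∈ P.support, ((P.coeff i : adj k y) : K) * u ^ i = 0 := by
      rw [← hP, ← Polynomial.aeval_eq_sum_range, aeval_eq_sum_range' (n := P.natDegree + 1)
        (Nat.lt_succ_self _)]
      rw [← Finset.sum_subset (Polynomial.supp_subset_range (Nat.lt_succ_self _))]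
      · refine Finset.sum_congr rfl fun i _ => ?_
        rw [Algebra.smul_def]
        rfl
      · intro i _ hi
        rw [notMem_support_iff.1 hi, zero_smul]
    obtain ⟨i, hi, j, hj, hij, hval⟩ := exists_pair_of_sum_zero O P.support
      (fun i => ((P.coeff i : adj k y) : K) * u ^ i) (Polynomial.nonempty_support_iff.2 hP0)
      (fun i hi => mul_ne_zero (fun h0 => mem_support_iff.1 hi (Subtype.ext h0))
        (pow_ne_zero _ hu0)) hsum
    simp only [map_mul, map_pow] at hval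
    obtain ⟨n, hn⟩ := hky _ (P.coeff i).2 (fun h0 => mem_support_iff.1 hi (Subtype.ext h0))
    obtain ⟨m, hm⟩ := hky _ (P.coeff j).2 (fun h0 => mem_support_iff.1 hj (Subtype.ext h0))
    refine ⟨(i : ℤ) - j, m - n, sub_ne_zero.2 (by exact_mod_cast hij), ?_⟩
    have hn' : O.valuation ((P.coeff i : adj k y) : K) = (O.valuation y ^ n)⁻¹ :=
      eq_inv_of_mul_eq_one_left hn
    have hm' : O.valuation ((P.coeff j : adj k y) : K) = (O.valuation y ^ m)⁻¹ :=
      eq_inv_of_mul_eq_one_left hm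
    rw [hn', hm'] at hval
    rw [zpow_sub₀ hvu, zpow_sub₀ hvy, zpow_natCast, zpow_natCast]
    have e1 : O.valuation y ^ n ≠ 0 := zpow_ne_zero _ hvy
    have e2 : O.valuation y ^ m ≠ 0 := zpow_ne_zero _ hvy
    have e3 : O.valuation u ^ i ≠ 0 := pow_ne_zero _ hvu
    have e4 : O.valuation u ^ j ≠ 0 := pow_ne_zero _ hvu
    have h5 : O.valuation u ^ i * O.valuation y ^ m = O.valuation u ^ j * O.valuation y ^ n := by
      field_simp at hval
      rw [hval, mul_comm]
    rw [div_mul_div_comm, h5]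
    exact div_self (mul_ne_zero e4 e1)
  obtain ⟨u0, hu0, v0, hv0, hind⟩ := h
  obtain ⟨u, hu, hu0', rfl⟩ := hu0
  obtain ⟨v, hv, hv0', rfl⟩ := hv0
  have hvu : O.valuation u ≠ 0 := (Valuation.ne_zero_iff _).2 hu0'
  have hvv : O.valuation v ≠ 0 := (Valuation.ne_zero_iff _).2 hv0'
  obtain ⟨n, m, hn0, hnm⟩ := hclaim u hu hu0'
  obtain ⟨n', m', hn0', hnm'⟩ := hclaim v hv hv0'
  -- a relation between u and v
  have hrel : ∃ p q : ℤ, (p ≠ 0 ∨ q ≠ 0) ∧ O.valuation u ^ p * O.valuation v ^ q = 1 := by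
    by_cases hm : m = 0
    · refine ⟨n, 0, Or.inl hn0, ?_⟩
      rw [hm, zpow_zero, mul_one] at hnm
      rw [hnm, zpow_zero, mul_one]
    · refine ⟨n * m', -(n' * m), Or.inr (neg_ne_zero.2 (mul_ne_zero hn0' hm)), ?_⟩
      have h1 : O.valuation u ^ (n * m') * O.valuation y ^ (m * m') = 1 := by
        rw [zpow_mul, zpow_mul, ← mul_zpow, hnm, one_zpow]
      have h2 : O.valuation v ^ (n' * m) * O.valuation y ^ (m' * m) = 1 := by
        rw [zpow_mul, zpow_mul, ← mul_zpow, hnm', one_zpow]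
      rw [mul_comm m' m] at h2
      rw [zpow_neg, eq_inv_of_mul_eq_one_left h1, eq_inv_of_mul_eq_one_left h2, inv_inv]
      exact inv_mul_cancel₀ (zpow_ne_zero _ hvy)
  obtain ⟨p, q, hpq, hrel⟩ := hrel
  -- divide by the gcd
  have hg : 0 < Int.gcd p q := Int.gcd_pos_iff.2 hpq
  obtain ⟨p', q', hcop, hp', hq'⟩ := Int.exists_gcd_one hg
  have hrel' : O.valuation u ^ p' * O.valuation v ^ q' = 1 := by
    have h1 : (O.valuation u ^ p' * O.valuation v ^ q') ^ (Int.gcd p q) = 1 := by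
      rw [mul_pow, ← zpow_natCast, ← zpow_natCast, ← zpow_mul, ← zpow_mul, ← hp', ← hq']
      exact hrel
    exact (pow_eq_one_iff_of_nonneg zero_le hg.ne').1 h1
  have hwE : u ^ p' * v ^ q' ∈ E := E.mul_mem (zpow_mem hu _) (zpow_mem hv _)
  have hw1 : O.valuation (u ^ p' * v ^ q') = 1 := by
    rw [map_mul, map_zpow₀, map_zpow₀]; exact hrel'
  obtain ⟨d, hd, hlt⟩ := exists_const hk hE hOk hOE hwE hw1
  have hd0 : d ≠ 0 := by
    rintro rfl
    rw [sub_zero, hw1] at hlt
    exact lt_irrefl _ hlt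
  have h1 := cl_sub_cl_mem_U1 (ℓ := ℓ) (hOk.eq_one hd hd0) hlt
  rw [line_cl_const hk hd, sub_zero, cl_mul ℓ (zpow_ne_zero _ hu0') (zpow_ne_zero _ hv0'),
    cl_zpow, cl_zpow, ← Int.cast_smul_eq_zsmul (ZMod ℓ), ← Int.cast_smul_eq_zsmul (ZMod ℓ)] at h1
  obtain ⟨h2, h3⟩ := hind _ _ h1
  rw [ZMod.intCast_zmod_eq_zero_iff_dvd] at h2 h3
  have h4 : (ℓ : ℤ) ∣ (Int.gcd p' q' : ℤ) := Int.dvd_coe_gcd h2 h3
  rw [hcop] at h4
  have h5 : (ℓ : ℤ) ∣ 1 := by exact_mod_cast h4
  have h6 : ℓ ∣ 1 := by exact_mod_cast h5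
  exact (Fact.out : ℓ.Prime).one_lt.ne' (Nat.dvd_one.1 h6)

end Vale.Agent.P019
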