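import Vale.Agent.P019.Gauss

/-!
# Valuations over the generic fibres of a rational function field
-/

namespace Vale.Agent.P019

open Polynomial Filter

variable {N : Type*} [Field N]

/-- `W` is trivial on `G` and `σ` specializes to `b`. -/
structure Over (W : ValuationSubring N) (G : Subfield N) (σ b : N) : Prop where
  triv : TrivOn W G
  lt : W.valuation (σ - b) < 1

theorem Over.mem {W : ValuationSubring N} {G : Subfield N} {σ b : N} (h : Over W G σ b)
    (hb : b ∈ G) : σ ∈ W := by
  have : σ = (σ - b) + b := by ring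
  rw [this]
  exact add_mem ((W.valuation_le_one_iff _).1 h.lt.le) (h.triv _ hb)

theorem aeval_sub_eval {W : ValuationSubring N} {G : Subfield N} {σ : N} {b : G}
    (h : Over W G σ b) (P : G[X]) : W.valuation (aeval σ P - (P.eval b : G)) < 1 := by
  obtain ⟨R, hR⟩ := X_sub_C_dvd_sub_C_eval (a := b) (p := P)
  have h1 := congrArg (aeval σ) hR
  rw [map_sub, aeval_C, map_mul, map_sub, aeval_X, aeval_C] at h1
  change aeval σ P - ((P.eval b : G) : N) = (σ - (b : N)) * aeval σ R at h1
  rw [h1, map_mul]
  refine lt_of_le_of_lt (mul_le_of_le_one_right' ?_) h.lt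
  rw [W.valuation_le_one_iff]
  exact aeval_mem (h.mem b.2) (fun i => h.triv _ (R.coeff i).2)

theorem eval_ne_zero_ae {G : Subfield N} {P : G[X]} (hP : P ≠ 0) :
    ∀ᶠ b : G in cofinite, P.eval b ≠ 0 := by
  rw [eventually_cofinite]
  refine (P.rootSet_finite G).subset ?_
  intro b hb
  rw [Set.mem_ofPred_eq, not_not] at hb
  rw [mem_rootSet]
  exact ⟨hP, by simpa using hb⟩

theorem unit_ae_of_mem {G : Subfield N} {σ h : N}
    (hh : h ∈ IntermediateField.adjoin G {σ}) (h0 : h ≠ 0) :
    ∀ᶠ b : G in cofinite, ∀ W : ValuationSubring N, Over W G σ b → W.valuation h = 1 := by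
  rw [IntermediateField.mem_adjoin_simple_iff] at hh
  obtain ⟨P, Q, rfl⟩ := hh
  have hP : P ≠ 0 := by rintro rfl; simp at h0
  have hQ : Q ≠ 0 := by rintro rfl; simp at h0
  filter_upwards [eval_ne_zero_ae hP, eval_ne_zero_ae hQ] with b hbP hbQ W hW
  have key : ∀ R : G[X], R.eval b ≠ 0 → W.valuation (aeval σ R) = 1 := by
    intro R hR
    refine val_of_sub (hW.triv.eq_one (R.eval b : G).2 ?_) (aeval_sub_eval hW R)
    intro h; exact hR (Subtype.ext h)
  rw [map_div₀, key P hbP, key Q hbQ, div_one]

theorem int_ae {G : Subfield N} {σ h : N}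
    (_hh : IsAlgebraic (IntermediateField.adjoin G {σ}) h) :
    ∀ᶠ b : G in cofinite, ∀ W : ValuationSubring N, Over W G σ b →
      IntCoeff W (minpoly (IntermediateField.adjoin G {σ}) h) := by
  set p := minpoly (IntermediateField.adjoin G {σ}) h with hp
  have h1 : ∀ᶠ b : G in cofinite, ∀ i ∈ p.support, ∀ W : ValuationSubring N, Over W G σ b →
      W.valuation (p.coeff i : N) = 1 := by
    rw [Filter.eventually_all_finset]
    intro i hi
    refine unit_ae_of_mem (p.coeff i).2 ?_
    intro h; exact (mem_support_iff.1 hi) (Subtype.ext h)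
  filter_upwards [h1] with b hb W hW i
  by_cases hi : i ∈ p.support
  · change (p.coeff i : N) ∈ W
    rw [← W.valuation_le_one_iff]; exact (hb i hi W hW).le
  · rw [notMem_support_iff.1 hi, map_zero]; exact zero_mem _

theorem mem_ae {G : Subfield N} {σ h : N}
    (hh : IsAlgebraic (IntermediateField.adjoin G {σ}) h) :
    ∀ᶠ b : G in cofinite, ∀ W : ValuationSubring N, Over W G σ b → h ∈ W := by
  filter_upwards [int_ae hh] with b hb W hW
  exact mem_of_root (minpoly.monic hh.isIntegral) (hb W hW) (minpoly.aeval _ _)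

theorem unit_ae {G : Subfield N} {σ h : N}
    (hh : IsAlgebraic (IntermediateField.adjoin G {σ}) h) (h0 : h ≠ 0) :
    ∀ᶠ b : G in cofinite, ∀ W : ValuationSubring N, Over W G σ b → W.valuation h = 1 := by
  filter_upwards [mem_ae hh, mem_ae hh.inv] with b hb hb' W hW
  refine le_antisymm ((W.valuation_le_one_iff _).2 (hb W hW)) ?_
  have h1 := (W.valuation_le_one_iff _).2 (hb' W hW)
  rw [map_inv₀] at h1
  have h2 : 0 < W.valuation h := zero_lt_iff.2 ((Valuation.ne_zero_iff _).2 h0)
  exact (inv_le_one₀ h2).1 h1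

theorem adjoin_sub (G : Subfield N) (σ : N) (b : G) :
    IntermediateField.adjoin G {σ - (b : N)} = IntermediateField.adjoin G {σ} := by
  apply le_antisymm
  · rw [IntermediateField.adjoin_simple_le_iff]
    exact sub_mem (IntermediateField.mem_adjoin_simple_self G σ)
      (IntermediateField.algebraMap_mem _ b)
  · rw [IntermediateField.adjoin_simple_le_iff]
    have : σ = (σ - (b : N)) + algebraMap G N b := by
      change σ = (σ - (b : N)) + (b : N)
      ring
    rw [this]
    exact add_mem (by
      have e : σ - (b : N) + algebraMap G N b - (b : N) = σ - (b : N) := by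
        change σ - (b : N) + (b : N) - (b : N) = σ - (b : N)
        ring
      rw [e]
      exact IntermediateField.mem_adjoin_simple_self G _) (IntermediateField.algebraMap_mem _ b)

/-- for almost all `b`, every valuation over `σ = b` has uniformizer `σ - b` and residue
field generated by `θ`. -/
theorem unif_ae [CharZero N] {G : Subfield N} {σ θ : N} (hσ : Transcendental G σ)
    (hθ : IsAlgebraic (IntermediateField.adjoin G {σ}) θ)
    (htop : ∀ z : N, z ∈ IntermediateField.adjoin (IntermediateField.adjoin G {σ}) {θ}) :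
    ∀ᶠ b : G in cofinite, ∀ W : ValuationSubring N, Over W G σ b →
      IsUnif W (σ - b) ∧ ∀ z : N, W.valuation z ≤ 1 → ∃ P Q : G[X], W.valuation (aeval θ Q) = 1 ∧
      W.valuation (z * aeval θ Q - aeval θ P) < 1 := by
  set F' := IntermediateField.adjoin G {σ} with hF'
  have hsep : (minpoly F' θ).Separable := (minpoly.irreducible hθ.isIntegral).separable
  have hder0 : aeval θ (derivative (minpoly F' θ)) ≠ 0 :=
    hsep.aeval_derivative_ne_zero (minpoly.aeval _ _)
  have halg : IsAlgebraic F' (aeval θ (derivative (minpoly F' θ))) := by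
    have := isAlgebraic_aeval (F := F'.toSubfield) (θ := θ) hθ (derivative (minpoly F' θ))
    exact this
  filter_upwards [int_ae hθ, unit_ae halg hder0] with b hb1 hb2 W hW
  have hX0 : σ - (b : N) ≠ 0 := by
    intro h
    rw [sub_eq_zero] at h
    apply hσ
    rw [h]
    exact isAlgebraic_algebraMap b
  exact gen_core θ hX0 hW.triv hW.lt F' (by rw [hF', adjoin_sub]) htop (minpoly F' θ)
    (minpoly.monic hθ.isIntegral) (hb1 W hW) (minpoly.aeval _ _) (hb2 W hW)

end Vale.Agent.P019
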