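import Vale.Agent.P019.Val

namespace Vale.Agent.P019

open scoped TensorProduct

section UFD

variable {A : Type*} (K : Type*) [CommRing A] [IsDomain A] [UniqueFactorizationMonoid A]
  [Field K] [Algebra A K] [IsFractionRing A K]

theorem exists_pow_mul (p : A) (hp : Prime p) (a : A) (ha : a ≠ 0) :
    ∃ (n : ℕ) (b : A), ¬ p ∣ b ∧ a = p ^ n * b := by
  have h : FiniteMultiplicity p a := FiniteMultiplicity.of_not_isUnit hp.not_isUnit ha
  obtain ⟨c, hc, hc'⟩ := h.exists_eq_pow_mul_and_not_dvd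
  exact ⟨_, c, hc', hc⟩

/-- The valuation subring of `K = Frac A` attached to a prime element `p` of the UFD `A`. -/
def Op (p : A) (hp : Prime p) : ValuationSubring K where
  carrier := {z | ∃ a b : A, ¬ p ∣ b ∧ z = algebraMap A K a / algebraMap A K b}
  mul_mem' := by
    rintro _ _ ⟨a, b, hb, rfl⟩ ⟨c, d, hd, rfl⟩
    refine ⟨a * c, b * d, ?_, by rw [map_mul, map_mul, div_mul_div_comm]⟩
    rw [hp.dvd_mul]; tauto
  one_mem' := ⟨1, 1, hp.not_dvd_one, by simp⟩
  add_mem' := by
    rintro _ _ ⟨a, b, hb, rfl⟩ ⟨c, d, hd, rfl⟩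
    have hb0 : algebraMap A K b ≠ 0 := by
      rw [Ne, IsFractionRing.to_map_eq_zero_iff]; rintro rfl; exact hb (dvd_zero p)
    have hd0 : algebraMap A K d ≠ 0 := by
      rw [Ne, IsFractionRing.to_map_eq_zero_iff]; rintro rfl; exact hd (dvd_zero p)
    refine ⟨a * d + b * c, b * d, ?_, ?_⟩
    · rw [hp.dvd_mul]; tauto
    · rw [div_add_div _ _ hb0 hd0]; simp
  zero_mem' := ⟨0, 1, hp.not_dvd_one, by simp⟩
  neg_mem' := by
    rintro _ ⟨a, b, hb, rfl⟩
    exact ⟨-a, b, hb, by rw [map_neg, neg_div]⟩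
  mem_or_inv_mem' := by
    intro z
    obtain ⟨a, b, hb, rfl⟩ := IsFractionRing.div_surjective (A := A) z
    have hb0 : b ≠ 0 := nonZeroDivisors.ne_zero hb
    by_cases ha : a = 0
    · left; exact ⟨0, 1, hp.not_dvd_one, by simp [ha]⟩
    obtain ⟨m, a', ha', rfl⟩ := exists_pow_mul p hp a ha
    obtain ⟨n, b', hb', rfl⟩ := exists_pow_mul p hp b hb0
    have hp0 : algebraMap A K p ≠ 0 := by
      rw [Ne, IsFractionRing.to_map_eq_zero_iff]; exact hp.ne_zero
    have hb'0 : algebraMap A K b' ≠ 0 := by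
      rw [Ne, IsFractionRing.to_map_eq_zero_iff]; rintro rfl; exact hb' (dvd_zero p)
    have ha'0 : algebraMap A K a' ≠ 0 := by
      rw [Ne, IsFractionRing.to_map_eq_zero_iff]; rintro rfl; exact ha' (dvd_zero p)
    rcases le_total n m with h | h
    · left
      refine ⟨p ^ (m - n) * a', b', hb', ?_⟩
      obtain ⟨c, rfl⟩ := Nat.exists_eq_add_of_le h
      simp only [map_mul, map_pow, Nat.add_sub_cancel_left]
      field_simp
      ring
    · right
      refine ⟨p ^ (n - m) * b', a', ha', ?_⟩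
      obtain ⟨c, rfl⟩ := Nat.exists_eq_add_of_le h
      simp only [map_mul, map_pow, Nat.add_sub_cancel_left]
      field_simp
      ring

variable {K}

theorem mem_Op {p : A} {hp : Prime p} {z : K} :
    z ∈ Op K p hp ↔ ∃ a b : A, ¬ p ∣ b ∧ z = algebraMap A K a / algebraMap A K b := Iff.rfl

theorem Op_le (p : A) (hp : Prime p) (a : A) : (Op K p hp).valuation (algebraMap A K a) ≤ 1 := by
  rw [ValuationSubring.valuation_le_one_iff]
  exact ⟨a, 1, hp.not_dvd_one, by simp⟩

theorem Op_eq_one {p : A} (hp : Prime p) {a : A} (ha : ¬ p ∣ a) :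
    (Op K p hp).valuation (algebraMap A K a) = 1 := by
  apply le_antisymm (Op_le p hp a)
  have ha0 : algebraMap A K a ≠ 0 := by
    rw [Ne, IsFractionRing.to_map_eq_zero_iff]; rintro rfl; exact ha (dvd_zero p)
  have h1 : (algebraMap A K a)⁻¹ ∈ Op K p hp := ⟨1, a, ha, by simp⟩
  rw [← ValuationSubring.valuation_le_one_iff, map_inv₀] at h1
  exact (inv_le_one₀ (by rw [Valuation.pos_iff]; exact ha0)).1 h1

theorem Op_lt {p : A} (hp : Prime p) {a : A} (ha : p ∣ a) :
    (Op K p hp).valuation (algebraMap A K a) < 1 := by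
  have key : (Op K p hp).valuation (algebraMap A K p) < 1 := by
    apply lt_of_le_of_ne (Op_le p hp p)
    intro h
    have hp0 : algebraMap A K p ≠ 0 := by
      rw [Ne, IsFractionRing.to_map_eq_zero_iff]; exact hp.ne_zero
    have h1 : (algebraMap A K p)⁻¹ ∈ Op K p hp := by
      rw [← ValuationSubring.valuation_le_one_iff, map_inv₀, h, inv_one]
    obtain ⟨a, b, hb, hab⟩ := h1
    have hb0 : algebraMap A K b ≠ 0 := by
      rw [Ne, IsFractionRing.to_map_eq_zero_iff]; rintro rfl; exact hb (dvd_zero p)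
    apply hb
    refine ⟨a, ?_⟩
    apply IsFractionRing.injective A K
    rw [map_mul]
    field_simp at hab
    rw [mul_comm]; rw [hab]
    first | rfl | ring
  obtain ⟨b, rfl⟩ := ha
  rw [map_mul, map_mul]
  exact mul_lt_one_of_lt_of_le key (Op_le p hp b)

theorem Op_lt_iff {p : A} (hp : Prime p) {a : A} :
    (Op K p hp).valuation (algebraMap A K a) < 1 ↔ p ∣ a := by
  refine ⟨fun h => ?_, Op_lt hp⟩
  by_contra hn
  exact h.ne (Op_eq_one hp hn)

theorem Op_eq_one_iff {p : A} (hp : Prime p) {a : A} :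
    (Op K p hp).valuation (algebraMap A K a) = 1 ↔ ¬ p ∣ a := by
  refine ⟨fun h hn => ?_, Op_eq_one hp⟩
  exact (Op_lt hp hn).ne h

theorem Op_unif (p : A) (hp : Prime p) : IsUnif (Op K p hp) (algebraMap A K p) where
  ne := by rw [Ne, IsFractionRing.to_map_eq_zero_iff]; exact hp.ne_zero
  lt := Op_lt hp dvd_rfl
  rep := by
    intro z hz
    obtain ⟨a, b, hb, rfl⟩ := IsFractionRing.div_surjective (A := A) z
    have hb0 : b ≠ 0 := nonZeroDivisors.ne_zero hb
    have ha : a ≠ 0 := by rintro rfl; simp at hz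
    obtain ⟨m, a', ha', rfl⟩ := exists_pow_mul p hp a ha
    obtain ⟨n, b', hb', rfl⟩ := exists_pow_mul p hp b hb0
    have hp0 : algebraMap A K p ≠ 0 := by
      rw [Ne, IsFractionRing.to_map_eq_zero_iff]; exact hp.ne_zero
    refine ⟨(n : ℤ) - m, ?_⟩
    have : algebraMap A K (p ^ m * a') / algebraMap A K (p ^ n * b') *
        algebraMap A K p ^ ((n : ℤ) - m) = algebraMap A K a' / algebraMap A K b' := by
      rw [zpow_sub₀ hp0, zpow_natCast, zpow_natCast]
      simp only [map_mul, map_pow]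
      have hb'0 : algebraMap A K b' ≠ 0 := by
        rw [Ne, IsFractionRing.to_map_eq_zero_iff]; rintro rfl; exact hb' (dvd_zero p)
      field_simp
    rw [this, map_div₀, Op_eq_one hp ha', Op_eq_one hp hb', div_one]

theorem Op_congr {p q : A} (hp : Prime p) (hq : Prime q) (h : Associated p q) :
    Op K p hp = Op K q hq := by
  ext z
  rw [mem_Op, mem_Op]
  simp only [h.dvd_iff_dvd_left]

variable (A K) in
/-- The set of valuation subrings attached to the prime elements of `A`. -/
def primeVals : Set (ValuationSubring K) := {O | ∃ (p : A) (hp : Prime p), O = Op K p hp}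

/-- Every nonzero element of `K` is a unit for all but finitely many prime valuations. -/
theorem finite_supp (z : K) (hz : z ≠ 0) :
    {O ∈ primeVals A K | O.valuation z ≠ 1}.Finite := by
  classical
  have key : ∀ a : A, a ≠ 0 →
      {O ∈ primeVals A K | O.valuation (algebraMap A K a) ≠ 1}.Finite := by
    intro a ha
    induction a using UniqueFactorizationMonoid.induction_on_prime with
    | h₁ => exact absurd rfl ha
    | h₂ x hx =>
      convert Set.finite_empty
      ext O
      simp only [Set.mem_ofPred_eq, Set.mem_empty_iff_false, iff_false, not_and, not_not]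
      rintro ⟨p, hp, rfl⟩
      exact Op_eq_one hp (fun h => hp.not_isUnit (isUnit_of_dvd_unit h hx))
    | h₃ a p ha0 hp ih =>
      refine ((ih ha0).union (Set.finite_singleton (Op K p hp))).subset ?_
      rintro O ⟨⟨q, hq, rfl⟩, hO⟩
      by_cases hqp : q ∣ p
      · right
        have := (hp.dvd_prime_iff_associated hq)
        exact Op_congr hq hp ((hq.dvd_prime_iff_associated hp).1 hqp)
      · left
        refine ⟨⟨q, hq, rfl⟩, ?_⟩
        intro h
        apply hO
        rw [Op_eq_one_iff] at h ⊢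
        rw [hq.dvd_mul]; tauto
  obtain ⟨a, b, hb, rfl⟩ := IsFractionRing.div_surjective (A := A) z
  have hb0 : b ≠ 0 := nonZeroDivisors.ne_zero hb
  have ha : a ≠ 0 := by rintro rfl; simp at hz
  refine ((key a ha).union (key b hb0)).subset ?_
  rintro O ⟨hO, hO'⟩
  by_contra hcon
  simp only [Set.mem_union, Set.mem_ofPred_eq, not_or, not_and, not_not] at hcon
  apply hO'
  rw [map_div₀, hcon.1 hO, hcon.2 hO, div_one]

end UFD

section fn

variable {K : Type*} [Field K]

theorem IsUnif.zpow_eq_one {O : ValuationSubring K} {π : K} (h : IsUnif O π) {n : ℤ}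
    (hn : O.valuation (π ^ n) = 1) : n = 0 := by
  rw [map_zpow₀] at hn
  have h0 : O.valuation π ≠ 0 := by rw [Valuation.ne_zero_iff]; exact h.ne
  rcases lt_trichotomy n 0 with h1 | h1 | h1
  · exfalso
    have : O.valuation π ^ (-n) = 1 := by rw [zpow_neg, hn, inv_one]
    have h2 : O.valuation π ^ (-n) < 1 := by
      obtain ⟨m, hm⟩ := Int.eq_ofNat_of_zero_le (a := -n) (by omega)
      rw [hm, zpow_natCast]
      exact pow_lt_one₀ zero_le h.lt (by omega)
    exact h2.ne this
  · exact h1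
  · exfalso
    have h2 : O.valuation π ^ n < 1 := by
      obtain ⟨m, hm⟩ := Int.eq_ofNat_of_zero_le (a := n) (by omega)
      rw [hm, zpow_natCast]
      exact pow_lt_one₀ zero_le h.lt (by omega)
    exact h2.ne hn

/-- the order of `z` : the integer `n` with `z = π ^ n * unit` (and `0` for `z = 0`). -/
noncomputable def IsUnif.ord {O : ValuationSubring K} {π : K} (h : IsUnif O π) (z : K) : ℤ := by
  classical exact if hz : z = 0 then 0 else -(h.rep z hz).choose

theorem IsUnif.ord_spec {O : ValuationSubring K} {π : K} (h : IsUnif O π) {z : K} (hz : z ≠ 0) :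
    O.valuation (z * π ^ (- h.ord z)) = 1 := by
  unfold IsUnif.ord
  rw [dif_neg hz, neg_neg]
  exact (h.rep z hz).choose_spec

theorem IsUnif.ord_unique {O : ValuationSubring K} {π : K} (h : IsUnif O π) {z : K} (hz : z ≠ 0)
    {n : ℤ} (hn : O.valuation (z * π ^ (- n)) = 1) : h.ord z = n := by
  have h1 := h.ord_spec hz
  have h2 : O.valuation (π ^ (h.ord z - n)) = 1 := by
    have hπ := h.ne
    have : π ^ (h.ord z - n) = (z * π ^ (-n)) / (z * π ^ (- h.ord z)) := by
      rw [sub_eq_add_neg, zpow_add₀ hπ, zpow_neg, zpow_neg]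
      have := zpow_ne_zero n hπ
      have := zpow_ne_zero (h.ord z) hπ
      field_simp
    rw [this, map_div₀, h1, hn, div_one]
  have := h.zpow_eq_one h2
  omega

theorem IsUnif.ord_mul {O : ValuationSubring K} {π : K} (h : IsUnif O π) {z w : K} (hz : z ≠ 0)
    (hw : w ≠ 0) : h.ord (z * w) = h.ord z + h.ord w := by
  apply h.ord_unique (mul_ne_zero hz hw)
  have hπ := h.ne
  have : z * w * π ^ (-(h.ord z + h.ord w)) =
      (z * π ^ (- h.ord z)) * (w * π ^ (- h.ord w)) := by
    rw [neg_add, zpow_add₀ hπ]; ring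
  rw [this, map_mul, h.ord_spec hz, h.ord_spec hw, mul_one]

theorem IsUnif.ord_self {O : ValuationSubring K} {π : K} (h : IsUnif O π) : h.ord π = 1 := by
  apply h.ord_unique h.ne
  rw [zpow_neg, zpow_one, mul_inv_cancel₀ h.ne, map_one]

theorem IsUnif.ord_eq_zero_iff {O : ValuationSubring K} {π : K} (h : IsUnif O π) {z : K}
    (hz : z ≠ 0) : h.ord z = 0 ↔ O.valuation z = 1 := by
  constructor
  · intro h0
    have := h.ord_spec hz
    rw [h0] at this
    simpa using this
  · intro h0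
    apply h.ord_unique hz
    simpa using h0

theorem IsUnif.ord_pos_iff {O : ValuationSubring K} {π : K} (h : IsUnif O π) {z : K}
    (hz : z ≠ 0) : 0 < h.ord z ↔ O.valuation z < 1 := by
  have hs := h.ord_spec hz
  have hπ := h.ne
  have e : O.valuation z = O.valuation π ^ h.ord z := by
    have : z = (z * π ^ (- h.ord z)) * π ^ (h.ord z) := by
      rw [mul_assoc, ← zpow_add₀ hπ]; simp
    rw [this, map_mul, hs, one_mul, map_zpow₀]
    congr 1
    rw [← this]
  constructor
  · intro h1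
    obtain ⟨m, hm⟩ := Int.eq_ofNat_of_zero_le h1.le
    rw [e, hm, zpow_natCast]
    exact pow_lt_one₀ zero_le h.lt (by omega)
  · intro h1
    by_contra hcon
    push Not at hcon
    obtain ⟨m, hm⟩ := Int.eq_ofNat_of_zero_le (a := - h.ord z) (by omega)
    have h2 : h.ord z = -(m : ℤ) := by omega
    rw [e, h2, zpow_neg, zpow_natCast] at h1
    have h3 : O.valuation π ^ m ≤ 1 := pow_le_one₀ zero_le h.lt.le
    have h0 : 0 < O.valuation π ^ m := by
      rw [← map_pow, Valuation.pos_iff]; exact pow_ne_zero _ hπ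
    have := (inv_lt_one₀ h0).1 h1
    exact absurd this (not_lt.2 h3)

/-- the functional `V → ZMod ℓ` given by the order modulo `ℓ`. -/
noncomputable def IsUnif.fn (ℓ : ℕ) {O : ValuationSubring K} {π : K} (h : IsUnif O π) :
    V ℓ K →ₗ[ZMod ℓ] ZMod ℓ :=
  V.lift
    { toFun := fun x => Multiplicative.ofAdd ((h.ord (x : K) : ℤ) : ZMod ℓ)
      map_one' := by
        have : h.ord (1 : K) = 0 := (h.ord_eq_zero_iff one_ne_zero).2 (by simp)
        simp [this]
      map_mul' := by
        intro x y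
        rw [Units.val_mul, h.ord_mul x.ne_zero y.ne_zero, Int.cast_add, ofAdd_add] }

theorem IsUnif.fn_cl (ℓ : ℕ) {O : ValuationSubring K} {π : K} (h : IsUnif O π) {z : K}
    (hz : z ≠ 0) : h.fn ℓ (cl ℓ z) = ((h.ord z : ℤ) : ZMod ℓ) := by
  rw [cl_of_ne ℓ hz]
  rfl

theorem IsUnif.fn_unit (ℓ : ℕ) {O : ValuationSubring K} {π : K} (h : IsUnif O π) (z : K)
    (hz : O.valuation z = 1) : h.fn ℓ (cl ℓ z) = 0 := by
  have hz0 : z ≠ 0 := by rintro rfl; simp at hz
  rw [h.fn_cl ℓ hz0, (h.ord_eq_zero_iff hz0).2 hz]; simp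

theorem IsUnif.fn_self (ℓ : ℕ) {O : ValuationSubring K} {π : K} (h : IsUnif O π) :
    h.fn ℓ (cl ℓ π) = 1 := by
  rw [h.fn_cl ℓ h.ne, h.ord_self]; simp

/-- every functional trivial on units is a multiple of `fn`. -/
theorem IsUnif.eq_smul_fn (ℓ : ℕ) {O : ValuationSubring K} {π : K} (h : IsUnif O π)
    (f : V ℓ K →ₗ[ZMod ℓ] ZMod ℓ) (hf : ∀ z, O.valuation z = 1 → f (cl ℓ z) = 0) (v : V ℓ K) :
    f v = f (cl ℓ π) * h.fn ℓ v := by
  obtain ⟨z, hz, rfl⟩ := cl_surj ℓ v
  have hs := h.ord_spec hz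
  have hπ := h.ne
  have e : z = (z * π ^ (- h.ord z)) * π ^ (h.ord z) := by
      rw [mul_assoc, ← zpow_add₀ hπ]; simp
  rw [h.fn_cl ℓ hz]
  conv_lhs => rw [e]
  rw [cl_mul ℓ (mul_ne_zero hz (zpow_ne_zero _ hπ)) (zpow_ne_zero _ hπ), map_add, hf _ hs,
    zero_add, cl_zpow, map_zsmul, zsmul_eq_mul, mul_comm]

end fn

section UFD2

variable {A K : Type*} [CommRing A] [IsDomain A] [UniqueFactorizationMonoid A]
  [Field K] [Algebra A K] [IsFractionRing A K]

theorem unif_of_mem_primeVals {O : ValuationSubring K} (hO : O ∈ primeVals A K) :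
    ∃ π : K, IsUnif O π := by
  obtain ⟨p, hp, rfl⟩ := hO
  exact ⟨_, Op_unif p hp⟩

/-- the normalized order functional of a prime valuation (zero for other valuation subrings). -/
noncomputable def pfn (ℓ : ℕ) (O : ValuationSubring K) : V ℓ K →ₗ[ZMod ℓ] ZMod ℓ := by
  classical exact if h : ∃ π : K, IsUnif O π then h.choose_spec.fn ℓ else 0

end UFD2

section UFD3

variable {A K : Type*} [CommRing A] [IsDomain A] [UniqueFactorizationMonoid A]
  [Field K] [Algebra A K] [IsFractionRing A K]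

theorem algebraMap_ne_zero' {a : A} (ha : a ≠ 0) : algebraMap A K a ≠ 0 := by
  rw [Ne, IsFractionRing.to_map_eq_zero_iff]; exact ha

theorem ord_eq_zero_of_not_dvd {p : A} (hp : Prime p) {a : A} (ha : ¬ p ∣ a) :
    (Op_unif (K := K) p hp).ord (algebraMap A K a) = 0 := by
  have ha0 : a ≠ 0 := by rintro rfl; exact ha (dvd_zero p)
  rw [(Op_unif (K := K) p hp).ord_eq_zero_iff (algebraMap_ne_zero' ha0)]
  exact Op_eq_one hp ha

theorem exists_pow_of_ord (ℓ : ℕ) (hu : ∀ u : Aˣ, ∃ w : A, w ^ ℓ = (u : A)) (a : A)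
    (ha : a ≠ 0) (h : ∀ (p : A) (hp : Prime p), (ℓ : ℤ) ∣ (Op_unif (K := K) p hp).ord (algebraMap A K a)) :
    ∃ w : A, a = w ^ ℓ := by
  classical
  induction a using UniqueFactorizationMonoid.induction_on_coprime with
  | h0 => exact absurd rfl ha
  | h1 hx =>
    obtain ⟨u, rfl⟩ := hx
    obtain ⟨w, hw⟩ := hu u
    exact ⟨w, hw.symm⟩
  | hpr i hp =>
    rename_i p
    have h1 := h p hp
    have h2 : (Op_unif (K := K) p hp).ord (algebraMap A K (p ^ i)) = i := by
      apply (Op_unif (K := K) p hp).ord_unique (algebraMap_ne_zero' ha)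
      rw [map_pow, zpow_neg, zpow_natCast, mul_inv_cancel₀, map_one]
      exact pow_ne_zero _ (algebraMap_ne_zero' hp.ne_zero)
    rw [h2] at h1
    obtain ⟨c, hc⟩ := Int.natCast_dvd_natCast.1 h1
    exact ⟨p ^ c, by rw [hc, ← pow_mul, mul_comm]⟩
  | hcp hxy ihx ihy =>
    rename_i x y
    have hx : x ≠ 0 := left_ne_zero_of_mul ha
    have hy : y ≠ 0 := right_ne_zero_of_mul ha
    have hdisj : ∀ (p : A) (hp : Prime p), (Op_unif (K := K) p hp).ord (algebraMap A K x) = 0 ∨
        (Op_unif (K := K) p hp).ord (algebraMap A K y) = 0 := by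
      intro p hp
      by_cases h1 : p ∣ x
      · right
        apply ord_eq_zero_of_not_dvd
        intro h2
        exact hp.not_isUnit (hxy h1 h2)
      · left; exact ord_eq_zero_of_not_dvd hp h1
    have hmul : ∀ (p : A) (hp : Prime p), (Op_unif (K := K) p hp).ord (algebraMap A K (x * y)) =
        (Op_unif (K := K) p hp).ord (algebraMap A K x) +
        (Op_unif (K := K) p hp).ord (algebraMap A K y) := by
      intro p hp
      rw [map_mul, IsUnif.ord_mul _ (algebraMap_ne_zero' hx) (algebraMap_ne_zero' hy)]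
    obtain ⟨w, hw⟩ := ihx hx (by
      intro p hp
      rcases hdisj p hp with h1 | h1
      · rw [h1]; exact dvd_zero _
      · have := h p hp; rw [hmul, h1, add_zero] at this; exact this)
    obtain ⟨w', hw'⟩ := ihy hy (by
      intro p hp
      rcases hdisj p hp with h1 | h1
      · have := h p hp; rw [hmul, h1, zero_add] at this; exact this
      · rw [h1]; exact dvd_zero _)
    exact ⟨w * w', by rw [mul_pow, ← hw, ← hw']⟩

theorem eq_zero_of_fn {ℓ : ℕ} [Fact ℓ.Prime] (hu : ∀ u : Aˣ, ∃ w : A, w ^ ℓ = (u : A))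
    (v : V ℓ K) (h : ∀ (p : A) (hp : Prime p), (Op_unif (K := K) p hp).fn ℓ v = 0) : v = 0 := by
  obtain ⟨z, hz, rfl⟩ := cl_surj ℓ v
  obtain ⟨a, b, hb, rfl⟩ := IsFractionRing.div_surjective (A := A) z
  have hb0 : b ≠ 0 := nonZeroDivisors.ne_zero hb
  have ha0 : a ≠ 0 := by rintro rfl; simp at hz
  have hℓ : 0 < ℓ := (Fact.out : ℓ.Prime).pos
  have e : algebraMap A K a / algebraMap A K b =
      algebraMap A K (a * b ^ (ℓ - 1)) * ((algebraMap A K b)⁻¹) ^ ℓ := by
    have h1 : algebraMap A K b ≠ 0 := algebraMap_ne_zero' hb0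
    have h2 : ℓ = (ℓ - 1) + 1 := by omega
    generalize ℓ - 1 = m at h2
    subst h2
    rw [map_mul, map_pow, inv_pow, pow_succ]
    field_simp
  have h0 : a * b ^ (ℓ - 1) ≠ 0 := mul_ne_zero ha0 (pow_ne_zero _ hb0)
  have e2 : cl ℓ (algebraMap A K a / algebraMap A K b) = cl ℓ (algebraMap A K (a * b ^ (ℓ - 1))) := by
    rw [e, cl_mul ℓ (algebraMap_ne_zero' h0) (pow_ne_zero _ (inv_ne_zero (algebraMap_ne_zero' hb0))),
      cl_pow_self, add_zero]
  rw [e2] at h ⊢
  obtain ⟨w, hw⟩ := exists_pow_of_ord (K := K) ℓ hu (a * b ^ (ℓ - 1)) h0 (by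
    intro p hp
    have := h p hp
    rw [IsUnif.fn_cl ℓ _ (algebraMap_ne_zero' h0)] at this
    exact (ZMod.intCast_zmod_eq_zero_iff_dvd _ _).1 this)
  rw [hw, map_pow, cl_pow_self]

end UFD3

end Vale.Agent.P019
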