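import Vale.Agent.P019.Local
import Vale.Agent.P019.Prime

namespace Vale.Agent.P019

open scoped TensorProduct

variable {ℓ : ℕ} [Fact ℓ.Prime] {K L : Type*} [Field K] [Field L]

/-- if `f` is nonzero on all uniformizers, `U1 ≤ H f`. -/
theorem U1_le_H {W : ValuationSubring K} {π : K} (hW : IsUnif W π) :
    U1 ℓ W ≤ H (hW.fn ℓ) := by
  -- first: elements `1 + m` with `ord m = 1`
  have h1 : ∀ m : K, m ≠ 0 → hW.ord m = 1 → cl ℓ (1 + m) ∈ H (hW.fn ℓ) := by
    intro m hm0 hm g hg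
    have hlt : W.valuation m < 1 := (hW.ord_pos_iff hm0).1 (by rw [hm]; exact one_pos)
    have h2 := hg (-m)
    have e1 : (1 : K) - -m = 1 + m := by ring
    have hne : (-m) ≠ 0 := neg_ne_zero.2 hm0
    have e2 : (hW.fn ℓ) (cl ℓ (1 + m)) = 0 := hW.fn_unit ℓ _ (val_one_add hlt)
    have e3 : hW.ord (-m) = 1 := by
      have : -m = (-1) * m := by ring
      rw [this, hW.ord_mul (by norm_num) hm0, hm,
        (hW.ord_eq_zero_iff (by norm_num)).2 (by rw [Valuation.map_neg, map_one]), zero_add]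
    have e4 : (hW.fn ℓ) (cl ℓ (-m)) = 1 := by
      rw [hW.fn_cl ℓ hne, e3]; simp
    rw [e1, e2, e4, one_mul, zero_mul] at h2
    exact h2
  rintro _ ⟨m, hm, rfl⟩
  by_cases hm0 : m = 0
  · rw [hm0, add_zero, cl_one]; exact Submodule.zero_mem _
  by_cases hord : hW.ord m = 1
  · exact h1 m hm0 hord
  have hpos : 0 < hW.ord m := (hW.ord_pos_iff hm0).2 hm
  have hπ1 : W.valuation (m / π) < 1 := by
    have hne : m / π ≠ 0 := div_ne_zero hm0 hW.ne
    refine (hW.ord_pos_iff hne).1 ?_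
    have : hW.ord m = hW.ord (m / π) + hW.ord π := by
      rw [← hW.ord_mul hne hW.ne, div_mul_cancel₀ _ hW.ne]
    rw [hW.ord_self] at this
    omega
  have hne1 : 1 + π ≠ 0 := one_add_ne_zero hW.lt
  set m' := (m - π) / (1 + π) with hm'
  have e : 1 + m = (1 + π) * (1 + m') := by
    rw [hm']; field_simp; ring
  have hval : W.valuation (m / π - 1) = 1 := by
    have : m / π - 1 = -(1 + -(m / π)) := by ring
    rw [this, Valuation.map_neg]
    exact val_one_add (by rwa [Valuation.map_neg])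
  have hm'0 : m' ≠ 0 := by
    intro h
    rw [hm', div_eq_zero_iff] at h
    rcases h with h | h
    · have : m / π - 1 = 0 := by
        rw [sub_eq_zero] at h; rw [h, div_self hW.ne, sub_self]
      rw [this, map_zero] at hval
      exact zero_ne_one hval
    · exact hne1 h
  have hord' : hW.ord m' = 1 := by
    have e2 : m' * (1 + π) = (m / π - 1) * π := by
      rw [hm']; field_simp [hW.ne]
    have hne3 : m / π - 1 ≠ 0 := by
      intro h; rw [h, map_zero] at hval; exact zero_ne_one hval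
    have e3 := congrArg hW.ord e2
    rw [hW.ord_mul hm'0 hne1, hW.ord_mul hne3 hW.ne, hW.ord_self,
      (hW.ord_eq_zero_iff hne3).2 hval, (hW.ord_eq_zero_iff hne1).2 (val_one_add hW.lt)] at e3
    omega
  have hlt' : W.valuation m' < 1 := (hW.ord_pos_iff hm'0).1 (by rw [hord']; exact one_pos)
  rw [e, cl_mul ℓ hne1 (one_add_ne_zero hlt')]
  exact Submodule.add_mem _ (h1 π hW.ne hW.ord_self) (h1 m' hm'0 hord')

theorem H_fn_eq (hneg : ∃ i : K, i ^ ℓ = -1) {W : ValuationSubring K} {π : K}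
    (hW : IsUnif W π) : H (hW.fn ℓ) = U1 ℓ W :=
  le_antisymm (H_le_U1 hneg W _ (fun z hz => hW.fn_unit ℓ z hz)) (U1_le_H hW)

/-- transfer of a discrete valuation ring through a compatible isomorphism. -/
theorem transfer {Θ : V ℓ K ≃ₗ[ZMod ℓ] V ℓ L} (hΘ : Compatible Θ)
    (hnegK : ∃ i : K, i ^ ℓ = -1) (hnegL : ∃ i : L, i ^ ℓ = -1) {W : ValuationSubring K} {π : K}
    (hW : IsUnif W π) (g₀ : K)
    (h₀ : ∀ i j : ZMod ℓ, i • cl ℓ g₀ + j • cl ℓ (1 - g₀) ∈ U1 ℓ W → i = 0 ∧ j = 0) :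
    ∃ O : ValuationSubring L, (∀ z, O.valuation z = 1 → hW.fn ℓ (Θ.symm (cl ℓ z)) = 0) ∧
      (∀ v, Θ v ∈ U1 ℓ O ↔ v ∈ U1 ℓ W) := by
  have hH := H_fn_eq hnegK hW
  obtain ⟨O, h1, h2⟩ := exists_transfer hΘ hnegL (hW.fn ℓ) g₀ (by rw [hH]; exact h₀)
  refine ⟨O, h1, fun v => ⟨?_, ?_⟩⟩
  · rintro ⟨m, hm, hv⟩
    have := h2 m hm
    rw [← hv, LinearEquiv.symm_apply_apply, hH] at this
    exact this
  · intro hv
    have h3 : H ((hW.fn ℓ) ∘ₗ Θ.symm.toLinearMap) ≤ U1 ℓ O :=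
      H_le_U1 hnegL O _ (fun z hz => h1 z hz)
    apply h3
    rw [← hH] at hv
    have := (hΘ.symm.mem_H (f := hW.fn ℓ) (v := Θ v))
    rw [LinearEquiv.symm_apply_apply] at this
    exact this.1 hv

end Vale.Agent.P019
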