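import Vale.Agent.P019.CoreB
import Vale.Agent.P019.Line
import Vale.Agent.P019.FinK

/-!
# Finite kernels and ranks modulo `U1`
-/

namespace Vale.Agent.P019

open Polynomial Filter

variable {K : Type*} [Field K] {ℓ : ℕ} [Fact ℓ.Prime]

theorem Nice.finite [CharZero K] {k F E : Subfield K} (hk : IsAlgClosed k) (hkF : k ≤ F)
    (hfg : FG k F) {W : ValuationSubring K} {π θ : K} (hW : Nice W F π θ) (hkE : k ≤ E)
    (hEW : TrivOn W E) :
    ((U1 ℓ W ⊓ VS ℓ E : Submodule (ZMod ℓ) (V ℓ K)) : Set (V ℓ K)).Finite := by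
  have hkW : TrivOn W k := hW.triv.mono hkF
  have := rs_charZero hEW
  have hfgN : FG (bar hkW) (⊤ : Subfield (IsLocalRing.ResidueField W)) :=
    hW.fg hkF hfg hkW
  have hfgE : FG (bar hEW) (⊤ : Subfield (IsLocalRing.ResidueField W)) :=
    hfgN.mono (bar_mono hkW hEW hkE) le_top
  obtain ⟨ζ, hζk, hζ⟩ := finK_prim (bar_isAlgClosed hkW hk) ℓ
  obtain ⟨N, hN⟩ := fk ℓ hfgE (bar_mono hkW hEW hkE hζk) hζ
  by_contra hinf
  have hinf' : ((U1 ℓ W ⊓ VS ℓ E : Submodule (ZMod ℓ) (V ℓ K)) : Set (V ℓ K)).Infinite := hinf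
  let f := hinf'.natEmbedding
  have hf : ∀ n : ℕ, ∃ e ∈ E, e ≠ 0 ∧ ((f n : V ℓ K)) = cl ℓ e ∧ cl ℓ e ∈ U1 ℓ W := by
    intro n
    obtain ⟨h1, h2⟩ := Submodule.mem_inf.1 (f n).2
    obtain ⟨e, he, he0, h⟩ := mem_VS.1 h2
    exact ⟨e, he, he0, h, h ▸ h1⟩
  choose e heE he0 hfe heU using hf
  have hval : ∀ n, W.valuation (e n) = 1 := fun n => hEW.eq_one (heE n) (he0 n)
  obtain ⟨i, j, hij, y, hy, hy0, hxy⟩ := hN (fun i => rs W (e i)) (by
    intro i
    have h1 : rs W (e i) ≠ 0 := (rs_ne_zero (hEW _ (heE i))).2 (hval i)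
    refine ⟨rs_mem_bar hEW (heE i), h1, ?_⟩
    obtain ⟨w, _, hw⟩ := (cl_eq_zero_iff ℓ h1).1 ((cl_mem_U1_iff (hval i)).1 (heU i))
    exact ⟨w, Subfield.mem_top w, hw⟩)
  obtain ⟨e', he', rfl⟩ := (mem_bar hEW).1 hy
  have he'0 : e' ≠ 0 := by
    rintro rfl
    exact hy0 rs_zero
  have h1 : e i = e j * e' ^ ℓ := by
    apply rs_injOn hEW (heE i) (E.mul_mem (heE j) (E.pow_mem he' ℓ))
    rw [rs_mul (hEW _ (heE j)) (hEW _ (E.pow_mem he' ℓ)), rs_pow (hEW _ he')]
    exact hxy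
  have h2 : cl ℓ (e i) = cl ℓ (e j) := (cl_eq_iff ℓ (he0 i) (he0 j)).2 ⟨e', he'0, h1⟩
  apply hij
  apply Fin.ext
  apply f.injective
  apply Subtype.ext
  rw [hfe, hfe, h2]

theorem VS_infinite [CharZero K] {k E : Subfield K} (hk : IsAlgClosed k)
    (hfg : FG k (⊤ : Subfield K)) (hkE : k ≤ E) (hE : ¬ E ≤ k) :
    ((VS ℓ E : Submodule (ZMod ℓ) (V ℓ K)) : Set (V ℓ K)).Infinite := by
  intro hfin
  obtain ⟨x, hxE, hxk⟩ := SetLike.not_le_iff_exists.1 hE
  have h1 : {c : K | c ∈ k} ⊆ ⋃ v ∈ ((VS ℓ E : Submodule (ZMod ℓ) (V ℓ K)) : Set (V ℓ K)),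
      {c : K | c ∈ k ∧ cl ℓ (x - c) = v} := by
    intro c hc
    refine Set.mem_biUnion (cl_mem_VS (E.sub_mem hxE (hkE hc))) ?_
    exact ⟨hc, rfl⟩
  have h2 : {c : K | c ∈ k}.Finite :=
    (hfin.biUnion fun v _ => dist_top (ℓ := ℓ) hk hfg hxk v).subset h1
  exact Set.infinite_of_injective_forall_mem (f := fun n : ℕ => (n : K)) Nat.cast_injective
    (fun n => natCast_mem k n) h2

theorem rk2_of_finite {A U : Submodule (ZMod ℓ) (V ℓ K)} (hA : (A : Set (V ℓ K)).Infinite)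
    (h : ((U ⊓ A : Submodule (ZMod ℓ) (V ℓ K)) : Set (V ℓ K)).Finite) : Rk2 A U := by
  have : NeZero ℓ := ⟨(Fact.out : ℓ.Prime).ne_zero⟩
  obtain ⟨u, huA, hu⟩ := hA.exists_notMem_finite h
  have huU : u ∉ U := fun h' => hu ⟨h', huA⟩
  have h2 : (⋃ i : ZMod ℓ, (fun w => i • u + w) ''
      ((U ⊓ A : Submodule (ZMod ℓ) (V ℓ K)) : Set (V ℓ K))).Finite :=
    Set.finite_iUnion fun i => h.image _
  obtain ⟨v, hvA, hv⟩ := hA.exists_notMem_finite h2
  refine ⟨u, huA, v, hvA, fun i j hij => ?_⟩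
  have hj : j = 0 := by
    by_contra hj
    apply hv
    rw [Set.mem_iUnion]
    refine ⟨-(j⁻¹ * i), v + (j⁻¹ * i) • u, ⟨?_, ?_⟩, ?_⟩
    · have h3 := U.smul_mem j⁻¹ hij
      rw [smul_add, smul_smul, smul_smul, inv_mul_cancel₀ hj, one_smul, add_comm] at h3
      exact h3
    · exact A.add_mem hvA (A.smul_mem _ huA)
    · simp only [neg_smul]
      abel
  refine ⟨?_, hj⟩
  by_contra hi
  apply huU
  rw [hj, zero_smul, add_zero] at hij
  have h3 := U.smul_mem i⁻¹ hij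
  rw [smul_smul, inv_mul_cancel₀ hi, one_smul] at h3
  exact h3

theorem Rk2.mono {A B U : Submodule (ZMod ℓ) (V ℓ K)} (h : Rk2 A U) (hAB : A ≤ B ⊔ U) :
    Rk2 B U := by
  obtain ⟨u, hu, v, hv, huv⟩ := h
  obtain ⟨b, hb, w, hw, rfl⟩ := Submodule.mem_sup.1 (hAB hu)
  obtain ⟨b', hb', w', hw', rfl⟩ := Submodule.mem_sup.1 (hAB hv)
  refine ⟨b, hb, b', hb', fun i j hij => huv i j ?_⟩
  have h1 : i • (b + w) + j • (b' + w') = (i • b + j • b') + (i • w + j • w') := by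
    rw [smul_add, smul_add]
    abel
  rw [h1]
  exact U.add_mem hij (U.add_mem (U.smul_mem _ hw) (U.smul_mem _ hw'))

theorem finB_cl_neg {k : Subfield K} (hk : IsAlgClosed k) (x : K) : cl ℓ (-x) = cl ℓ x := by
  by_cases hx : x = 0
  · rw [hx, neg_zero]
  · have h1 : -x = (-1) * x := by ring
    rw [h1, cl_mul ℓ (by simp) hx, line_cl_const hk (k.neg_mem k.one_mem), zero_add]

theorem exists_nr [CharZero K] {k : Subfield K} (hk : IsAlgClosed k) {y : K} (hy : Good k y)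
    {U : Submodule (ZMod ℓ) (V ℓ K)}
    (hfin : ((U ⊓ VS ℓ (adj k y) : Submodule (ZMod ℓ) (V ℓ K)) : Set (V ℓ K)).Finite) :
    ∃ g₀ ∈ adj k y, ∀ i j : ZMod ℓ, i • cl ℓ g₀ + j • cl ℓ (1 - g₀) ∈ U → i = 0 ∧ j = 0 := by
  classical
  by_contra hcon
  push Not at hcon
  have hyc : ∀ c ∈ k, y - c ≠ 0 := by
    intro c hc h0
    apply hy.1
    rw [sub_eq_zero.1 h0]
    exact hc
  -- the relation for a pair of constants
  have key : ∀ b₁ ∈ k, ∀ b₂ ∈ k, b₁ ≠ b₂ → ∃ i j : ZMod ℓ,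
      i • cl ℓ (y - b₁) + j • cl ℓ (y - b₂) ∈ U ∧ (i = 0 → j ≠ 0) := by
    intro b₁ h1 b₂ h2 h12
    have hd : b₂ - b₁ ≠ 0 := sub_ne_zero.2 h12.symm
    have hg : (y - b₁) / (b₂ - b₁) ∈ adj k y :=
      (adj k y).div_mem ((adj k y).sub_mem (mem_adj k y) (le_adj k y h1))
        (le_adj k y (k.sub_mem h2 h1))
    obtain ⟨i, j, hU, hne⟩ := hcon _ hg
    have e1 : cl ℓ ((y - b₁) / (b₂ - b₁)) = cl ℓ (y - b₁) := by
      rw [cl_div ℓ (hyc _ h1) hd, line_cl_const hk (k.sub_mem h2 h1), sub_zero]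
    have e2 : cl ℓ (1 - (y - b₁) / (b₂ - b₁)) = cl ℓ (y - b₂) := by
      have h3 : 1 - (y - b₁) / (b₂ - b₁) = (-(y - b₂)) / (b₂ - b₁) := by
        field_simp
        ring
      rw [h3, cl_div ℓ (neg_ne_zero.2 (hyc _ h2)) hd, line_cl_const hk (k.sub_mem h2 h1),
        sub_zero, finB_cl_neg hk]
    rw [e1, e2] at hU
    exact ⟨i, j, hU, hne⟩
  have hnat : ∀ n : ℕ, (n : K) ∈ k := fun n => natCast_mem k n
  have key2 : ∀ n : ℕ, ∃ i j : ZMod ℓ,
      i • cl ℓ (y - ((2 * n : ℕ) : K)) + j • cl ℓ (y - ((2 * n + 1 : ℕ) : K)) ∈ U ∧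
        (i = 0 → j ≠ 0) := by
    intro n
    apply key _ (hnat _) _ (hnat _)
    intro h
    have := Nat.cast_injective (R := K) h
    omega
  choose a b hab hne using key2
  set w : ℕ → V ℓ K := fun n =>
    a n • cl ℓ (y - ((2 * n : ℕ) : K)) + b n • cl ℓ (y - ((2 * n + 1 : ℕ) : K)) with hw
  have hinj : Function.Injective w := by
    intro n m hnm
    by_contra hne'
    have hrel : ∑ c ∈ ({2 * n, 2 * n + 1, 2 * m, 2 * m + 1} : Finset ℕ).map
        ⟨fun t : ℕ => (t : K), Nat.cast_injective⟩,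
        (fun c : K => if c = ((2 * n : ℕ) : K) then a n else if c = ((2 * n + 1 : ℕ) : K) then b n
          else if c = ((2 * m : ℕ) : K) then - a m else - b m) c • cl ℓ (y - c) = 0 := by
      rw [Finset.sum_map]
      have d1 : 2 * n ∉ ({2 * n + 1, 2 * m, 2 * m + 1} : Finset ℕ) := by
        simp only [Finset.mem_insert, Finset.mem_singleton]
        omega
      have d2 : 2 * n + 1 ∉ ({2 * m, 2 * m + 1} : Finset ℕ) := by
        simp only [Finset.mem_insert, Finset.mem_singleton]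
        omega
      have d3 : 2 * m ∉ ({2 * m + 1} : Finset ℕ) := by
        simp only [Finset.mem_singleton]
        omega
      rw [Finset.sum_insert d1, Finset.sum_insert d2, Finset.sum_insert d3, Finset.sum_singleton]
      have c1 : (2 * n + 1 = 2 * n) = False := by simp
      have c2 : (2 * m = 2 * n) = False := by
        apply propext
        constructor
        · intro h; omega
        · intro h; exact h.elim
      have c3 : (2 * m = 2 * n + 1) = False := by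
        apply propext
        constructor
        · intro h; omega
        · intro h; exact h.elim
      have c4 : (2 * m + 1 = 2 * n) = False := by
        apply propext
        constructor
        · intro h; omega
        · intro h; exact h.elim
      have c5 : (2 * m + 1 = 2 * n + 1) = False := by
        apply propext
        constructor
        · intro h; omega
        · intro h; exact h.elim
      have c6 : (2 * m + 1 = 2 * m) = False := by simp
      simp only [Function.Embedding.coeFn_mk, Nat.cast_inj, if_true, c1, c2, c3, c4, c5, c6,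
        if_false]
      have h1 : w n - w m = 0 := sub_eq_zero.2 hnm
      rw [hw] at h1
      simp only at h1
      rw [neg_smul, neg_smul, ← h1]
      abel
    have h0 := good_independent hk hy _ (by
      intro c hc
      rw [Finset.mem_map] at hc
      obtain ⟨t, _, rfl⟩ := hc
      exact hnat t) _ hrel
    have m1 : ((2 * n : ℕ) : K) ∈ ({2 * n, 2 * n + 1, 2 * m, 2 * m + 1} : Finset ℕ).map
        ⟨fun t : ℕ => (t : K), Nat.cast_injective⟩ :=
      Finset.mem_map.2 ⟨2 * n, by simp, rfl⟩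
    have m2 : ((2 * n + 1 : ℕ) : K) ∈ ({2 * n, 2 * n + 1, 2 * m, 2 * m + 1} : Finset ℕ).map
        ⟨fun t : ℕ => (t : K), Nat.cast_injective⟩ :=
      Finset.mem_map.2 ⟨2 * n + 1, by simp, rfl⟩
    have r1 := h0 _ m1
    have r2 := h0 _ m2
    have c1 : (2 * n + 1 = 2 * n) = False := by simp
    simp only [Nat.cast_inj, if_true, c1, if_false] at r1 r2
    exact hne n r1 r2
  refine Set.infinite_of_injective_forall_mem hinj (fun n => ?_) hfin
  refine ⟨hab n, ?_⟩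
  exact (VS ℓ (adj k y)).add_mem
    ((VS ℓ (adj k y)).smul_mem _
      (cl_mem_VS ((adj k y).sub_mem (mem_adj k y) (le_adj k y (hnat _)))))
    ((VS ℓ (adj k y)).smul_mem _
      (cl_mem_VS ((adj k y).sub_mem (mem_adj k y) (le_adj k y (hnat _)))))

end Vale.Agent.P019
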