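import Vale.Agent.P019.PlCore

/-!
# Existence of models
-/

namespace Vale.Agent.P019

set_option linter.style.haveILetI false

open Polynomial

section aux

variable {K : Type*} [Field K]

/-- algebraicity through polynomials over the ambient field. -/
theorem isAlgebraic_iff_coeff {E : Subfield K} {z : K} :
    IsAlgebraic E z ↔ ∃ q : K[X], q ≠ 0 ∧ (∀ i, q.coeff i ∈ E) ∧ q.eval z = 0 := by
  constructor
  · rintro ⟨Q, hQ0, hQ⟩
    refine ⟨Q.map (algebraMap E K), ?_, ?_, ?_⟩
    · rwa [Ne, Polynomial.map_eq_zero_iff (algebraMap E K).injective]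
    · intro i
      rw [coeff_map]
      exact (Q.coeff i).2
    · rw [eval_map_algebraMap]
      exact hQ
  · rintro ⟨q, hq0, hq, hz⟩
    have h1 : q ∈ lifts (algebraMap E K) := by
      rw [lifts_iff_coeff_lifts]
      intro n
      exact ⟨⟨q.coeff n, hq n⟩, rfl⟩
    obtain ⟨Q, hQ⟩ := (mem_lifts _).1 h1
    refine ⟨Q, ?_, ?_⟩
    · rintro rfl
      apply hq0
      rw [← hQ, Polynomial.map_zero]
    · rw [← eval_map_algebraMap, hQ]
      exact hz

/-- elements of `k(L)` need finitely many constants only. -/
theorem mem_sup_finite {k : Subfield K} {L : Set K} {z : K} (hz : z ∈ k ⊔ Subfield.closure L) :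
    ∃ C : Finset K, (C : Set K) ⊆ (k : Set K) ∧ ∀ N : Subfield K, (C : Set K) ⊆ (N : Set K) →
      z ∈ N ⊔ Subfield.closure L := by
  classical
  have h0 : k ⊔ Subfield.closure L = Subfield.closure ((k : Set K) ∪ L) := by
    rw [Subfield.closure_union, Subfield.closure_eq]
  rw [h0] at hz
  induction hz using Subfield.closure_induction with
  | mem z hz =>
    rcases hz with hz | hz
    · refine ⟨{z}, by simpa using hz, fun N hN => ?_⟩
      exact (le_sup_left : N ≤ _) (hN (by simp))
    · refine ⟨∅, by simp, fun N _ => ?_⟩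
      exact (le_sup_right : _ ≤ N ⊔ Subfield.closure L) (Subfield.subset_closure hz)
  | one => exact ⟨∅, by simp, fun N _ => Subfield.one_mem _⟩
  | add a b _ _ ha hb =>
    obtain ⟨C, hC, h⟩ := ha
    obtain ⟨C', hC', h'⟩ := hb
    refine ⟨C ∪ C', by push_cast; exact Set.union_subset hC hC', fun N hN => ?_⟩
    push_cast at hN
    exact Subfield.add_mem _ (h N (Set.subset_union_left.trans hN))
      (h' N (Set.subset_union_right.trans hN))
  | neg a _ ha =>
    obtain ⟨C, hC, h⟩ := ha
    exact ⟨C, hC, fun N hN => Subfield.neg_mem _ (h N hN)⟩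
  | inv a _ ha =>
    obtain ⟨C, hC, h⟩ := ha
    exact ⟨C, hC, fun N hN => Subfield.inv_mem _ (h N hN)⟩
  | mul a b _ _ ha hb =>
    obtain ⟨C, hC, h⟩ := ha
    obtain ⟨C', hC', h'⟩ := hb
    refine ⟨C ∪ C', by push_cast; exact Set.union_subset hC hC', fun N hN => ?_⟩
    push_cast at hN
    exact Subfield.mul_mem _ (h N (Set.subset_union_left.trans hN))
      (h' N (Set.subset_union_right.trans hN))

/-- algebraic elements over `k(L)` need finitely many constants only. -/
theorem isAlgebraic_sup_finite {k : Subfield K} {L : Set K} {z : K}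
    (hz : IsAlgebraic (k ⊔ Subfield.closure L : Subfield K) z) :
    ∃ C : Finset K, (C : Set K) ⊆ (k : Set K) ∧ ∀ N : Subfield K, (C : Set K) ⊆ (N : Set K) →
      IsAlgebraic (N ⊔ Subfield.closure L : Subfield K) z := by
  classical
  obtain ⟨q, hq0, hq, hqz⟩ := isAlgebraic_iff_coeff.1 hz
  choose C hC hCN using fun i => mem_sup_finite (hq i)
  refine ⟨(Finset.range (q.natDegree + 1)).biUnion C, ?_, fun N hN => ?_⟩
  · intro c hc
    simp only [Finset.coe_biUnion, Set.mem_iUnion] at hc
    obtain ⟨i, _, hi⟩ := hc
    exact hC i hi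
  · refine isAlgebraic_iff_coeff.2 ⟨q, hq0, fun i => ?_, hqz⟩
    by_cases hi : i < q.natDegree + 1
    · refine hCN i N (subset_trans ?_ hN)
      intro c hc
      simp only [Finset.coe_biUnion, Set.mem_iUnion]
      exact ⟨i, by simpa using hi, hc⟩
    · rw [coeff_eq_zero_of_natDegree_lt (by omega)]
      exact Subfield.zero_mem _

theorem sup_closure_insert (N : Subfield K) (s : K) (L : Set K) :
    N ⊔ Subfield.closure (insert s L) = adj (N ⊔ Subfield.closure L) s := by
  unfold adj
  rw [Set.insert_eq, Subfield.closure_union, sup_assoc]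
  congr 1
  exact sup_comm _ _

/-- constants algebraic over `N(L)` are algebraic over `N` as soon as `N` contains finitely many
fixed constants. -/
theorem exists_finite_free (k : Subfield K) (L : Finset K) :
    ∃ C : Finset K, (C : Set K) ⊆ (k : Set K) ∧ ∀ N : Subfield K, (C : Set K) ⊆ (N : Set K) →
      N ≤ k → ∀ a ∈ k, IsAlgebraic (N ⊔ Subfield.closure (L : Set K) : Subfield K) a →
        IsAlgebraic N a := by
  classical
  induction L using Finset.induction_on with
  | empty =>
    refine ⟨∅, by simp, fun N _ _ a _ ha => ?_⟩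
    exact isAlgebraic_mono (sup_le le_rfl (Subfield.closure_le.2 (by simp))) ha
  | insert s L _ ih =>
    obtain ⟨C, hC, h⟩ := ih
    by_cases hs : IsAlgebraic (k ⊔ Subfield.closure (L : Set K) : Subfield K) s
    · obtain ⟨C', hC', h'⟩ := isAlgebraic_sup_finite hs
      refine ⟨C ∪ C', by push_cast; exact Set.union_subset hC hC', fun N hN hNk a hak ha => ?_⟩
      push_cast at hN
      apply h N (Set.subset_union_left.trans hN) hNk a hak
      have h1 := h' N (Set.subset_union_right.trans hN)
      rw [Finset.coe_insert, sup_closure_insert] at ha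
      refine isAlgebraic_trans (le_adj _ s) ?_ ha
      intro z hz
      have h2 : adj (N ⊔ Subfield.closure (L : Set K)) s ≤ rac (N ⊔ Subfield.closure (L : Set K)) :=
        adj_le (le_rac _) (mem_rac.2 h1)
      exact mem_rac.1 (h2 hz)
    · refine ⟨C, hC, fun N hN hNk a hak ha => ?_⟩
      apply h N hN hNk a hak
      by_contra hna
      rw [Finset.coe_insert, sup_closure_insert] at ha
      have h1 := exchange hna ha
      apply hs
      refine isAlgebraic_mono ?_ h1
      refine adj_le (sup_le_sup_right hNk _) ?_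
      exact (le_sup_left : k ≤ _) hak

theorem countable_closure {S : Set K} (hS : S.Countable) :
    ((Subfield.closure S : Subfield K) : Set K).Countable := by
  have h1 := Subfield.cardinalMk_closure_le_max S
  rw [← Cardinal.le_aleph0_iff_set_countable]
  refine le_trans h1 (max_le ?_ le_rfl)
  rwa [Cardinal.le_aleph0_iff_set_countable]

theorem countable_rac {E : Subfield K} (hE : (E : Set K).Countable) :
    ((rac E : Subfield K) : Set K).Countable := by
  have h1 := Algebra.IsAlgebraic.cardinalMk_le_max E (algebraicClosure E K)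
  have h2 : Cardinal.mk (rac E : Set K) ≤ Cardinal.aleph0 := by
    refine le_trans h1 (max_le ?_ le_rfl)
    exact Cardinal.le_aleph0_iff_set_countable.2 hE
  exact Cardinal.le_aleph0_iff_set_countable.1 h2

end aux

/-- S71 existence of models. -/
theorem exists_mdl {K : Type*} [Field K] [CharZero K] (k : Subfield K) (hk : IsAlgClosed k)
    (hfg : FG k (⊤ : Subfield K)) (htr : ∃ x y : K, x ∉ k ∧ ¬ IsAlgebraic (adj k x) y) :
    ∃ M : Mdl K, M.k = k := by
  classical
  obtain ⟨S, hS⟩ := hfg
  obtain ⟨x, y, hx, hy⟩ := htr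
  set S' : Finset K := insert x (insert y S) with hS'
  obtain ⟨C, hC, hfree⟩ := exists_finite_free k S'
  set k0 : Subfield K := rac (Subfield.closure (C : Set K)) with hk0
  have hCk : Subfield.closure (C : Set K) ≤ k := Subfield.closure_le.2 hC
  have hk0k : k0 ≤ k := (RAC_of_isAlgClosed k hk).le hCk
  have hCk0 : (C : Set K) ⊆ (k0 : Set K) :=
    subset_trans Subfield.subset_closure (le_rac (Subfield.closure (C : Set K)))
  have hk0c : (k0 : Set K).Countable := countable_rac (countable_closure C.countable_toSet)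
  have hsup : ∀ N : Subfield K, k0 ≤ N →
      (k0 ⊔ Subfield.closure (S' : Set K)) ⊔ N = N ⊔ Subfield.closure (S' : Set K) := by
    intro N hN
    rw [sup_comm, ← sup_assoc, sup_eq_left.2 hN]
  refine ⟨{ k := k, k0 := k0, K0 := k0 ⊔ Subfield.closure (S' : Set K), le_k := hk0k
            le_K0 := le_sup_left, ack := hk
            ack0 := isAlgClosed_of_RAC hk (RAC_rac _) hk0k
            sup := ?_, ctb := ?_, fg := ⟨S', rfl⟩, free := ?_, x := x, y := y
            hx := ?_, hy := ?_, hxk := hx, hyx := hy }, rfl⟩
  · rw [hsup k hk0k, eq_top_iff, hS]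
    refine sup_le_sup_left (Subfield.closure_mono ?_) _
    intro s hs
    simp only [hS', Finset.coe_insert]
    exact Set.mem_insert_of_mem _ (Set.mem_insert_of_mem _ hs)
  · have h1 : k0 ⊔ Subfield.closure (S' : Set K) =
        Subfield.closure ((k0 : Set K) ∪ (S' : Set K)) := by
      rw [Subfield.closure_union, Subfield.closure_eq]
    rw [h1]
    exact countable_closure (hk0c.union S'.countable_toSet)
  · intro N hN hk0N hNk a hak ha
    rw [hsup N hk0N] at ha
    exact hN a (hfree N (hCk0.trans hk0N) hNk a hak ha)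
  · exact (le_sup_right : _ ≤ k0 ⊔ Subfield.closure (S' : Set K))
      (Subfield.subset_closure (by simp [hS']))
  · exact (le_sup_right : _ ≤ k0 ⊔ Subfield.closure (S' : Set K))
      (Subfield.subset_closure (by simp [hS']))

end Vale.Agent.P019
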