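import Vale.Agent.P019.Im
import Vale.Agent.P019.ClPair
import Vale.Agent.P019.ExMdl
import Vale.Agent.P019.Line

/-!
# Classes congruent to one at a valuation where `t` is a generic constant
-/

namespace Vale.Agent.P019

set_option linter.style.haveILetI false

open Polynomial

section ifive

variable {K : Type*} [Field K] [CharZero K] (M : Mdl K) {ℓ : ℕ} [Fact ℓ.Prime]

theorem ifive_fin {F : Subfield K} (hkF : M.k ≤ F) {t : K}
    (halg : ∀ z : K, IsAlgebraic (adj F t) z) :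
    ∃ S : Finset K, (∀ s ∈ S, s ∈ F) ∧
      ∀ z ∈ M.K0, IsAlgebraic (adj (M.k0 ⊔ Subfield.closure (S : Set K)) t) z := by
  classical
  obtain ⟨G, hG⟩ := M.fg
  have h1 : ∀ g : K, ∃ C : Finset K, (C : Set K) ⊆ (F : Set K) ∧
      ∀ N : Subfield K, (C : Set K) ⊆ (N : Set K) → IsAlgebraic (adj N t) g := fun g =>
    isAlgebraic_sup_finite (k := F) (L := {t}) (halg g)
  choose C hC hCN using h1
  refine ⟨G.biUnion C, ?_, ?_⟩
  · intro s hs
    obtain ⟨g, -, hg⟩ := Finset.mem_biUnion.1 hs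
    exact hC g hg
  · intro z hz
    rw [← mem_rac]
    rw [hG] at hz
    have h2 : M.k0 ⊔ Subfield.closure (G : Set K) ≤
        rac (adj (M.k0 ⊔ Subfield.closure ((G.biUnion C : Finset K) : Set K)) t) := by
      refine sup_le (le_sup_left.trans ((le_adj _ t).trans (le_rac _))) ?_
      rw [Subfield.closure_le]
      intro g hg
      refine mem_rac.2 (hCN g _ ?_)
      intro c hc
      refine (le_sup_right : Subfield.closure ((G.biUnion C : Finset K) : Set K) ≤ _)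
        (Subfield.subset_closure ?_)
      exact Finset.mem_coe.2 (Finset.mem_biUnion.2 ⟨g, hg, hc⟩)
    exact h2 hz

/-- **I5.** -/
theorem ifive (hk : ¬ (M.k : Set K).Countable) {F : Subfield K} (hkF : M.k ≤ F) {t : K}
    (halg : ∀ z : K, IsAlgebraic (adj F t) z) (htk : t ∉ M.k) (u : V ℓ K) :
    ∃ C : Set K, C.Countable ∧ ∀ a ∈ M.k, a ∉ C → ∀ W : ValuationSubring K,
      (∀ x ∈ F, x ∈ W) → W.valuation (t - a) < 1 → u ∈ U1 ℓ W →
      u ∈ VS ℓ (rac (adj M.k t)) := by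
  classical
  have hℓ : ℓ ≠ 0 := (Fact.out : ℓ.Prime).ne_zero
  obtain ⟨S, hSF, hS⟩ := ifive_fin M hkF halg
  obtain ⟨C₀, hC₀k, hC₀⟩ := exists_finite_free M.k S
  obtain ⟨x, hx0, rfl⟩ := cl_surj ℓ u
  obtain ⟨N, hN, hNc, hbig⟩ : ∃ N : Subfield K, M.Sub N ∧ (N : Set K).Countable ∧
      ∀ z ∈ ((C₀ : Set K) ∪ {t, x}), z ∈ M.F N := by
    have h0 : M.Sub M.k0 := ⟨RAC_of_isAlgClosed _ M.ack0, le_rfl, M.le_k⟩
    obtain ⟨N, hN, hNc, -, -, h1⟩ := M.exists_big hk h0 (M.ctb.mono M.le_K0)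
      ((C₀ : Set K) ∪ {t, x}) ((Finset.countable_toSet C₀).union (Set.toFinite {t, x}).countable)
    exact ⟨N, hN, hNc, h1⟩
  refine ⟨N, hNc, ?_⟩
  intro a ha haN W hWF hta hxU1
  obtain ⟨k₁, hNk₁, hk₁k, hrac, hak₁, halgk⟩ := Gn.exists_compl M.RAC_k hN.le hN.rac haN
  set A : Subfield K := M.F k₁ with hAdef
  have hk0 : M.k0 ≤ k₁ := hN.ge.trans hNk₁
  have haA : ¬ IsAlgebraic A a := fun h => hak₁ (M.free k₁ hrac hk0 hk₁k a ha h)
  have hFA : M.F N ≤ A := Mdl.F_mono hNk₁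
  have htA : t ∈ A := hFA (hbig t (Or.inr (Or.inl rfl)))
  have hxA : x ∈ A := hFA (hbig x (Or.inr (Or.inr rfl)))
  have hk₁A : k₁ ≤ A := le_sup_right
  -- the place
  set P := plOf W with hP
  have hPF : ∀ y ∈ F, y ∈ P.O := hWF
  have hPk : ∀ y ∈ M.k, y ∈ P.O := fun y hy => hPF y (hkF hy)
  set E : Subfield K := k₁ ⊔ Subfield.closure (S : Set K) with hE
  have hEF : E ≤ F := sup_le (hk₁k.trans hkF) (Subfield.closure_le.2 hSF)
  have hPE : ∀ y ∈ E, y ∈ P.O := fun y hy => hPF y (hEF hy)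
  have haE : ¬ IsAlgebraic E a := by
    intro h
    refine hak₁ (hrac a (hC₀ k₁ ?_ hk₁k a ha h))
    intro c hc
    have h1 : c ∈ M.F N := hbig c (Or.inl hc)
    have h2 : c ∈ N := M.free N hN.rac hN.ge hN.le c (hC₀k hc) (isAlgebraic_of_mem h1)
    exact hNk₁ h2
  have htaO : t - a ∈ P.O := P.mem_of_lt hta
  have haO : a ∈ P.O := hPk a ha
  have htO : t ∈ P.O := by
    have e : t = (t - a) + a := by ring
    rw [e]; exact P.O.add_mem _ _ htaO haO
  have hevt : P.ev t = P.ev a := by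
    have h1 : P.ev (t - a) = 0 := P.ev_of_lt hta
    rw [P.ev_sub htO haO, sub_eq_zero] at h1
    exact h1
  have htE : ¬ IsAlgebraic (P.im E hPE) (P.ev t) := by
    rw [hevt]
    intro h
    exact haE (P.isAlgebraic_of_im hPF hEF (hkF ha) h)
  have hadj := P.mem_adj_of_transcendental E hPE htO htE
  have hA : ∀ y ∈ A, y ∈ P.O := by
    intro y hy
    refine P.mem_of_isAlgebraic (adj E t) hadj (mem_rac.1 ?_)
    have h1 : A ≤ rac (adj E t) := by
      refine sup_le ?_ ?_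
      · intro z hz
        refine mem_rac.2 (isAlgebraic_mono (adj_mono ?_ t) (hS z hz))
        exact sup_le_sup_right hk0 _
      · exact le_sup_left.trans ((le_adj E t).trans (le_rac _))
    exact h1 hy
  have heva : IsAlgebraic (P.im A hA) (P.ev a) := by
    rw [← hevt]
    exact isAlgebraic_of_mem (P.ev_mem_im hA htA)
  obtain ⟨π, hπA, hπ, hπO, hπ0, hGd⟩ := exists_gd_adj P A hA haO haA heva
  set κ := P.im A hA ⊔ P.im M.k hPk with hκ
  have hGd1 : Gd P π κ (adj A a) := hGd κ le_sup_left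
    ((le_sup_right : P.im M.k hPk ≤ κ) (P.ev_mem_im hPk ha))
  have hGd2 : Gd P π κ (adj A a ⊔ M.k) :=
    hGd1.sup hπ hπO hπ0 hπA (E := adj k₁ a) (adj_mono hk₁A a) (adj_le hk₁k ha) hPk
      (fun y hy => (le_sup_right : P.im M.k hPk ≤ κ) (P.ev_mem_im hPk hy)) halgk
  have htop : ∀ z : K, z ∈ adj A a ⊔ M.k := by
    intro z
    have h1 : (⊤ : Subfield K) ≤ adj A a ⊔ M.k := by
      rw [← M.sup]
      exact sup_le_sup_right (le_trans le_sup_left (le_adj A a)) _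
    exact h1 trivial
  -- the class
  obtain ⟨m, hm, hxm⟩ := hxU1
  have hxU : P.U x := Gn.U_of_field hA hxA hx0
  obtain ⟨y, hy0, hy⟩ := (cl_eq_iff ℓ hx0 (one_add_ne_zero hm)).1 hxm
  have hmU : P.U (1 + m) := P.U_iff.2 (val_one_add hm)
  have hyl : P.U (y ^ ℓ) := by
    have : y ^ ℓ = x / (1 + m) := by
      rw [hy]
      have := hmU.ne_zero
      field_simp
    rw [this]
    exact hxU.div hmU
  have hyU : P.U y := by
    rw [P.U_iff] at hyl ⊢
    rw [map_pow] at hyl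
    exact (pow_eq_one_iff.1 hyl).resolve_right hℓ
  have hev : P.ev y ^ ℓ = P.ev x := by
    rw [← P.ev_pow hyU.1]
    conv_rhs => rw [hy]
    rw [P.ev_mul hmU.1 hyl.1, P.ev_add P.O.one_mem (P.mem_of_lt hm), P.ev_one,
      P.ev_of_lt hm, add_zero, one_mul]
  have hevy : P.ev y ∈ κ := Gd.ev_mem hπ hπO hπ0 hGd2 (htop y) hyU.1
  -- Kummer descent
  let E₀ : Subfield K := rac (adj k₁ t) ⊓ A
  have hE₀A : E₀ ≤ A := inf_le_right
  have hk₁E₀ : k₁ ≤ E₀ := le_inf ((le_adj k₁ t).trans (le_rac _)) hk₁A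
  haveI : CharZero (AlgebraicClosure (IsLocalRing.ResidueField W)) :=
    charZero_of_injective_ringHom (P.resHom A hA).injective
  haveI : IsAlgClosed M.k0 := M.ack0
  haveI : NeZero ((ℓ : ℕ) : M.k0) := ⟨by
    rw [Nat.cast_ne_zero]; exact hℓ⟩
  obtain ⟨ζ, hζ⟩ := HasEnoughRootsOfUnity.exists_primitiveRoot M.k0 ℓ
  have hζK : IsPrimitiveRoot (⟨(ζ : K), hk₁A (hk0 ζ.2)⟩ : A) ℓ := by
    have h1 : IsPrimitiveRoot (Subfield.inclusion (hk0.trans hk₁A) ζ) ℓ :=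
      hζ.map_of_injective (RingHom.injective _)
    exact h1
  have hζ' : IsPrimitiveRoot (P.ev (ζ : K)) ℓ := by
    have h1 := hζK.map_of_injective (f := P.resHom A hA) (RingHom.injective _)
    rwa [P.resHom_apply] at h1
  have hPE₀ : ∀ z ∈ E₀, z ∈ P.O := fun z hz => hA z (hE₀A hz)
  have hac : ∀ z ∈ P.im A hA, IsAlgebraic (P.im E₀ hPE₀) z → z ∈ P.im E₀ hPE₀ := by
    intro z hz halgz
    obtain ⟨z₀, hz₀, rfl⟩ := P.mem_im.1 hz
    have h1 := P.isAlgebraic_of_im hA hE₀A hz₀ halgz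
    have h2 : IsAlgebraic (rac (adj k₁ t)) z₀ := isAlgebraic_mono inf_le_left h1
    exact P.ev_mem_im hPE₀ ⟨RAC_rac _ z₀ h2, hz₀⟩
  have hadjt : adj k₁ t ≤ E₀ := le_inf (le_rac _) (adj_le hk₁A htA)
  have hB : ∀ b ∈ P.im M.k hPk, IsAlgebraic (P.im E₀ hPE₀) b := by
    intro b hb
    obtain ⟨c, hc, rfl⟩ := P.mem_im.1 hb
    refine P.isAlgebraic_ev (adj k₁ a) (P.im E₀ hPE₀) ?_ (halgk c hc) (hPk c hc)
    intro y hy _
    have h1 : P.ev y ∈ P.im (adj k₁ a) (fun y hy => hPk y (adj_le hk₁k ha hy)) :=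
      P.ev_mem_im _ hy
    rw [P.im_adj hPk hk₁k ha, ← hevt] at h1
    have h2 : adj (P.im k₁ (fun y hy => hPk y (hk₁k hy))) (P.ev t) ≤ P.im E₀ hPE₀ := by
      refine adj_le ?_ (P.ev_mem_im hPE₀ (hadjt (mem_adj _ _)))
      intro w hw
      obtain ⟨w₀, hw₀, rfl⟩ := P.mem_im.1 hw
      exact P.ev_mem_im hPE₀ (hk₁E₀ hw₀)
    exact h2 h1
  obtain ⟨e, he, w, hw, hew⟩ :=
    kummer_descent ℓ (P.im E₀ hPE₀) (P.im A hA) (P.im M.k hPk)
      (by
        intro z hz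
        obtain ⟨z₀, hz₀, rfl⟩ := P.mem_im.1 hz
        exact P.ev_mem_im hA (hE₀A hz₀)) hac hB _
      (P.ev_mem_im hPE₀ (hk₁E₀ (hk0 ζ.2))) hζ' (P.ev_mem_im hA hxA) hxU.2 hevy hev
  obtain ⟨e', he', rfl⟩ := P.mem_im.1 he
  obtain ⟨w', hw', rfl⟩ := P.mem_im.1 hw
  have hx' : x = e' * w' ^ ℓ := by
    apply P.ev_inj hA hxA (A.mul_mem (hE₀A he') (A.pow_mem hw' _))
    rw [P.ev_mul (hPE₀ _ he') (hA _ (A.pow_mem hw' _)), P.ev_pow (hA _ hw')]
    exact hew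
  rw [cl_ne_zero_mem_VS hx0]
  refine ⟨e', rac_mono (adj_mono hk₁k t) he'.1, ?_, w', ?_, hx'⟩
  · rintro rfl
    rw [zero_mul] at hx'
    exact hx0 hx'
  · rintro rfl
    rw [zero_pow hℓ, mul_zero] at hx'
    exact hx0 hx'

end ifive

end Vale.Agent.P019
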