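import Vale.Agent.P019.DelB
import Vale.Agent.P019.FinB
import Vale.Agent.P019.Ifive
import Vale.Agent.P019.Meet
import Vale.Agent.P019.HypOf
import Vale.Agent.P019.Vmap

/-!
# The endgame: the isomorphism is induced by a homomorphism of fields
-/

namespace Vale.Agent.P019

open Filter

/-- a homomorphism of fields matching the correspondence of points. -/
structure EndHyp (ℓ : ℕ) {K L : Type*} [Field K] [Field L] (k : Subfield K) (l : Subfield L)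
    (Θ : V ℓ K ≃ₗ[ZMod ℓ] V ℓ L) (A : K →+* L) (e : ZMod ℓ) : Prop where
  e0 : e ≠ 0
  hA : ∀ c ∈ k, A c ∈ l
  hA' : ∀ β ∈ l, ∃ b ∈ k, A b = β
  rt : ∀ s, Good k s → Rt k l Θ s (A s)
  cor : ∀ s, Good k s → ∀ᶠ b in ae k, Cor k l Θ s (A s) e b (A b)
  rel : ∀ t s, Good k t → Good k s → Good k (t + s) → ¬ IsAlgebraic (adj k s) t →
    ∃ F' : Subfield L, l ≤ F' ∧ (∀ z : L, IsAlgebraic (adj F' (A t)) z) ∧ adj l (A s) ≤ F' ∧
      ∀ᶠ a in ae k, ∃ u : ValuationSubring L, TrivOn u F' ∧ u.valuation (A t - A a) < 1 ∧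
        ∀ b ∈ k, Θ (cl ℓ (s - b) - cl ℓ (t + s - a - b)) ∈ U1 ℓ u

section endgame

variable {K L : Type*} [Field K] [Field L] {ℓ : ℕ} {k : Subfield K} {l : Subfield L}
  {A : K →+* L}

theorem end_adj (hA : ∀ c ∈ k, A c ∈ l) {s x : K} (hx : x ∈ adj k s) : A x ∈ adj l (A s) := by
  have h : adj k s ≤ (adj l (A s)).comap A :=
    adj_le (fun c hc => le_adj _ _ (hA c hc)) (mem_adj _ _)
  exact h hx

theorem end_alg (hA' : ∀ β ∈ l, ∃ b ∈ k, A b = β) {s y : K}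
    (h : IsAlgebraic (adj l (A s)) (A y)) : IsAlgebraic (adj k s) y := by
  have h1 : adj l (A s) ≤ (adj k s).map A := by
    refine adj_le (fun β hβ => ?_) ⟨s, mem_adj _ _, rfl⟩
    obtain ⟨b, hb, rfl⟩ := hA' β hβ
    exact ⟨b, le_adj _ _ hb, rfl⟩
  have h2 := isAlgebraic_mono h1 h
  let f : adj k s →+* (adj k s).map A :=
    (A.comp (adj k s).subtype).codRestrict ((adj k s).map A) (fun x => ⟨x, x.2, rfl⟩)
  refine IsAlgebraic.of_ringHom_of_comp_eq f A h2 ?_ A.injective rfl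
  rintro ⟨_, x, hx, rfl⟩
  exact ⟨⟨x, hx⟩, rfl⟩

theorem end_avoid {C : Set K} (hk : ¬ (k : Set K).Countable) (hC : C.Countable) :
    ∃ a ∈ k, a ∉ C := by
  by_contra h
  push Not at h
  exact hk (hC.mono fun a ha => h a ha)

theorem comb_end {W : Type*} [AddCommGroup W] (N : AddSubgroup W) (hk : ¬ (k : Set K).Countable)
    {C : Set K} (hC : C.Countable) {f g : K → W}
    (h : ∀ a ∈ k, a ∉ C → ∀ b ∈ k, f b - g (a + b) ∈ N) {b c : K} (hb : b ∈ k) (hc : c ∈ k) :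
    f b - g c ∈ N := by
  have key : ∀ b ∈ k, ∀ c ∈ k, c - b ∉ C → f b - g c ∈ N := by
    intro b hb c hc hbc
    have h1 := h (c - b) (k.sub_mem hc hb) hbc b hb
    rwa [sub_add_cancel] at h1
  obtain ⟨b₁, hb₁, hb₁C⟩ := end_avoid hk (hC.image fun x => c - x)
  have h1 : c - b₁ ∉ C := fun h' => hb₁C ⟨c - b₁, h', by ring⟩
  obtain ⟨c₁, hc₁, hc₁C⟩ := end_avoid hk ((hC.image fun x => x + b).union
    (hC.image fun x => x + b₁))
  have h2 : c₁ - b ∉ C := fun h' => hc₁C (Or.inl ⟨c₁ - b, h', by ring⟩)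
  have h3 : c₁ - b₁ ∉ C := fun h' => hc₁C (Or.inr ⟨c₁ - b₁, h', by ring⟩)
  have h4 : f b - g c = (f b - g c₁) - (f b₁ - g c₁) + (f b₁ - g c) := by abel
  rw [h4]
  exact N.add_mem (N.sub_mem (key b hb c₁ hc₁ h2) (key b₁ hb₁ c₁ hc₁ h3)) (key b₁ hb₁ c hc h1)

variable [CharZero K] [CharZero L] [Fact ℓ.Prime]

theorem del_Vmap (hk : IsAlgClosed k) (hl : IsAlgClosed l) (hA : ∀ c ∈ k, A c ∈ l) {s : K}
    (hs : Good k s) (hs' : Good l (A s)) {b : K} (hb : b ∈ k) {v : V ℓ K}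
    (hv : v ∈ VS ℓ (adj k s)) : del ℓ l (A s) (A b) (Vmap ℓ A v) = del ℓ k s b v := by
  classical
  obtain ⟨T, n, hT, rfl⟩ := adj_factor hk hs.1 hv
  rw [del_eval hk hs T hT n hb, map_sum, map_sum]
  have h1 : ∀ c ∈ T, del ℓ l (A s) (A b) (Vmap ℓ A (n c • cl ℓ (s - c))) =
      if b = c then n c else 0 := by
    intro c hc
    rw [map_smul, Vmap_cl, map_sub, map_smul]
    by_cases h : b = c
    · subst h
      rw [del_self hl hs' (hA b hb), if_pos rfl, smul_eq_mul, mul_one]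
    · rw [del_ne hl hs' (hA b hb) (hA c (hT c hc)) (fun h' => h (A.injective h').symm),
        if_neg h, smul_zero]
  rw [Finset.sum_congr rfl h1, Finset.sum_ite_eq]

/-- the difference of the two maps. -/
noncomputable def EndD (Θ : V ℓ K ≃ₗ[ZMod ℓ] V ℓ L) (A : K →+* L) (e : ZMod ℓ) :
    V ℓ K →ₗ[ZMod ℓ] V ℓ L :=
  Θ.toLinearMap - e⁻¹ • Vmap ℓ A

variable {Θ : V ℓ K ≃ₗ[ZMod ℓ] V ℓ L} {e : ZMod ℓ}

omit [CharZero K] [CharZero L] in
theorem EndD_apply (v : V ℓ K) : EndD Θ A e v = Θ v - e⁻¹ • Vmap ℓ A v := rfl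

omit [CharZero K] [CharZero L] in
theorem EndHyp.D_mem (E : EndHyp ℓ k l Θ A e) {s : K} (hs : Good k s) {v : V ℓ K}
    (hv : v ∈ VS ℓ (adj k s)) : EndD Θ A e v ∈ VS ℓ (adj l (A s)) := by
  rw [EndD_apply]
  refine Submodule.sub_mem _ (((E.rt s hs).map v).2 hv) (Submodule.smul_mem _ _ ?_)
  obtain ⟨x, hx, -, rfl⟩ := hv
  rw [Vmap_cl]
  exact cl_mem_VS (end_adj E.hA hx)

theorem EndHyp.D_finite (H : Hyp ℓ k l Θ) (E : EndHyp ℓ k l Θ A e) {s : K} (hs : Good k s) :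
    ∃ X : Set (V ℓ L), X.Finite ∧ ∀ v ∈ VS ℓ (adj k s), EndD Θ A e v ∈ X := by
  classical
  have hS := ae_iff.1 (E.cor s hs)
  set T : Finset L := hS.toFinset.image A with hT
  have hTl : ∀ β ∈ T, β ∈ l := by
    intro β hβ
    obtain ⟨b, hb, rfl⟩ := Finset.mem_image.1 hβ
    exact E.hA b ((hS.mem_toFinset).1 hb).1
  refine ⟨_, del_finite (ℓ := ℓ) H.acl (E.rt s hs).good' T hTl, ?_⟩
  intro v hv
  refine ⟨E.D_mem hs hv, ?_⟩
  intro β hβ hβT
  obtain ⟨b, hb, rfl⟩ := E.hA' β hβ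
  have hbC : Cor k l Θ s (A s) e b (A b) := by
    by_contra h
    exact hβT (Finset.mem_image.2 ⟨b, hS.mem_toFinset.2 ⟨hb, h⟩, rfl⟩)
  rw [EndD_apply, map_sub, map_smul, del_Vmap H.ack H.acl E.hA hs (E.rt s hs).good' hb hv,
    hbC v hv, smul_eq_mul, ← mul_assoc, inv_mul_cancel₀ E.e0, one_mul, sub_self]

omit [CharZero K] [CharZero L] in
theorem EndHyp.D_U1 {F' : Subfield L} {u : ValuationSubring L} (hu : TrivOn u F')
    (hA : ∀ c ∈ k, A c ∈ l) {t s a b : K} (hs : s ∉ k) (hF : adj l (A s) ≤ F')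
    (ha : u.valuation (A t - A a) < 1) (hb : b ∈ k)
    (hΘ : Θ (cl ℓ (s - b) - cl ℓ (t + s - a - b)) ∈ U1 ℓ u) :
    EndD Θ A e (cl ℓ (s - b)) - EndD Θ A e (cl ℓ (t + s - (a + b))) ∈ U1 ℓ u := by
  rw [← map_sub, EndD_apply, ← sub_sub (t + s)]
  refine Submodule.sub_mem _ hΘ (Submodule.smul_mem _ _ ?_)
  rw [map_sub, Vmap_cl, Vmap_cl, ← neg_sub]
  refine Submodule.neg_mem _ (cl_sub_cl_mem_U1 ?_ ?_)
  · refine hu.eq_one (hF ?_) ?_
    · rw [map_sub]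
      exact Subfield.sub_mem _ (mem_adj _ _) (le_adj _ _ (hA b hb))
    · rw [Ne, map_eq_zero, sub_eq_zero]
      rintro rfl
      exact hs hb
  · have h1 : A (t + s - a - b) - A (s - b) = A t - A a := by
      simp only [map_sub, map_add]
      ring
    rw [h1]
    exact ha

theorem EndHyp.D_rel (H : Hyp ℓ k l Θ) (E : EndHyp ℓ k l Θ A e) {t s : K} (ht : Good k t)
    (hs : Good k s) (hts : Good k (t + s)) (hst : ¬ IsAlgebraic (adj k s) t) {b c : K}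
    (hb : b ∈ k) (hc : c ∈ k) :
    EndD Θ A e (cl ℓ (s - b)) - EndD Θ A e (cl ℓ (t + s - c)) ∈ VS ℓ (adj l (A t)) := by
  classical
  obtain ⟨F', hlF, halg, hF, hu⟩ := E.rel t s ht hs hts hst
  obtain ⟨X, hX, hXs⟩ := E.D_finite H hs
  obtain ⟨Y, hY, hYs⟩ := E.D_finite H hts
  obtain ⟨M', hM'⟩ := exists_mdl l H.acl H.fgl H.trl
  subst hM'
  have h5 : ∀ w : V ℓ L, ∃ C : Set L, C.Countable ∧ ∀ a ∈ M'.k, a ∉ C →
      ∀ W : ValuationSubring L, (∀ x ∈ F', x ∈ W) → W.valuation (A t - a) < 1 → w ∈ U1 ℓ W →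
      w ∈ VS ℓ (rac (adj M'.k (A t))) := fun w =>
    ifive M' H.ul hlF halg (E.rt t ht).good'.1 w
  choose C hC hC5 using h5
  set Z : Set (V ℓ L) := (fun p : V ℓ L × V ℓ L => p.1 - p.2) '' (X ×ˢ Y) with hZ
  have hZf : Z.Finite := (hX.prod hY).image _
  set B : Set K := {a : K | a ∈ k ∧ ¬ ∃ u : ValuationSubring L, TrivOn u F' ∧
    u.valuation (A t - A a) < 1 ∧
      ∀ b ∈ k, Θ (cl ℓ (s - b) - cl ℓ (t + s - a - b)) ∈ U1 ℓ u} ∪
    ⋃ w ∈ Z, A ⁻¹' (C w) with hB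
  have hBc : B.Countable :=
    (ae_iff.1 hu).countable.union (hZf.countable.biUnion fun w _ =>
      (hC w).preimage A.injective)
  refine comb_end (VS ℓ (adj M'.k (A t))).toAddSubgroup H.uk hBc
    (f := fun b => EndD Θ A e (cl ℓ (s - b))) (g := fun c => EndD Θ A e (cl ℓ (t + s - c)))
    ?_ hb hc
  intro a ha haB b hb
  have h1 : ∃ u : ValuationSubring L, TrivOn u F' ∧ u.valuation (A t - A a) < 1 ∧
      ∀ b ∈ k, Θ (cl ℓ (s - b) - cl ℓ (t + s - a - b)) ∈ U1 ℓ u := by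
    by_contra h
    exact haB (Or.inl ⟨ha, h⟩)
  obtain ⟨u, huF, huA, huΘ⟩ := h1
  set w : V ℓ L := EndD Θ A e (cl ℓ (s - b)) - EndD Θ A e (cl ℓ (t + s - (a + b))) with hw
  have hwU : w ∈ U1 ℓ u := EndHyp.D_U1 huF E.hA hs.1 hF huA hb (huΘ b hb)
  have hab : a + b ∈ k := k.add_mem ha hb
  have hwZ : w ∈ Z := ⟨(_, _), ⟨hXs _ (cl_mem_VS (Subfield.sub_mem _ (mem_adj _ _)
    (le_adj _ _ hb))), hYs _ (cl_mem_VS (Subfield.sub_mem _ (mem_adj _ _)
    (le_adj _ _ hab)))⟩, rfl⟩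
  have haC : A a ∉ C w := fun h => haB (Or.inr (Set.mem_biUnion hwZ h))
  have h2 := hC5 w (A a) (E.hA a ha) haC u huF huA hwU
  have h3 : rac (adj M'.k (A t)) ≤ adj M'.k (A t) := (E.rt t ht).good'.2.le le_rfl
  exact VS_mono h3 h2

omit [CharZero K] [CharZero L] [Fact ℓ.Prime] in
theorem ae_of_image (hA : ∀ c ∈ k, A c ∈ l) {P : L → Prop} (h : ∀ᶠ c in ae l, P c) :
    ∀ᶠ c in ae k, P (A c) := by
  rw [ae_iff] at h ⊢
  refine (h.preimage A.injective.injOn).subset ?_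
  rintro a ⟨ha, hP⟩
  exact ⟨hA a ha, hP⟩

omit [CharZero K] [CharZero L] in
theorem exists_ae (hk : ¬ (k : Set K).Countable) {P : K → Prop} (h : ∀ᶠ c in ae k, P c) :
    ∃ c ∈ k, P c := by
  obtain ⟨a, ha, haC⟩ := end_avoid hk (ae_iff.1 h).countable
  refine ⟨a, ha, ?_⟩
  by_contra h'
  exact haC ⟨ha, h'⟩

omit [CharZero K] [CharZero L] in
theorem endg_shift {P : K → Prop} (h : ∀ᶠ c in ae k, P c) {d : K} (hd : d ∈ k) :
    ∀ᶠ c in ae k, P (c + d) := by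
  rw [ae_iff] at h ⊢
  refine (h.preimage (add_left_injective d).injOn).subset ?_
  rintro a ⟨ha, hP⟩
  exact ⟨k.add_mem ha hd, hP⟩

omit [CharZero K] [CharZero L] [Fact ℓ.Prime] in
theorem exists_free (hk : RAC k) (htr : ∃ x y : K, x ∉ k ∧ ¬ IsAlgebraic (adj k x) y) {s : K}
    (hs : s ∉ k) : ∃ h : K, ¬ IsAlgebraic (adj k s) h := by
  obtain ⟨x, y, hx, hy⟩ := htr
  by_contra hcon
  push Not at hcon
  have h1 : IsAlgebraic (adj k x) s := exchange (fun h' => hx (hk x h')) (hcon x)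
  have h2 : adj k s ≤ rac (adj k x) :=
    adj_le ((le_adj k x).trans (le_rac _)) (mem_rac.2 h1)
  exact hy (isAlgebraic_rac (isAlgebraic_mono h2 (hcon y)))

theorem EndHyp.exists_t (H : Hyp ℓ k l Θ) (E : EndHyp ℓ k l Θ A e) {s : K} (hs : Good k s) :
    ∃ t, Good k t ∧ Good k (t + s) ∧ ¬ IsAlgebraic (adj k s) t ∧
      VS ℓ (adj l (A t)) ⊓ VS ℓ (adj l (A s)) = ⊥ := by
  have hrk := RAC_of_isAlgClosed k H.ack
  obtain ⟨h, hh⟩ := exists_free hrk H.trk hs.1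
  have hhk : h ∉ k := fun h' => hh (isAlgebraic_of_mem (le_adj _ _ h'))
  have hsk : ¬ IsAlgebraic k s := fun h' => hs.1 (hrk s h')
  have hhs : ¬ IsAlgebraic (adj k h) s := fun h' => hh (exchange hsk h')
  have h1 := H.bert h s hhk hhs
  have h2 := endg_shift h1 k.one_mem
  have hAh : A h ∉ l := by
    intro h'
    obtain ⟨b, hb, hb'⟩ := E.hA' _ h'
    exact hhk (A.injective hb' ▸ hb)
  have h3 := ae_of_image E.hA (meet_ae (ℓ := ℓ) H.acl H.fgl hAh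
    (fun h' => hhs (end_alg E.hA' h')))
  obtain ⟨c, hc, hc1, hc2, hc3⟩ := exists_ae H.uk (h1.and (h2.and h3))
  refine ⟨h + c * s, hc1, ?_, ?_, ?_⟩
  · have h4 : h + c * s + s = h + (c + 1) * s := by ring
    rw [h4]
    exact hc2
  · intro h'
    apply hh
    have h4 := (rac (adj k s)).sub_mem (mem_rac.2 h')
      ((rac (adj k s)).mul_mem (le_rac _ (le_adj k s hc)) (le_rac _ (mem_adj k s)))
    rw [add_sub_cancel_right] at h4
    exact mem_rac.1 h4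
  · rw [map_add, map_mul, eq_bot_iff, ← hc3]
    exact inf_le_inf_left _ le_sup_right

theorem EndHyp.D_const (H : Hyp ℓ k l Θ) (E : EndHyp ℓ k l Θ A e) {s : K} (hs : Good k s) {b : K}
    (hb : b ∈ k) : EndD Θ A e (cl ℓ (s - b)) = EndD Θ A e (cl ℓ s) := by
  obtain ⟨t, ht, hts, hst, hinf⟩ := E.exists_t H hs
  have hm : ∀ c ∈ k, cl ℓ (s - c) ∈ VS ℓ (adj k s) := fun c hc =>
    cl_mem_VS (Subfield.sub_mem _ (mem_adj _ _) (le_adj _ _ hc))
  have h1 := E.D_rel H ht hs hts hst hb k.zero_mem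
  have h2 := E.D_rel H ht hs hts hst k.zero_mem k.zero_mem
  have h3 := Submodule.sub_mem _ h1 h2
  rw [sub_sub_sub_cancel_right] at h3
  have h4 := Submodule.sub_mem _ (E.D_mem hs (hm b hb)) (E.D_mem hs (hm 0 k.zero_mem))
  have h5 : EndD Θ A e (cl ℓ (s - b)) - EndD Θ A e (cl ℓ (s - 0)) ∈
      VS ℓ (adj l (A t)) ⊓ VS ℓ (adj l (A s)) := ⟨h3, h4⟩
  rw [hinf, Submodule.mem_bot, sub_eq_zero, sub_zero] at h5
  exact h5

theorem EndHyp.D_good (H : Hyp ℓ k l Θ) (E : EndHyp ℓ k l Θ A e) {s : K} (hs : Good k s) :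
    EndD Θ A e (cl ℓ s) = 0 := by
  obtain ⟨t, ht, hts, hst, hinf⟩ := E.exists_t H hs
  have hrk := RAC_of_isAlgClosed k H.ack
  have hm : cl ℓ s ∈ VS ℓ (adj k s) := cl_mem_VS (mem_adj _ _)
  have hAs : A s ∉ l := (E.rt s hs).good'.1
  have h1 := H.bert s t hs.1 hst
  have h2 := ae_of_image E.hA (meet_ae (ℓ := ℓ) H.acl H.fgl hAs
    (fun h' => hst (end_alg E.hA' h')))
  have h3 : ∀ᶠ c in ae k, c ≠ 0 := by
    rw [ae_iff]
    exact (Set.finite_singleton (0 : K)).subset (fun c hc => by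
      by_contra h
      exact hc.2 h)
  obtain ⟨c, hc, hc1, hc2, hc0⟩ := exists_ae H.uk (h1.and (h2.and h3))
  have hadj : adj k (c * t) = adj k t := by
    apply le_antisymm
    · exact adj_le (le_adj _ _) (Subfield.mul_mem _ (le_adj _ _ hc) (mem_adj _ _))
    · refine adj_le (le_adj _ _) ?_
      have h4 := Subfield.mul_mem _ (le_adj k (c * t) (k.inv_mem hc)) (mem_adj k (c * t))
      rwa [inv_mul_cancel_left₀ hc0] at h4
  have hct : Good k (c * t) := by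
    refine ⟨fun h' => ht.1 ?_, by rw [hadj]; exact ht.2⟩
    have h4 := k.mul_mem (k.inv_mem hc) h'
    rwa [inv_mul_cancel_left₀ hc0] at h4
  have hct' : ¬ IsAlgebraic (adj k s) (c * t) := by
    intro h'
    apply hst
    have h4 := (rac (adj k s)).mul_mem (le_rac _ (le_adj k s (k.inv_mem hc))) (mem_rac.2 h')
    rw [inv_mul_cancel_left₀ hc0] at h4
    exact mem_rac.1 h4
  have hcts : Good k (c * t + s) := by rw [add_comm]; exact hc1
  have h4 := E.D_rel H hct hs hcts hct' k.zero_mem k.zero_mem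
  rw [sub_zero, sub_zero] at h4
  have h5 : VS ℓ (adj l (A (c * t))) ≤ VS ℓ (adj l (A t)) := by
    refine VS_mono (adj_le (le_adj _ _) ?_)
    rw [map_mul]
    exact Subfield.mul_mem _ (le_adj _ _ (E.hA c hc)) (mem_adj _ _)
  have h6 := h5 h4
  have h7 : EndD Θ A e (cl ℓ (c * t + s)) ∈ VS ℓ (adj l (A s + A c * A t)) := by
    have h8 := E.D_mem hcts (cl_mem_VS (mem_adj k (c * t + s)))
    rwa [map_add, map_mul, add_comm] at h8
  have h8 : EndD Θ A e (cl ℓ (c * t + s)) ∈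
      VS ℓ (adj l (A s + A c * A t)) ⊓ (VS ℓ (adj l (A s)) ⊔ VS ℓ (adj l (A t))) := by
    refine ⟨h7, ?_⟩
    have h9 : EndD Θ A e (cl ℓ (c * t + s)) = EndD Θ A e (cl ℓ s) -
        (EndD Θ A e (cl ℓ s) - EndD Θ A e (cl ℓ (c * t + s))) := by abel
    rw [h9]
    exact Submodule.sub_mem _ (Submodule.mem_sup_left (E.D_mem hs hm))
      (Submodule.mem_sup_right h6)
  rw [hc2, Submodule.mem_bot] at h8
  rw [h8, sub_zero] at h6
  have h9 : EndD Θ A e (cl ℓ s) ∈ VS ℓ (adj l (A t)) ⊓ VS ℓ (adj l (A s)) :=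
    ⟨h6, E.D_mem hs hm⟩
  rwa [hinf, Submodule.mem_bot] at h9

theorem EndHyp.D_zero (H : Hyp ℓ k l Θ) (E : EndHyp ℓ k l Θ A e) (x : K) :
    EndD Θ A e (cl ℓ x) = 0 := by
  have hrk := RAC_of_isAlgClosed k H.ack
  by_cases hx : x ∈ k
  · rw [line_cl_const H.ack hx, map_zero]
  have hx0 : x ≠ 0 := fun h => hx (h ▸ k.zero_mem)
  obtain ⟨z, hz⟩ := exists_free hrk H.trk hx
  have h1 := H.bert x z hx hz
  have hxx : x * x ∉ k := fun h' => hx (hrk x (by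
    refine IsAlgebraic.of_pow (n := 2) (by norm_num) ?_
    rw [pow_two]
    exact isAlgebraic_of_mem h'))
  have hle : adj k (x * x) ≤ adj k x :=
    adj_le (le_adj _ _) (Subfield.mul_mem _ (mem_adj _ _) (mem_adj _ _))
  have h2 := H.bert (x * x) (x * z) hxx (fun h' => hz (by
    have h3 := (rac (adj k x)).mul_mem (le_rac _ (Subfield.inv_mem _ (mem_adj k x)))
      (mem_rac.2 (isAlgebraic_mono hle h'))
    rw [inv_mul_cancel_left₀ hx0] at h3
    exact mem_rac.1 h3))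
  obtain ⟨c, hc, hc1, hc2⟩ := exists_ae H.uk (h1.and h2)
  have h3 : x * x + c * (x * z) = x * (x + c * z) := by ring
  rw [h3] at hc2
  have h4 : x + c * z ≠ 0 := fun h => hc1.1 (h ▸ k.zero_mem)
  have h5 := E.D_good H hc2
  rw [cl_mul ℓ hx0 h4, map_add, E.D_good H hc1, add_zero] at h5
  exact h5

/-- the isomorphism is a multiple of the map induced by the homomorphism. -/
theorem EndHyp.eq (H : Hyp ℓ k l Θ) (E : EndHyp ℓ k l Θ A e) (x : K) :
    Θ (cl ℓ x) = e⁻¹ • cl ℓ (A x) := by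
  have h := E.D_zero H x
  rw [EndD_apply, sub_eq_zero, Vmap_cl] at h
  exact h

/-- every element is a quotient of two good elements. -/
theorem exists_quot (hk : IsAlgClosed k) (uk : ¬ (k : Set K).Countable)
    (htr : ∃ x y : K, x ∉ k ∧ ¬ IsAlgebraic (adj k x) y)
    (bert : ∀ x y : K, x ∉ k → ¬ IsAlgebraic (adj k x) y → ∀ᶠ c in ae k, Good k (x + c * y))
    {x : K} (hx : x ∉ k) : ∃ g, Good k g ∧ Good k (x * g) := by
  have hrk := RAC_of_isAlgClosed k hk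
  have hx0 : x ≠ 0 := fun h => hx (h ▸ k.zero_mem)
  obtain ⟨z, hz⟩ := exists_free hrk htr hx
  have h1 := bert x z hx hz
  have hxx : x * x ∉ k := fun h' => hx (hrk x (by
    refine IsAlgebraic.of_pow (n := 2) (by norm_num) ?_
    rw [pow_two]
    exact isAlgebraic_of_mem h'))
  have hle : adj k (x * x) ≤ adj k x :=
    adj_le (le_adj _ _) (Subfield.mul_mem _ (mem_adj _ _) (mem_adj _ _))
  have h2 := bert (x * x) (x * z) hxx (fun h' => hz (by
    have h3 := (rac (adj k x)).mul_mem (le_rac _ (Subfield.inv_mem _ (mem_adj k x)))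
      (mem_rac.2 (isAlgebraic_mono hle h'))
    rw [inv_mul_cancel_left₀ hx0] at h3
    exact mem_rac.1 h3))
  obtain ⟨c, hc, hc1, hc2⟩ := exists_ae uk (h1.and h2)
  have h3 : x * x + c * (x * z) = x * (x + c * z) := by ring
  rw [h3] at hc2
  exact ⟨_, hc1, hc2⟩

omit [CharZero K] in
theorem adj_eq_of_VS (hl : IsAlgClosed l) (hfg : FG l (⊤ : Subfield L)) {x y : L} (hx : Good l x)
    (hy : Good l y) (h : VS ℓ (adj l y) ≤ VS ℓ (adj l x)) : y ∈ adj l x := by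
  by_contra hxy
  have h1 : ¬ IsAlgebraic (adj l x) y := fun h' => hxy (hx.2 y h')
  have h2 := int_top (ℓ := ℓ) hl hfg (le_adj l x) (le_adj l y) (mem_adj l y) h1
    (fun z hz => isAlgebraic_of_mem hz)
  rw [inf_eq_right.2 h] at h2
  exact VS_infinite hl hfg (le_adj l y) (fun h' => hy.1 (h' (mem_adj l y))) h2

/-- the homomorphism is surjective. -/
theorem EndHyp.surj (H : Hyp ℓ k l Θ) (E : EndHyp ℓ k l Θ A e)
    (hR : ∀ y, Good l y → ∃ x, Rt l k Θ.symm y x) : Function.Surjective A := by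
  have h1 : ∀ y, Good l y → ∃ x, A x = y := by
    intro y hy
    obtain ⟨x, hx⟩ := hR y hy
    have h2 := E.rt x hx.good'
    have h3 : VS ℓ (adj l y) ≤ VS ℓ (adj l (A x)) := by
      intro w hw
      have h4 := (hx.map w).2 hw
      have h5 := (h2.map (Θ.symm w)).2 h4
      rwa [Θ.apply_symm_apply] at h5
    have h4 : adj l (A x) ≤ A.fieldRange := by
      refine adj_le ?_ ⟨x, rfl⟩
      intro β hβ
      obtain ⟨b, _, rfl⟩ := E.hA' β hβ
      exact ⟨b, rfl⟩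
    exact h4 (adj_eq_of_VS H.acl H.fgl h2.good' hy h3)
  intro y
  by_cases hy : y ∈ l
  · obtain ⟨b, _, hb⟩ := E.hA' y hy
    exact ⟨b, hb⟩
  obtain ⟨g, hg1, hg2⟩ := exists_quot H.acl H.ul H.trl H.bert' hy
  obtain ⟨a, ha⟩ := h1 g hg1
  obtain ⟨b, hb⟩ := h1 _ hg2
  have hg0 : g ≠ 0 := fun h => hg1.1 (h ▸ l.zero_mem)
  refine ⟨b / a, ?_⟩
  rw [map_div₀, ha, hb, mul_div_cancel_right₀ _ hg0]

/-- the isomorphism comes from an isomorphism of fields. -/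
theorem EndHyp.final (H : Hyp ℓ k l Θ) (E : EndHyp ℓ k l Θ A e)
    (hR : ∀ y, Good l y → ∃ x, Rt l k Θ.symm y x) :
    ∃ (c : (ZMod ℓ)ˣ) (α : K ≃+* L), (∀ x, x ∈ k ↔ α x ∈ l) ∧
      ∀ x : K, Θ (cl ℓ x) = (c : ZMod ℓ) • cl ℓ (α x) := by
  refine ⟨(Units.mk0 e E.e0)⁻¹, RingEquiv.ofBijective A ⟨A.injective, E.surj H hR⟩, ?_, ?_⟩
  · intro x
    refine ⟨fun h => E.hA x h, fun h => ?_⟩
    obtain ⟨b, hb, hbx⟩ := E.hA' _ h
    exact A.injective hbx ▸ hb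
  · intro x
    rw [E.eq H x, Units.val_inv_eq_inv_val]
    rfl

end endgame

end Vale.Agent.P019
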