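import Vale.Agent.P019.Resid
import Vale.Agent.P019.Bert

/-!
# Frames and generic valuations
-/

namespace Vale.Agent.P019

open Polynomial Filter

variable {K : Type*} [Field K]

theorem mem_adjoin_simple {F : Subfield K} {x z : K} :
    z ∈ IntermediateField.adjoin F {x} ↔ z ∈ adj F x := by
  rw [adj_eq]
  exact Iff.rfl

theorem isAlgebraic_adjoin_simple {F : Subfield K} {x z : K} :
    IsAlgebraic (IntermediateField.adjoin F {x}) z ↔ IsAlgebraic (adj F x) z := by
  rw [adj_eq]
  exact Iff.rfl

theorem frb_ae {k : Subfield K} {P : K → Prop} (h : ∀ᶠ b : k in cofinite, P b) :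
    ∀ᶠ a in ae k, P a := by
  rw [ae_iff]
  rw [eventually_cofinite] at h
  refine (h.image Subtype.val).subset ?_
  rintro a ⟨ha, hPa⟩
  exact ⟨⟨a, ha⟩, hPa, rfl⟩

theorem frb_adj_comm (E : Subfield K) (x y : K) : adj (adj E x) y = adj (adj E y) x := by
  unfold adj
  exact sup_right_comm _ _ _

/-- primitive elements. -/
theorem exists_prim [CharZero K] {k F : Subfield K} (hkF : k ≤ F) (hfg : FG k (⊤ : Subfield K))
    (halg : ∀ z : K, IsAlgebraic F z) : ∃ θ : K, ∀ z, z ∈ adj F θ := by
  have : Algebra.EssFiniteType F K := bert_ess hkF hfg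
  have : Algebra.IsAlgebraic F K := ⟨halg⟩
  have : Module.Finite F K := Algebra.finite_of_essFiniteType_of_isAlgebraic
  obtain ⟨θ, hθ⟩ := Field.exists_primitive_element F K
  refine ⟨θ, fun z => mem_adjoin_simple.1 ?_⟩
  rw [hθ]
  exact IntermediateField.mem_top

theorem exists_over {F : Subfield K} {t : K} (ht : ¬ IsAlgebraic F t) {a : K} (ha : a ∈ F) :
    ∃ W : ValuationSubring K, Over W F t a := by
  have h1 : Transcendental F (t - a) := by
    intro h
    apply ht
    have h2 : t - a ∈ rac F := mem_rac.2 h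
    have h3 : t ∈ rac F := by
      have h4 := (rac F).add_mem h2 (le_rac F ha)
      rwa [sub_add_cancel] at h4
    exact mem_rac.1 h3
  obtain ⟨W, hW1, hW2⟩ := exists_triv F (t - a) h1
  exact ⟨W, hW1, hW2⟩

theorem exists_frame [CharZero K] {k : Subfield K} (hfg : FG k (⊤ : Subfield K)) {t s : K}
    (hs : ¬ IsAlgebraic k s) (ht : ¬ IsAlgebraic (adj k s) t) : ∃ G, Frame k G t s := by
  classical
  obtain ⟨S, hS⟩ := hfg
  let GT : Finset K → Subfield K := fun T => k ⊔ Subfield.closure (T : Set K)
  let 𝒯 : Finset (Finset K) := S.powerset.filter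
    (fun T => ¬ IsAlgebraic (GT T) s ∧ ¬ IsAlgebraic (adj (GT T) s) t)
  have hne : 𝒯.Nonempty := by
    refine ⟨∅, Finset.mem_filter.2 ⟨Finset.mem_powerset.2 (Finset.empty_subset _), ?_⟩⟩
    have : GT ∅ = k := by
      change k ⊔ Subfield.closure ((∅ : Finset K) : Set K) = k
      rw [Finset.coe_empty, Subfield.closure_empty, sup_bot_eq]
    rw [this]
    exact ⟨hs, ht⟩
  obtain ⟨T, hT, hmax⟩ := 𝒯.exists_max_image Finset.card hne
  rw [Finset.mem_filter, Finset.mem_powerset] at hT
  obtain ⟨hTS, hTs, hTt⟩ := hT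
  refine ⟨GT T, le_sup_left, ⟨T, rfl⟩, hTt, hTs, ?_⟩
  set H : Subfield K := adj (adj (GT T) s) t with hH
  have hkH : k ≤ H := (le_sup_left : k ≤ GT T).trans ((le_adj _ _).trans (le_adj _ _))
  have hgen : ∀ z ∈ S, IsAlgebraic H z := by
    intro z hz
    by_contra hcon
    have hzT : z ∉ T := by
      intro h
      apply hcon
      have h1 : z ∈ GT T := (le_sup_right : Subfield.closure (T : Set K) ≤ GT T)
        (Subfield.subset_closure h)
      exact isAlgebraic_of_mem (le_adj _ t (le_adj _ s h1))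
    have hG' : GT (insert z T) = adj (GT T) z := by
      change k ⊔ Subfield.closure ((insert z T : Finset K) : Set K) =
        (k ⊔ Subfield.closure (T : Set K)) ⊔ Subfield.closure {z}
      rw [Finset.coe_insert, Set.insert_eq, Subfield.closure_union, sup_assoc]
      congr 1
      exact sup_comm _ _
    have h1 : insert z T ∈ 𝒯 := by
      refine Finset.mem_filter.2 ⟨Finset.mem_powerset.2 (Finset.insert_subset hz hTS), ?_, ?_⟩
      · rw [hG']
        intro h
        exact hcon (isAlgebraic_mono (le_adj _ t) (exchange hTs h))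
      · rw [hG', frb_adj_comm]
        intro h
        exact hcon (exchange hTt h)
    have h2 := hmax _ h1
    rw [Finset.card_insert_of_notMem hzT] at h2
    omega
  intro z
  have h1 : (⊤ : Subfield K) ≤ rac H := by
    rw [hS]
    refine sup_le (hkH.trans (le_rac H)) (Subfield.closure_le.2 ?_)
    intro w hw
    exact mem_rac.2 (hgen w hw)
  exact mem_rac.1 (h1 (Subfield.mem_top z))

theorem Frame.swap {k G : Subfield K} {t s : K} (h : Frame k G t s) : Frame k G s t where
  le := h.le
  fg := h.fg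
  tt := fun h' => h.tt (exchange h.ss h')
  ss := fun h' => h.tt (isAlgebraic_mono (le_adj _ _) h')
  alg := fun z => by
    rw [frb_adj_comm]
    exact h.alg z

/-- for almost all `a`, every valuation subring over `t = a` is nice. -/
theorem Frame.nice [CharZero K] {k G : Subfield K} {t s : K} (h : Frame k G t s)
    (hfg : FG k (⊤ : Subfield K)) :
    ∃ θ : K, ∀ᶠ a in ae (adj G s), ∀ W : ValuationSubring K, Over W (adj G s) t a →
      Nice W (adj G s) (t - a) θ := by
  obtain ⟨θ, hθ⟩ := exists_prim (h.le.trans ((le_adj _ s).trans (le_adj _ t))) hfg h.alg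
  refine ⟨θ, ?_⟩
  set G' := adj G s with hG'
  have hθalg : IsAlgebraic (IntermediateField.adjoin G' {t}) θ :=
    isAlgebraic_adjoin_simple.2 (h.alg θ)
  have htop : ∀ z : K, z ∈ IntermediateField.adjoin (IntermediateField.adjoin G' {t}) {θ} := by
    intro z
    have h1 := hθ z
    rw [adj_eq G' t] at h1
    exact mem_adjoin_simple.2 h1
  refine frb_ae ?_
  filter_upwards [unif_ae h.tt hθalg htop, mem_ae hθalg, int_ae hθalg] with b h1 h2 h3 W hW
  obtain ⟨hu, hres⟩ := h1 W hW
  have hθW := h2 W hW
  have hint := h3 W hW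
  refine ⟨hu, hW.triv, hθW, hres, ?_⟩
  -- reduction of the minimal polynomial
  set F' := IntermediateField.adjoin G' {t} with hF'
  set Φ := minpoly F' θ with hΦ
  have hmon : Φ.Monic := minpoly.monic hθalg.isIntegral
  have hroot : aeval θ Φ = 0 := minpoly.aeval _ _
  have hX0 : t - (b : K) ≠ 0 := hu.1
  have hPF : ∀ i : ℕ, ((Φ.coeff i : F') : K) ∈ IntermediateField.adjoin G' {t - (b : K)} := by
    intro i
    rw [adjoin_sub]
    exact (Φ.coeff i).2
  choose r hr using fun i : ℕ => exists_residue_of_le hW.triv hW.lt hX0 (hPF i)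
    ((W.valuation_le_one_iff _).2 (hint i))
  refine ⟨Polynomial.X ^ Φ.natDegree +
    ∑ i ∈ Finset.range Φ.natDegree, C (r i) * Polynomial.X ^ i, ?_, ?_⟩
  · refine monic_X_pow_add ?_
    refine lt_of_le_of_lt (degree_sum_le _ _) ?_
    rw [Finset.sup_lt_iff (by exact WithBot.bot_lt_coe _)]
    intro i hi
    refine lt_of_le_of_lt (degree_C_mul_X_pow_le _ _) ?_
    exact_mod_cast Finset.mem_range.1 hi
  · have e : aeval θ (Polynomial.X ^ Φ.natDegree +
        ∑ i ∈ Finset.range Φ.natDegree, C (r i) * Polynomial.X ^ i : G'[X]) =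
        ∑ i ∈ Finset.range Φ.natDegree, ((r i : K) - (Φ.coeff i : K)) * θ ^ i := by
      have h4 : aeval θ Φ = θ ^ Φ.natDegree +
          ∑ i ∈ Finset.range Φ.natDegree, (Φ.coeff i : K) * θ ^ i := by
        rw [aeval_eq_sum_range, Finset.sum_range_succ, hmon.coeff_natDegree, one_smul, add_comm]
        rfl
      rw [hroot] at h4
      have h5 : θ ^ Φ.natDegree =
          -∑ i ∈ Finset.range Φ.natDegree, (Φ.coeff i : K) * θ ^ i :=
        eq_neg_of_add_eq_zero_left h4.symm
      rw [map_add, map_pow, aeval_X, map_sum, h5, neg_add_eq_sub, ← Finset.sum_sub_distrib]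
      refine Finset.sum_congr rfl fun i _ => ?_
      rw [map_mul, aeval_C, map_pow, aeval_X, sub_mul]
      rfl
    rw [e]
    refine Valuation.map_sum_lt _ one_ne_zero fun i _ => ?_
    rw [map_mul, map_pow]
    refine lt_of_le_of_lt (mul_le_of_le_one_right' (pow_le_one₀ zero_le
      ((W.valuation_le_one_iff _).2 hθW))) ?_
    rw [← Valuation.map_neg, neg_sub]
    exact hr i

/-- nonzero elements are units over `t = a` for almost all `a`. -/
theorem Frame.unit {k G : Subfield K} {t s : K} (h : Frame k G t s) {z : K} (hz : z ≠ 0) :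
    ∀ᶠ a in ae (adj G s), ∀ W : ValuationSubring K, Over W (adj G s) t a →
      W.valuation z = 1 := by
  have hzalg : IsAlgebraic (IntermediateField.adjoin (adj G s) {t}) z :=
    isAlgebraic_adjoin_simple.2 (h.alg z)
  exact frb_ae (unit_ae hzalg hz)

/-- `k(y)` is trivially valued if it is contained in `F` -/
theorem Over.trivOn {F : Subfield K} {W : ValuationSubring K} {t a : K} (h : Over W F t a)
    {E : Subfield K} (hE : ∀ z ∈ E, IsAlgebraic F z) : TrivOn W E :=
  fun c hc => h.triv.mem_of_isAlgebraic (hE c hc)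

end Vale.Agent.P019
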