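import Mathlib

namespace Vale.Agent.P019

open Polynomial IntermediateField

section Unr

variable {F L : Type*} [Field F] [Field L] [Algebra F L]

/-- all coefficients are integral at `W`. -/
def IntCoeff (W : ValuationSubring L) (G : F[X]) : Prop := ∀ i, algebraMap F L (G.coeff i) ∈ W

theorem IntCoeff.mul {W : ValuationSubring L} {G H : F[X]} (hG : IntCoeff W G)
    (hH : IntCoeff W H) : IntCoeff W (G * H) := by
  intro i
  rw [coeff_mul, map_sum]
  refine sum_mem fun x _ => ?_
  rw [map_mul]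
  exact mul_mem (hG _) (hH _)

theorem IntCoeff.add {W : ValuationSubring L} {G H : F[X]} (hG : IntCoeff W G)
    (hH : IntCoeff W H) : IntCoeff W (G + H) := by
  intro i
  rw [coeff_add, map_add]
  exact add_mem (hG _) (hH _)

theorem IntCoeff.neg {W : ValuationSubring L} {G : F[X]} (hG : IntCoeff W G) :
    IntCoeff W (-G) := by
  intro i
  rw [coeff_neg, map_neg]
  exact neg_mem (hG _)

theorem IntCoeff.sub {W : ValuationSubring L} {G H : F[X]} (hG : IntCoeff W G)
    (hH : IntCoeff W H) : IntCoeff W (G - H) := by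
  rw [sub_eq_add_neg]; exact hG.add hH.neg

theorem IntCoeff.one {W : ValuationSubring L} : IntCoeff W (1 : F[X]) := by
  intro i
  rw [coeff_one]
  split_ifs
  · rw [map_one]; exact one_mem _
  · rw [map_zero]; exact zero_mem _

theorem IntCoeff.C {W : ValuationSubring L} {a : F} (ha : algebraMap F L a ∈ W) :
    IntCoeff W (C a : F[X]) := by
  intro i
  rw [coeff_C]
  split_ifs
  · exact ha
  · rw [map_zero]; exact zero_mem _

/-- an element integral over the valuation ring is in the valuation ring -/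
theorem mem_of_root {W : ValuationSubring L} {θ : L} {Φ : F[X]} (hmon : Φ.Monic)
    (hint : IntCoeff W Φ) (hroot : aeval θ Φ = 0) : θ ∈ W := by
  by_contra hθ
  have h1 : 1 < W.valuation θ := by
    rw [← not_le]; intro h; exact hθ ((W.valuation_le_one_iff θ).1 h)
  have hθ0 : W.valuation θ ≠ 0 := fun h => by rw [h] at h1; exact absurd h1 (by simp)
  set n := Φ.natDegree with hn
  have hn0 : 0 < n := by
    rcases Nat.eq_zero_or_pos n with h | h
    · have : Φ = 1 := (Polynomial.Monic.natDegree_eq_zero hmon).1 (hn ▸ h)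
      rw [this] at hroot; simp at hroot
    · exact h
  have key : θ ^ n = - ∑ i ∈ Finset.range n, algebraMap F L (Φ.coeff i) * θ ^ i := by
    have := hroot
    rw [aeval_eq_sum_range, Finset.sum_range_succ, ← hn] at this
    have hc : Φ.coeff n = 1 := hmon
    rw [hc, one_smul] at this
    rw [eq_neg_iff_add_eq_zero, add_comm]
    simpa [Algebra.smul_def] using this
  have hlt : W.valuation (∑ i ∈ Finset.range n, algebraMap F L (Φ.coeff i) * θ ^ i)
      < W.valuation θ ^ n := by
    refine Valuation.map_sum_lt _ (pow_ne_zero _ hθ0) fun i hi => ?_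
    rw [map_mul, map_pow]
    calc _ ≤ 1 * W.valuation θ ^ i := by
            gcongr; exact (W.valuation_le_one_iff _).2 (hint i)
      _ = W.valuation θ ^ i := one_mul _
      _ < _ := pow_lt_pow_right₀ h1 (Finset.mem_range.1 hi)
  have h3 := congrArg W.valuation key
  rw [map_pow, Valuation.map_neg] at h3
  rw [← h3] at hlt
  exact lt_irrefl _ hlt

theorem aeval_mem {W : ValuationSubring L} {θ : L} (hθ : θ ∈ W) {G : F[X]}
    (hG : IntCoeff W G) : aeval θ G ∈ W := by
  rw [aeval_eq_sum_range]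
  refine sum_mem fun i _ => ?_
  rw [Algebra.smul_def]
  exact mul_mem (hG i) (pow_mem hθ i)

theorem small_dvd {R : Type*} [CommRing R] (i : R →+* L) (W : ValuationSubring L)
    (hi : ∀ a, i a ∈ W) (hu : ∀ a, W.valuation (i a) = 1 → IsUnit a) (π : R)
    (hπ : ∀ a, W.valuation (i a) < 1 → π ∣ a) (θ : L) (hθ : θ ∈ W) (n : ℕ)
    (hn : ∀ g : R[X], g.Monic → g.natDegree < n → ¬ W.valuation (eval₂ i θ g) < 1) :
    ∀ m : ℕ, ∀ r : R[X], r.natDegree ≤ m → r.natDegree < n → W.valuation (eval₂ i θ r) < 1 →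
      C π ∣ r := by
  have hθ1 : W.valuation θ ≤ 1 := (W.valuation_le_one_iff _).2 hθ
  intro m
  induction m with
  | zero =>
    intro r hr _ hv
    have : r = C (r.coeff 0) := eq_C_of_natDegree_le_zero hr
    rw [this, eval₂_C] at hv
    rw [this]
    obtain ⟨c, hc⟩ := hπ _ hv
    exact ⟨C c, by rw [hc, C_mul]⟩
  | succ m ih =>
    intro r hr hrn hv
    by_cases hr0 : r = 0
    · rw [hr0]; exact dvd_zero _
    have hlc : W.valuation (i r.leadingCoeff) < 1 := by
      by_contra hcon
      have h1 : W.valuation (i r.leadingCoeff) = 1 :=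
        le_antisymm ((W.valuation_le_one_iff _).2 (hi _)) (not_lt.1 hcon)
      obtain ⟨u, hu'⟩ := hu _ h1
      have hmon : (C (↑u⁻¹ : R) * r).Monic := by
        rw [Monic, leadingCoeff_mul']
        · rw [leadingCoeff_C, ← hu', Units.inv_mul]
        · rw [leadingCoeff_C, ← hu', Units.inv_mul]
          intro h10
          apply hr0
          have : (1 : R[X]) = 0 := by rw [← C_1, h10, C_0]
          rw [← one_mul r, this, zero_mul]
      have hdeg : (C (↑u⁻¹ : R) * r).natDegree ≤ r.natDegree := natDegree_C_mul_le _ _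
      refine hn _ hmon (lt_of_le_of_lt hdeg hrn) ?_
      rw [eval₂_mul, map_mul]
      exact lt_of_le_of_lt (mul_le_of_le_one_left' (by
        rw [eval₂_C]; exact (W.valuation_le_one_iff _).2 (hi _))) hv
    have hlead : W.valuation (eval₂ i θ (C r.leadingCoeff * X ^ r.natDegree)) < 1 := by
      rw [eval₂_mul, eval₂_C, eval₂_X_pow, map_mul, map_pow]
      exact lt_of_le_of_lt (mul_le_of_le_one_right' (pow_le_one₀ zero_le hθ1)) hlc
    have herase : W.valuation (eval₂ i θ r.eraseLead) < 1 := by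
      have : r.eraseLead = r - C r.leadingCoeff * X ^ r.natDegree := by
        rw [eq_sub_iff_add_eq, eraseLead_add_C_mul_X_pow]
      rw [this, eval₂_sub]
      exact Valuation.map_sub_lt _ hv hlead
    have hd : C π ∣ r.eraseLead := by
      by_cases he : r.natDegree = 0
      · have : r.eraseLead = 0 := by
          rw [eq_C_of_natDegree_eq_zero he]; simp
        rw [this]; exact dvd_zero _
      · have h1 : r.eraseLead.natDegree ≤ r.natDegree - 1 := eraseLead_natDegree_le r
        exact ih _ (by omega) (by omega) herase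
    obtain ⟨c, hc⟩ := hπ _ hlc
    rw [← eraseLead_add_C_mul_X_pow r]
    refine dvd_add hd ?_
    rw [hc, C_mul, mul_assoc]
    exact dvd_mul_right _ _

theorem stepA {R : Type*} [CommRing R] (i : R →+* L) (W : ValuationSubring L)
    (hi : ∀ a, i a ∈ W) (hu : ∀ a, W.valuation (i a) = 1 → IsUnit a) (π : R)
    (hπ1 : W.valuation (i π) < 1)
    (hπ : ∀ a, W.valuation (i a) < 1 → π ∣ a) (θ : L) (hθ : θ ∈ W) (Φ : R[X]) (hmon : Φ.Monic)
    (hroot : eval₂ i θ Φ = 0) (hder : W.valuation (eval₂ i θ (derivative Φ)) = 1) (G : R[X])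
    (hG : W.valuation (eval₂ i θ G) < 1) :
    ∃ G₂ h : R[X], W.valuation (eval₂ i θ h) = 1 ∧
      eval₂ i θ G * eval₂ i θ h = i π * eval₂ i θ G₂ := by
  classical
  have hev : ∀ P : R[X], W.valuation (eval₂ i θ P) ≤ 1 := by
    intro P
    rw [W.valuation_le_one_iff, eval₂_eq_sum_range]
    exact sum_mem fun j _ => mul_mem (hi _) (pow_mem hθ _)
  have hex : ∃ n : ℕ, ∃ g : R[X], g.Monic ∧ g.natDegree = n ∧ W.valuation (eval₂ i θ g) < 1 :=
    ⟨_, Φ, hmon, rfl, by rw [hroot, map_zero]; exact zero_lt_one⟩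
  obtain ⟨g, hg, hgn, hgv⟩ := Nat.find_spec hex
  have hmin : ∀ g' : R[X], g'.Monic → g'.natDegree < Nat.find hex →
      ¬ W.valuation (eval₂ i θ g') < 1 := fun g' h1 h2 h3 => Nat.find_min hex h2 ⟨g', h1, rfl, h3⟩
  rcases subsingleton_or_nontrivial R with hR | hR
  · exfalso
    have : (i 1 : L) = i 0 := by rw [Subsingleton.elim (1 : R) 0]
    rw [map_one, map_zero] at this
    exact one_ne_zero this
  have hg1 : g ≠ 1 := by
    rintro rfl
    rw [eval₂_one, map_one] at hgv
    exact lt_irrefl _ hgv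
  have key : ∀ P : R[X], W.valuation (eval₂ i θ P) < 1 →
      ∃ s' : R[X], P = g * (P /ₘ g) + C π * s' := by
    intro P hP
    have h1 := modByMonic_add_div P g
    have h2 : W.valuation (eval₂ i θ (P %ₘ g)) < 1 := by
      have : P %ₘ g = P - g * (P /ₘ g) := by rw [eq_sub_iff_add_eq, h1]
      rw [this, eval₂_sub, eval₂_mul]
      refine Valuation.map_sub_lt _ hP ?_
      rw [map_mul]
      exact lt_of_le_of_lt (mul_le_of_le_one_right' (hev _)) hgv
    have h3 : (P %ₘ g).natDegree < Nat.find hex := by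
      rw [← hgn]; exact natDegree_modByMonic_lt P hg hg1
    obtain ⟨s', hs'⟩ := small_dvd i W hi hu π hπ θ hθ _ hmin _ _ le_rfl h3 h2
    exact ⟨s', by rw [← hs', add_comm, h1]⟩
  obtain ⟨e, he⟩ := key Φ (by rw [hroot, map_zero]; exact zero_lt_one)
  obtain ⟨s', hs'⟩ := key G hG
  set h := Φ /ₘ g with hh
  refine ⟨s' * h - e * (G /ₘ g), h, ?_, ?_⟩
  · have hd : eval₂ i θ (derivative Φ) = eval₂ i θ (derivative g) * eval₂ i θ h +
        (eval₂ i θ g * eval₂ i θ (derivative h) + i π * eval₂ i θ (derivative e)) := by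
      conv_lhs => rw [he]
      simp only [derivative_add, derivative_mul, derivative_C, eval₂_add, eval₂_mul, eval₂_C,
        zero_mul, zero_add]
      ring
    have hsm : W.valuation (eval₂ i θ g * eval₂ i θ (derivative h) +
        i π * eval₂ i θ (derivative e)) < 1 := by
      refine Valuation.map_add_lt _ ?_ ?_
      · rw [map_mul]
        exact lt_of_le_of_lt (mul_le_of_le_one_right' (hev _)) hgv
      · rw [map_mul]
        exact lt_of_le_of_lt (mul_le_of_le_one_right' (hev _)) hπ1
    by_contra hne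
    have hlt : W.valuation (eval₂ i θ h) < 1 := lt_of_le_of_ne (hev _) hne
    have : W.valuation (eval₂ i θ (derivative Φ)) < 1 := by
      rw [hd]
      refine Valuation.map_add_lt _ ?_ hsm
      rw [map_mul]
      exact lt_of_le_of_lt (mul_le_of_le_one_left' (hev _)) hlt
    rw [hder] at this
    exact lt_irrefl _ this
  · have h1 : eval₂ i θ G = eval₂ i θ g * eval₂ i θ (G /ₘ g) + i π * eval₂ i θ s' := by
      conv_lhs => rw [hs']
      simp only [eval₂_add, eval₂_mul, eval₂_C]
    have h2 : eval₂ i θ g * eval₂ i θ h = - (i π * eval₂ i θ e) := by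
      have : eval₂ i θ Φ = eval₂ i θ g * eval₂ i θ h + i π * eval₂ i θ e := by
        conv_lhs => rw [he]
        simp only [eval₂_add, eval₂_mul, eval₂_C]
      rw [hroot] at this
      rw [eq_neg_iff_add_eq_zero, ← this]
    simp only [eval₂_sub, eval₂_mul]
    rw [h1]
    linear_combination (eval₂ i θ (G /ₘ g)) * h2

theorem exists_clear (W : ValuationSubring L) (π : F)
    (hπ : W.valuation (algebraMap F L π) < 1)
    (hF : ∀ z : F, z ≠ 0 → ∃ n : ℤ, W.valuation (algebraMap F L (z * π ^ n)) = 1) (P : F[X]) :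
    ∃ M : ℕ, ∀ j, M ≤ j → IntCoeff W (C (π ^ j) * P) := by
  have hone : ∀ a : F, ∃ M : ℕ, ∀ j, M ≤ j → algebraMap F L (π ^ j * a) ∈ W := by
    intro a
    by_cases ha : a = 0
    · exact ⟨0, fun j _ => by rw [ha, mul_zero, map_zero]; exact zero_mem _⟩
    obtain ⟨n, hn⟩ := hF a ha
    refine ⟨n.toNat, fun j hj => ?_⟩
    by_cases hπ0 : π = 0
    · by_cases hj0 : j = 0
      · subst hj0
        have hn0 : n ≤ 0 := by
          have : n.toNat = 0 := by omega
          omega
        rcases hn0.lt_or_eq with h | h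
        · rw [hπ0, zero_zpow _ h.ne, mul_zero, map_zero, map_zero] at hn
          exact absurd hn zero_ne_one
        · rw [h, zpow_zero, mul_one] at hn
          rw [pow_zero, one_mul, ← W.valuation_le_one_iff, hn]
      · rw [hπ0, zero_pow hj0, zero_mul, map_zero]; exact zero_mem _
    · have h1 : π ^ j * a = (a * π ^ n) * π ^ (j - n.toNat) * π ^ (n.toNat - n).toNat := by
        have h2 : π ^ j * a = a * (π ^ n * π ^ ((j : ℤ) - n)) := by
          rw [← zpow_add₀ hπ0]
          have : n + ((j : ℤ) - n) = j := by ring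
          rw [this, zpow_natCast, mul_comm]
        rw [h2, ← mul_assoc, mul_assoc (a * π ^ n)]
        congr 1
        rw [← pow_add, ← zpow_natCast]
        congr 1
        push_cast
        omega
      rw [h1, map_mul, map_mul, map_pow, map_pow, ← W.valuation_le_one_iff, map_mul, map_mul, hn,
        map_pow, map_pow, one_mul]
      exact mul_le_one' (pow_le_one₀ zero_le hπ.le) (pow_le_one₀ zero_le hπ.le)
  induction P using Polynomial.induction_on' with
  | add P Q hP hQ =>
    obtain ⟨M, hM⟩ := hP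
    obtain ⟨N, hN⟩ := hQ
    refine ⟨max M N, fun j hj => ?_⟩
    rw [mul_add]
    exact (hM j (le_trans (le_max_left _ _) hj)).add (hN j (le_trans (le_max_right _ _) hj))
  | monomial m a =>
    obtain ⟨M, hM⟩ := hone a
    refine ⟨M, fun j hj i => ?_⟩
    rw [C_mul_monomial, coeff_monomial]
    split_ifs
    · exact hM j hj
    · rw [map_zero]; exact zero_mem _

/-- the unramified lemma, including the description of the residues: if `θ` is integral over
`F ∩ W` and `Φ'(θ)` is a unit at `W`, every `z ≠ 0` in `F(θ)` is a power of `π` times a unit, and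
the unit is a quotient of polynomials in `θ` with integral coefficients which are units. -/
theorem unr_core (W : ValuationSubring L) (π : F)
    (hπ0 : π ≠ 0) (hπ : W.valuation (algebraMap F L π) < 1)
    (hF : ∀ z : F, z ≠ 0 → ∃ n : ℤ, W.valuation (algebraMap F L (z * π ^ n)) = 1)
    (θ : L) (Φ : F[X]) (hmon : Φ.Monic) (hint : IntCoeff W Φ)
    (hroot : aeval θ Φ = 0) (hder : W.valuation (aeval θ (derivative Φ)) = 1)
    (z : L) (hz : z ∈ F⟮θ⟯) (hz0 : z ≠ 0) :
    ∃ (n : ℤ) (G H : F[X]), IntCoeff W G ∧ IntCoeff W H ∧ W.valuation (aeval θ H) = 1 ∧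
      W.valuation (aeval θ G) = 1 ∧ z * algebraMap F L π ^ n * aeval θ H = aeval θ G := by
  classical
  have hθ : θ ∈ W := mem_of_root hmon hint hroot
  have hπL0 : algebraMap F L π ≠ 0 := by
    rw [Ne, map_eq_zero]; exact hπ0
  have hWπ0 : W.valuation (algebraMap F L π) ≠ 0 := (Valuation.ne_zero_iff _).2 hπL0
  have hWπpos : 0 < W.valuation (algebraMap F L π) := zero_lt_iff.2 hWπ0
  set R := W.comap (algebraMap F L) with hR
  let i : R →+* L := (algebraMap F L).comp R.subtype
  have hi : ∀ a : R, i a ∈ W := fun a => a.2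
  have hiπ : algebraMap F L π ∈ W := (W.valuation_le_one_iff _).1 hπ.le
  let π' : R := ⟨π, hiπ⟩
  have hu : ∀ a : R, W.valuation (i a) = 1 → IsUnit a := by
    intro a ha
    have ha0 : (a : F) ≠ 0 := by
      intro h
      have : i a = 0 := by change algebraMap F L (a : F) = 0; rw [h, map_zero]
      rw [this, map_zero] at ha; exact zero_ne_one ha
    have hinv : algebraMap F L (a : F)⁻¹ ∈ W := by
      rw [map_inv₀, ← W.valuation_le_one_iff, map_inv₀]
      have : W.valuation (algebraMap F L (a : F)) = 1 := ha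
      rw [this, inv_one]
    refine IsUnit.of_mul_eq_one (⟨(a : F)⁻¹, hinv⟩ : R) ?_
    ext
    exact mul_inv_cancel₀ ha0
  have hdvd : ∀ a : R, W.valuation (i a) < 1 → π' ∣ a := by
    intro a ha
    by_cases ha0 : (a : F) = 0
    · have : a = 0 := by ext; exact ha0
      rw [this]; exact dvd_zero _
    obtain ⟨n, hn⟩ := hF _ ha0
    have hn0 : n < 0 := by
      by_contra hcon
      obtain ⟨m, rfl⟩ := Int.eq_ofNat_of_zero_le (not_lt.1 hcon)
      rw [zpow_natCast, map_mul, map_mul, map_pow, map_pow] at hn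
      have h1 : W.valuation (algebraMap F L (a : F)) * W.valuation (algebraMap F L π) ^ m < 1 :=
        lt_of_le_of_lt (mul_le_of_le_one_right' (pow_le_one₀ zero_le hπ.le)) ha
      rw [hn] at h1; exact lt_irrefl _ h1
    obtain ⟨m, hm⟩ := Int.eq_ofNat_of_zero_le (show 0 ≤ -n - 1 by omega)
    have hn' : n = -((m : ℤ) + 1) := by
      have : -n - 1 = (m : ℤ) := hm
      omega
    have hq : algebraMap F L ((a : F) * π⁻¹) ∈ W := by
      have h2 : (a : F) * π⁻¹ = (a : F) * π ^ n * π ^ m := by
        rw [mul_assoc, hn', ← zpow_natCast π m, ← zpow_add₀ hπ0]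
        congr 1
        rw [show (-((m : ℤ) + 1) + (m : ℤ)) = -1 by ring, zpow_neg_one]
      rw [h2, map_mul, map_pow, ← W.valuation_le_one_iff, map_mul, map_pow, hn, one_mul]
      exact pow_le_one₀ zero_le hπ.le
    refine ⟨⟨(a : F) * π⁻¹, hq⟩, ?_⟩
    ext
    change (a : F) = π * ((a : F) * π⁻¹)
    field_simp
  -- lifting of polynomials
  have hlift : ∀ P : F[X], IntCoeff W P → ∃ P' : R[X], P'.map R.subtype = P := by
    intro P hP
    refine ⟨P.toSubring R.toSubring ?_, ?_⟩
    · intro a ha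
      obtain ⟨j, -, rfl⟩ := Polynomial.mem_coeffs_iff.1 ha
      exact hP j
    · exact Polynomial.map_toSubring P R.toSubring _
  have hunlift : ∀ P' : R[X], IntCoeff W (P'.map R.subtype) := by
    intro P' j
    rw [coeff_map]
    exact (P'.coeff j).2
  have hev : ∀ P' : R[X], eval₂ i θ P' = aeval θ (P'.map R.subtype) := by
    intro P'
    rw [aeval_def, eval₂_map]
  obtain ⟨Φ', hΦ'⟩ := hlift Φ hint
  have hmon' : Φ'.Monic := by
    apply Polynomial.monic_of_injective (f := R.subtype) R.subtype_injective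
    rw [hΦ']; exact hmon
  have hroot' : eval₂ i θ Φ' = 0 := by rw [hev, hΦ', hroot]
  have hder' : W.valuation (eval₂ i θ (derivative Φ')) = 1 := by
    rw [hev, ← derivative_map, hΦ', hder]
  have hstep := stepA i W hi hu π' (show W.valuation (i π') < 1 from hπ) hdvd θ hθ Φ' hmon' hroot'
    hder'
  have hevle : ∀ P : R[X], W.valuation (eval₂ i θ P) ≤ 1 := by
    intro P
    rw [W.valuation_le_one_iff, eval₂_eq_sum_range]
    exact sum_mem fun j _ => mul_mem (hi _) (pow_mem hθ _)
  -- iteration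
  have hiter : ∀ N : ℕ, ∀ y : L, (∃ G H : R[X], W.valuation (eval₂ i θ H) = 1 ∧
      y * eval₂ i θ H = eval₂ i θ G) → W.valuation (algebraMap F L π) ^ N < W.valuation y →
      ∃ (n : ℕ) (G H : R[X]), W.valuation (eval₂ i θ H) = 1 ∧ W.valuation (eval₂ i θ G) = 1 ∧
        y * eval₂ i θ H = algebraMap F L π ^ n * eval₂ i θ G := by
    intro N
    induction N with
    | zero =>
      rintro y ⟨G, H, hH, hy⟩ hlt
      exfalso
      have h1 := congrArg W.valuation hy
      rw [map_mul, hH, mul_one] at h1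
      rw [pow_zero, h1] at hlt
      exact absurd hlt (not_lt.2 (hevle G))
    | succ N ih =>
      rintro y ⟨G, H, hH, hy⟩ hlt
      have h1 := congrArg W.valuation hy
      rw [map_mul, hH, mul_one] at h1
      by_cases hG : W.valuation (eval₂ i θ G) = 1
      · exact ⟨0, G, H, hH, hG, by rw [pow_zero, one_mul, hy]⟩
      have hG' : W.valuation (eval₂ i θ G) < 1 := lt_of_le_of_ne (hevle G) hG
      obtain ⟨G₂, h, hh, hGh⟩ := hstep G hG'
      have hy2 : (y / algebraMap F L π) * eval₂ i θ (H * h) = eval₂ i θ G₂ := by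
        rw [eval₂_mul, div_mul_eq_mul_div, div_eq_iff hπL0]
        calc y * (eval₂ i θ H * eval₂ i θ h) = (y * eval₂ i θ H) * eval₂ i θ h := by ring
          _ = eval₂ i θ G * eval₂ i θ h := by rw [hy]
          _ = i π' * eval₂ i θ G₂ := hGh
          _ = eval₂ i θ G₂ * algebraMap F L π := mul_comm _ _
      have hlt2 : W.valuation (algebraMap F L π) ^ N <
          W.valuation (y / algebraMap F L π) := by
        rw [map_div₀, lt_div_iff₀ hWπpos, ← pow_succ]
        exact hlt
      obtain ⟨n, G₃, H₃, hH₃, hG₃, hy3⟩ := ih (y / algebraMap F L π) ⟨G₂, H * h, by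
        rw [eval₂_mul, map_mul, hH, hh, one_mul], hy2⟩ hlt2
      refine ⟨n + 1, G₃, H₃, hH₃, hG₃, ?_⟩
      rw [div_mul_eq_mul_div, div_eq_iff hπL0] at hy3
      rw [hy3, pow_succ]; ring
  -- representation of z
  have hθint : IsIntegral F θ := ⟨Φ, hmon, by rw [← aeval_def]; exact hroot⟩
  have hzA : z ∈ Algebra.adjoin F {θ} := by
    rw [← IntermediateField.adjoin_simple_toSubalgebra_of_isAlgebraic hθint.isAlgebraic]
    exact hz
  rw [Algebra.adjoin_singleton_eq_range_aeval] at hzA
  obtain ⟨P, hP⟩ := hzA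
  obtain ⟨M, hM⟩ := exists_clear W π hπ hF P
  obtain ⟨P', hP'⟩ := hlift _ (hM M le_rfl)
  set y := algebraMap F L π ^ M * z with hydef
  have hy0 : y ≠ 0 := mul_ne_zero (pow_ne_zero _ hπL0) hz0
  have hyP : y = eval₂ i θ P' := by
    rw [hev, hP', map_mul, aeval_C, map_pow]
    change _ = _ * (aeval θ) P
    rw [show (aeval θ) P = z from hP]
  have hyW : y ∈ W := by rw [hyP, ← W.valuation_le_one_iff]; exact hevle _
  -- lower bound
  have hyalg : IsAlgebraic F y := by
    have hyF : y ∈ F⟮θ⟯ := by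
      rw [hydef, ← map_pow]
      exact mul_mem (IntermediateField.algebraMap_mem _ _) hz
    have : FiniteDimensional F F⟮θ⟯ := IntermediateField.adjoin.finiteDimensional hθint
    have := Algebra.IsAlgebraic.isAlgebraic (R := F) (⟨y, hyF⟩ : F⟮θ⟯)
    exact (isAlgebraic_algebraMap_iff (algebraMap F⟮θ⟯ L).injective).2 this
  have hlow : ∃ N : ℕ, W.valuation (algebraMap F L π) ^ N < W.valuation y := by
    set p := minpoly F y with hp
    have hp0 : p.coeff 0 ≠ 0 := minpoly.coeff_zero_ne_zero hyalg.isIntegral hy0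
    obtain ⟨M₂, hM₂⟩ := exists_clear W π hπ hF p
    have hq := hM₂ M₂ le_rfl
    set q := C (π ^ M₂) * p with hqdef
    have hq0 : q.coeff 0 ≠ 0 := by
      rw [hqdef, coeff_C_mul]; exact mul_ne_zero (pow_ne_zero _ hπ0) hp0
    have hqy : aeval y q = 0 := by rw [hqdef, map_mul, hp, minpoly.aeval, mul_zero]
    have h1 : algebraMap F L (q.coeff 0) = - (y * aeval y q.divX) := by
      have h2 : aeval y (q.divX * X + C (q.coeff 0)) = 0 := by rw [divX_mul_X_add, hqy]
      rw [map_add, map_mul, aeval_X, aeval_C] at h2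
      rw [eq_neg_iff_add_eq_zero, ← h2]; ring
    have h3 : W.valuation (algebraMap F L (q.coeff 0)) ≤ W.valuation y := by
      rw [h1, Valuation.map_neg, map_mul]
      refine mul_le_of_le_one_right' ?_
      rw [W.valuation_le_one_iff]
      refine aeval_mem hyW ?_
      intro j
      rw [coeff_divX]; exact hq _
    obtain ⟨n, hn⟩ := hF _ hq0
    refine ⟨(-n).toNat + 1, lt_of_lt_of_le ?_ h3⟩
    rw [map_mul, map_mul, map_zpow₀, map_zpow₀] at hn
    have h4 : W.valuation (algebraMap F L (q.coeff 0)) =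
        (W.valuation (algebraMap F L π) ^ n)⁻¹ := eq_inv_of_mul_eq_one_left hn
    rw [h4, ← zpow_neg, ← zpow_natCast]
    refine zpow_lt_zpow_right_of_lt_one₀ hWπpos hπ ?_
    push_cast
    omega
  obtain ⟨N, hN⟩ := hlow
  obtain ⟨n, G, H, hH, hG, hyGH⟩ := hiter N y ⟨P', 1, by rw [eval₂_one, map_one], by
    rw [eval₂_one, mul_one, hyP]⟩ hN
  refine ⟨(M : ℤ) - n, G.map R.subtype, H.map R.subtype, hunlift _, hunlift _, ?_, ?_, ?_⟩
  · rw [← hev]; exact hH
  · rw [← hev]; exact hG
  · rw [← hev, ← hev, zpow_sub₀ hπL0, zpow_natCast, zpow_natCast]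
    have hpn : algebraMap F L π ^ n ≠ 0 := pow_ne_zero _ hπL0
    field_simp
    rw [hydef] at hyGH
    linear_combination hyGH

theorem unr (W : ValuationSubring L) (π : F)
    (hπ0 : π ≠ 0) (hπ : W.valuation (algebraMap F L π) < 1)
    (hF : ∀ z : F, z ≠ 0 → ∃ n : ℤ, W.valuation (algebraMap F L (z * π ^ n)) = 1)
    (θ : L) (Φ : F[X]) (hmon : Φ.Monic) (hint : IntCoeff W Φ)
    (hroot : aeval θ Φ = 0) (hder : W.valuation (aeval θ (derivative Φ)) = 1) :
    ∀ z ∈ F⟮θ⟯, z ≠ 0 → ∃ n : ℤ, W.valuation (z * algebraMap F L π ^ n) = 1 := by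
  intro z hz hz0
  obtain ⟨n, G, H, -, -, hH, hG, h⟩ := unr_core W π hπ0 hπ hF θ Φ hmon hint hroot hder z hz hz0
  refine ⟨n, ?_⟩
  have := congrArg W.valuation h
  rwa [map_mul, hH, hG, mul_one] at this

end Unr

end Vale.Agent.P019
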