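import Vale.Agent.P019.Val
import Vale.Agent.P019.Unr

namespace Vale.Agent.P019

open Polynomial

variable {K : Type*} [Field K]

/-- the valuation subring `W` is trivial on the subfield `F`. -/
def TrivOn (W : ValuationSubring K) (F : Subfield K) : Prop := ∀ c ∈ F, c ∈ W

theorem TrivOn.mono {W : ValuationSubring K} {F F' : Subfield K} (h : TrivOn W F)
    (hF : F' ≤ F) : TrivOn W F' := fun c hc => h c (hF hc)

theorem TrivOn.le_one {W : ValuationSubring K} {F : Subfield K} (h : TrivOn W F) {c : K}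
    (hc : c ∈ F) : W.valuation c ≤ 1 := (W.valuation_le_one_iff _).2 (h c hc)

theorem TrivOn.eq_one {W : ValuationSubring K} {F : Subfield K} (h : TrivOn W F) {c : K}
    (hc : c ∈ F) (hc0 : c ≠ 0) : W.valuation c = 1 := by
  refine le_antisymm (h.le_one hc) ?_
  have h1 := h.le_one (F.inv_mem hc)
  rw [map_inv₀] at h1
  have h0 : 0 < W.valuation c := zero_lt_iff.2 ((Valuation.ne_zero_iff _).2 hc0)
  exact (inv_le_one₀ h0).1 h1

theorem TrivOn.eq_zero {W : ValuationSubring K} {F : Subfield K} (h : TrivOn W F) {c : K}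
    (hc : c ∈ F) (hlt : W.valuation c < 1) : c = 0 := by
  by_contra h0
  rw [h.eq_one hc h0] at hlt
  exact lt_irrefl _ hlt

/-- elements algebraic over a trivially valued subfield are integral. -/
theorem TrivOn.mem_of_isAlgebraic {W : ValuationSubring K} {F : Subfield K} (h : TrivOn W F)
    {z : K} (hz : IsAlgebraic F z) : z ∈ W := by
  have hint := hz.isIntegral
  refine mem_of_root (F := F) (θ := z) (Φ := minpoly F z) (minpoly.monic hint) ?_
    (minpoly.aeval F z)
  intro i
  exact h _ ((minpoly F z).coeff i).2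

theorem TrivOn.eq_one_of_isAlgebraic {W : ValuationSubring K} {F : Subfield K}
    (h : TrivOn W F) {z : K} (hz : IsAlgebraic F z) (h0 : z ≠ 0) : W.valuation z = 1 := by
  refine le_antisymm ((W.valuation_le_one_iff _).2 (h.mem_of_isAlgebraic hz)) ?_
  have h1 := (W.valuation_le_one_iff _).2 (h.mem_of_isAlgebraic hz.inv)
  rw [map_inv₀] at h1
  have h0 : 0 < W.valuation z := zero_lt_iff.2 ((Valuation.ne_zero_iff _).2 h0)
  exact (inv_le_one₀ h0).1 h1

/-- existence of valuation rings centred at a proper ideal. -/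
theorem exists_val_of_proper (A : Subring K) (I : Ideal A) (hI : I ≠ ⊤) :
    ∃ W : ValuationSubring K, (∀ a ∈ A, a ∈ W) ∧
      ∀ a : A, a ∈ I → W.valuation (a : K) < 1 := by
  obtain ⟨B, hB1, hB2⟩ := Ideal.image_subset_nonunits_valuationSubring I hI
  refine ⟨B, fun a ha => hB1 ha, fun a ha => ?_⟩
  have := hB2 ⟨a, ha, rfl⟩
  exact (ValuationSubring.mem_nonunits_iff B).1 this

theorem exists_triv (F : Subfield K) (X : K) (hX : Transcendental F X) :
    ∃ W : ValuationSubring K, TrivOn W F ∧ W.valuation X < 1 := by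
  let A : Subring K := (Algebra.adjoin F {X}).toSubring
  have hXA : X ∈ A := Algebra.self_mem_adjoin_singleton F X
  have hprop : (Ideal.span {(⟨X, hXA⟩ : A)}) ≠ ⊤ := by
    intro h
    rw [Ideal.eq_top_iff_one, Ideal.mem_span_singleton'] at h
    obtain ⟨⟨a, ha⟩, h⟩ := h
    have h1 : a * X = 1 := congrArg Subtype.val h
    have ha' : a ∈ Algebra.adjoin F {X} := ha
    rw [Algebra.adjoin_singleton_eq_range_aeval] at ha'
    obtain ⟨P, hP⟩ := ha'
    have hP' : aeval X P = a := hP
    have h2 : aeval X (P * Polynomial.X - 1 : F[X]) = 0 := by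
      rw [map_sub, map_mul, aeval_X, map_one, hP', h1, sub_self]
    have h3 : (P * Polynomial.X - 1 : F[X]) = 0 := by
      by_contra hne
      exact hX ⟨_, hne, h2⟩
    have h4 := congrArg (fun q => Polynomial.coeff q 0) h3
    simp at h4
  obtain ⟨W, hW1, hW2⟩ := exists_val_of_proper A _ hprop
  refine ⟨W, fun c hc => hW1 c ?_, hW2 ⟨X, hXA⟩ (Ideal.mem_span_singleton_self _)⟩
  exact Subalgebra.algebraMap_mem _ (⟨c, hc⟩ : F)

section gauss

variable {F : Subfield K} {X : K} {W : ValuationSubring K}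

theorem val_of_sub {W : ValuationSubring K} {z c : K} (hc : W.valuation c = 1)
    (h : W.valuation (z - c) < 1) : W.valuation z = 1 := by
  have : z = c + (z - c) := by ring
  rw [this, Valuation.map_add_eq_of_lt_left, hc]
  rwa [hc]

theorem aeval_sub_coeff (hWF : TrivOn W F) (hWX : W.valuation X < 1) (P : F[X]) :
    W.valuation (aeval X P - (P.coeff 0 : K)) < 1 := by
  have h1 : aeval X P - (P.coeff 0 : K) = X * aeval X P.divX := by
    have h2 := congrArg (aeval X) (divX_mul_X_add P)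
    rw [map_add, map_mul, aeval_X, aeval_C] at h2
    rw [← h2]
    change _ + (P.coeff 0 : K) - (P.coeff 0 : K) = _
    ring
  rw [h1, map_mul]
  refine lt_of_le_of_lt (mul_le_of_le_one_right' ?_) hWX
  rw [W.valuation_le_one_iff]
  exact aeval_mem ((W.valuation_le_one_iff _).1 hWX.le) (fun i => hWF _ (P.divX.coeff i).2)

/-- nonzero elements of `F(X)` are `X^n` times a unit with residue in `F`. -/
theorem exists_residue (hWF : TrivOn W F) (hWX : W.valuation X < 1) (hX0 : X ≠ 0) {z : K}
    (hz : z ∈ IntermediateField.adjoin F {X}) (hz0 : z ≠ 0) :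
    ∃ (n : ℤ) (c : K), c ∈ F ∧ c ≠ 0 ∧ W.valuation (z * X ^ n - c) < 1 := by
  have hpoly : ∀ P : F[X], aeval X P ≠ 0 → ∃ (n : ℕ) (c u : K), c ∈ F ∧ c ≠ 0 ∧
      aeval X P = X ^ n * u ∧ W.valuation (u - c) < 1 := by
    intro P hP
    have hP0 : P ≠ 0 := by rintro rfl; exact hP (map_zero _)
    obtain ⟨Q, hQ, hQ2⟩ := exists_eq_pow_rootMultiplicity_mul_and_not_dvd P hP0 0
    rw [C_0, sub_zero] at hQ hQ2
    refine ⟨P.rootMultiplicity 0, Q.coeff 0, aeval X Q, (Q.coeff 0).2, ?_, ?_,
      aeval_sub_coeff hWF hWX Q⟩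
    · intro h
      apply hQ2
      rw [X_dvd_iff]
      exact Subtype.ext h
    · conv_lhs => rw [hQ]
      rw [map_mul, map_pow, aeval_X]
  rw [IntermediateField.mem_adjoin_simple_iff] at hz
  obtain ⟨P, Q, rfl⟩ := hz
  have hP : aeval X P ≠ 0 := fun h => hz0 (by rw [h, zero_div])
  have hQ : aeval X Q ≠ 0 := fun h => hz0 (by rw [h, div_zero])
  obtain ⟨n, c, u, hc, hc0, h1, h2⟩ := hpoly P hP
  obtain ⟨m, d, v, hd, hd0, h3, h4⟩ := hpoly Q hQ
  have hu : W.valuation u = 1 := val_of_sub (hWF.eq_one hc hc0) h2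
  have hv : W.valuation v = 1 := val_of_sub (hWF.eq_one hd hd0) h4
  have hv0 : v ≠ 0 := by rintro rfl; rw [map_zero] at hv; exact zero_ne_one hv
  refine ⟨(m : ℤ) - n, c / d, F.div_mem hc hd, div_ne_zero hc0 hd0, ?_⟩
  have e1 : aeval X P / aeval X Q * X ^ ((m : ℤ) - n) = u / v := by
    rw [h1, h3, zpow_sub₀ hX0, zpow_natCast, zpow_natCast]
    have : X ^ n ≠ 0 := pow_ne_zero _ hX0
    have : X ^ m ≠ 0 := pow_ne_zero _ hX0
    field_simp
  rw [e1]
  have e2 : u / v - c / d = ((u - c) * d - c * (v - d)) / (v * d) := by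
    field_simp; ring
  rw [e2, map_div₀, map_mul, hv, hWF.eq_one hd hd0, mul_one, div_one]
  refine Valuation.map_sub_lt _ ?_ ?_
  · rw [map_mul, hWF.eq_one hd hd0, mul_one]; exact h2
  · rw [map_mul, hWF.eq_one hc hc0, one_mul]; exact h4

theorem isAlgebraic_aeval {F : Subfield K} {θ : K} (hθ : IsAlgebraic F θ) (P : F[X]) :
    IsAlgebraic F (aeval θ P) := by
  have h : aeval θ P ∈ algebraicClosure F K := by
    rw [aeval_eq_sum_range]
    refine sum_mem fun i _ => ?_
    rw [Algebra.smul_def]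
    exact mul_mem (IntermediateField.algebraMap_mem _ _)
      (pow_mem ((mem_algebraicClosure_iff).2 hθ) i)
  exact mem_algebraicClosure_iff.1 h

/-- integral elements of `F(X)` are congruent to elements of `F`. -/
theorem exists_residue_of_le (hWF : TrivOn W F) (hWX : W.valuation X < 1) (hX0 : X ≠ 0) {z : K}
    (hz : z ∈ IntermediateField.adjoin F {X}) (hz1 : W.valuation z ≤ 1) :
    ∃ c : F, W.valuation (z - c) < 1 := by
  by_cases hz0 : z = 0
  · exact ⟨0, by simp [hz0]⟩
  rcases hz1.lt_or_eq with hlt | heq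
  · exact ⟨0, by simpa using hlt⟩
  obtain ⟨n, c, hc, hc0, h⟩ := exists_residue hWF hWX hX0 hz hz0
  have h1 := val_of_sub (hWF.eq_one hc hc0) h
  rw [map_mul, heq, one_mul, map_zpow₀] at h1
  have hn : n = 0 := by
    by_contra hn
    have hpos : 0 < W.valuation X := zero_lt_iff.2 ((Valuation.ne_zero_iff _).2 hX0)
    rcases lt_or_gt_of_ne hn with hn | hn
    · have := zpow_lt_zpow_right_of_lt_one₀ hpos hWX hn
      rw [h1, zpow_zero] at this; exact lt_irrefl _ this
    · have := zpow_lt_zpow_right_of_lt_one₀ hpos hWX hn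
      rw [h1, zpow_zero] at this; exact lt_irrefl _ this
  rw [hn, zpow_zero, mul_one] at h
  exact ⟨⟨c, hc⟩, h⟩

theorem gen_core (θ : K) (hX0 : X ≠ 0) (hWF : TrivOn W F)
    (hWX : W.valuation X < 1) (F' : IntermediateField F K)
    (hF' : F' = IntermediateField.adjoin F {X})
    (htop : ∀ z : K, z ∈ IntermediateField.adjoin F' {θ})
    (Φ : F'[X]) (hmon : Φ.Monic) (hint : IntCoeff W Φ)
    (hroot : aeval θ Φ = 0) (hder : W.valuation (aeval θ (derivative Φ)) = 1) :
    IsUnif W X ∧ ∀ z : K, W.valuation z ≤ 1 → ∃ G H : F[X], W.valuation (aeval θ H) = 1 ∧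
      W.valuation (z * aeval θ H - aeval θ G) < 1 := by
  let π : F' := ⟨X, by rw [hF']; exact IntermediateField.mem_adjoin_simple_self F X⟩
  have hπ0 : π ≠ 0 := fun h => hX0 (congrArg Subtype.val h)
  have hFrep : ∀ z : F', z ≠ 0 → ∃ n : ℤ, W.valuation (algebraMap F' K (z * π ^ n)) = 1 := by
    intro z hz
    have hzF : (z : K) ∈ IntermediateField.adjoin F {X} := by rw [← hF']; exact z.2
    obtain ⟨n, c, hc, hc0, h⟩ := exists_residue hWF hWX hX0 hzF
      (fun h => hz (Subtype.ext h))
    refine ⟨n, ?_⟩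
    rw [map_mul, map_zpow₀]
    exact val_of_sub (hWF.eq_one hc hc0) h
  have hcore := fun z (hz0 : z ≠ 0) => unr_core W π hπ0 hWX hFrep θ Φ hmon hint hroot hder z
    (htop z) hz0
  refine ⟨⟨hX0, hWX, ?_⟩, ?_⟩
  · intro z hz0
    obtain ⟨n, G, H, -, -, hH, hG, h⟩ := hcore z hz0
    refine ⟨n, ?_⟩
    have := congrArg W.valuation h
    rw [map_mul, hH, hG, mul_one] at this
    exact this
  · intro z hz1
    rcases hz1.lt_or_eq with hlt | heq
    · exact ⟨0, 1, by rw [map_one, map_one], by rw [map_one, map_zero, sub_zero, mul_one]; exact hlt⟩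
    have hz0 : z ≠ 0 := by rintro rfl; rw [map_zero] at heq; exact zero_ne_one heq
    obtain ⟨n, G, H, hGi, hHi, hH, hG, h⟩ := hcore z hz0
    have hn : n = 0 := by
      have h1 := congrArg W.valuation h
      rw [map_mul, map_mul, hH, hG, heq, mul_one, one_mul, map_zpow₀] at h1
      by_contra hn
      have hpos : 0 < W.valuation X := zero_lt_iff.2 ((Valuation.ne_zero_iff _).2 hX0)
      have h1' : W.valuation X ^ n = 1 := h1
      rcases lt_or_gt_of_ne hn with hn | hn
      · have := zpow_lt_zpow_right_of_lt_one₀ hpos hWX hn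
        rw [h1', zpow_zero] at this; exact lt_irrefl _ this
      · have := zpow_lt_zpow_right_of_lt_one₀ hpos hWX hn
        rw [h1', zpow_zero] at this; exact lt_irrefl _ this
    rw [hn, zpow_zero, mul_one] at h
    have hθW : θ ∈ W := mem_of_root hmon hint hroot
    have hred : ∀ P : F'[X], IntCoeff W P → ∃ P₀ : F[X],
        W.valuation (aeval θ P - aeval θ P₀) < 1 := by
      intro P hP
      have hPF : ∀ i : ℕ, ((P.coeff i : F') : K) ∈ IntermediateField.adjoin F {X} := by
        intro i; rw [← hF']; exact (P.coeff i).2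
      choose r hr using fun i : ℕ => exists_residue_of_le hWF hWX hX0 (hPF i)
        ((W.valuation_le_one_iff _).2 (hP i))
      refine ⟨∑ i ∈ Finset.range (P.natDegree + 1), C (r i) * Polynomial.X ^ i, ?_⟩
      have e : aeval θ P - aeval θ (∑ i ∈ Finset.range (P.natDegree + 1),
          C (r i) * Polynomial.X ^ i) =
          ∑ i ∈ Finset.range (P.natDegree + 1), ((P.coeff i : K) - (r i : K)) * θ ^ i := by
        rw [map_sum, aeval_eq_sum_range, ← Finset.sum_sub_distrib]
        refine Finset.sum_congr rfl fun i _ => ?_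
        rw [map_mul, aeval_C, map_pow, aeval_X, Algebra.smul_def, sub_mul]
        rfl
      rw [e]
      refine Valuation.map_sum_lt _ one_ne_zero fun i _ => ?_
      rw [map_mul, map_pow]
      exact lt_of_le_of_lt (mul_le_of_le_one_right' (pow_le_one₀ zero_le
        ((W.valuation_le_one_iff _).2 hθW))) (hr i)
    obtain ⟨G₀, hG₀⟩ := hred G hGi
    obtain ⟨H₀, hH₀⟩ := hred H hHi
    refine ⟨G₀, H₀, ?_, ?_⟩
    · refine val_of_sub hH ?_
      rw [← Valuation.map_neg, neg_sub]; exact hH₀
    · have e : z * aeval θ H₀ - aeval θ G₀ =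
          -(z * (aeval θ H - aeval θ H₀)) + (aeval θ G - aeval θ G₀) := by
        rw [← h]; ring
      rw [e]
      refine Valuation.map_add_lt _ ?_ hG₀
      rw [Valuation.map_neg, map_mul, heq, one_mul]
      exact hH₀

theorem gen [CharZero K] (F₁ : Subfield K) (θ : K) (hX0 : X ≠ 0) (hWF : TrivOn W F)
    (hWX : W.valuation X < 1) (hWF₁ : TrivOn W F₁)
    (hF₁ : ∀ z ∈ F₁, z ∈ IntermediateField.adjoin F {X}) (hθ : IsAlgebraic F₁ θ)
    (htop : ∀ z : K, z ∈ IntermediateField.adjoin (IntermediateField.adjoin F {X}) {θ}) :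
    IsUnif W X ∧ ∀ z : K, W.valuation z ≤ 1 → ∃ G H : F[X], W.valuation (aeval θ H) = 1 ∧
      W.valuation (z * aeval θ H - aeval θ G) < 1 := by
  set F' := IntermediateField.adjoin F {X} with hF'
  have hθint : IsIntegral F₁ θ := hθ.isIntegral
  let j : F₁ →+* F' := 
    { toFun := fun c => ⟨c.1, hF₁ _ c.2⟩
      map_one' := rfl
      map_mul' := fun _ _ => rfl
      map_zero' := rfl
      map_add' := fun _ _ => rfl }
  have haev : ∀ P : F₁[X], aeval θ (P.map j) = aeval θ P := by
    intro P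
    rw [aeval_def, aeval_def, eval₂_map]
    rfl
  refine gen_core θ hX0 hWF hWX F' hF' htop ((minpoly F₁ θ).map j)
    ((minpoly.monic hθint).map j) ?_ ?_ ?_
  · intro i
    rw [coeff_map]
    exact hWF₁ _ ((minpoly F₁ θ).coeff i).2
  · rw [haev, minpoly.aeval]
  · rw [derivative_map, haev]
    have hsep : (minpoly F₁ θ).Separable := (minpoly.irreducible hθint).separable
    refine hWF₁.eq_one_of_isAlgebraic ?_ (hsep.aeval_derivative_ne_zero (minpoly.aeval _ _))
    exact isAlgebraic_aeval hθ (derivative (minpoly F₁ θ))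

end gauss

end Vale.Agent.P019
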