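import Vale.Agent.P019.FinB
import Vale.Agent.P019.DelB

/-!
# Transfer of nice valuations
-/

namespace Vale.Agent.P019

open Polynomial Filter

variable {K L : Type*} [Field K] [Field L] [CharZero K] [CharZero L] {ℓ : ℕ} [Fact ℓ.Prime]
  {k : Subfield K} {l : Subfield L} {Θ : V ℓ K ≃ₗ[ZMod ℓ] V ℓ L}

omit [CharZero K] in
theorem exists_neg (hk : IsAlgClosed k) : ∃ i : K, i ^ ℓ = -1 := by
  obtain ⟨z, hz⟩ := IsAlgClosed.exists_pow_nat_eq (-1 : k) (Fact.out : ℓ.Prime).pos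
  refine ⟨z, ?_⟩
  have := congrArg (algebraMap k K) hz
  rw [map_pow, map_neg, map_one] at this
  exact this

theorem FG.adj {K : Type*} [Field K] {k F : Subfield K} (h : FG k F) (s : K) : FG k (adj F s) := by
  classical
  obtain ⟨S, rfl⟩ := h
  refine ⟨insert s S, ?_⟩
  rw [Finset.coe_insert, Set.insert_eq, Subfield.closure_union]
  unfold Vale.Agent.P019.adj
  rw [sup_comm (Subfield.closure {s}), sup_assoc]

omit [CharZero L] in
/-- existence of transferred valuations. -/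
theorem Hyp.exists_tr (H : Hyp ℓ k l Θ) {F : Subfield K} (hkF : k ≤ F) (hfg : FG k F)
    {W : ValuationSubring K} {π θ : K} (hW : Nice W F π θ) {y : K} (hy : Good k y)
    (hyW : TrivOn W (adj k y)) : ∃ O : ValuationSubring L, TrivOn O l ∧ Tr Θ W π O := by
  have hfin := hW.finite (ℓ := ℓ) H.ack hkF hfg (le_adj k y) hyW
  obtain ⟨g₀, -, hg₀⟩ := exists_nr H.ack hy hfin
  obtain ⟨O, hO1, hO2⟩ := transfer H.comp (exists_neg H.ack) (exists_neg H.acl) hW.unif g₀ hg₀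
  refine ⟨O, H.ltr (U1 ℓ W) y hy hfin O ?_, fun _ => hO1, hO2⟩
  intro z hz
  rw [← hO2, LinearEquiv.apply_symm_apply]
  exact cl_mem_U1 hz

omit [CharZero K] [CharZero L] in
theorem Rk2.map {A U : Submodule (ZMod ℓ) (V ℓ K)} {A' U' : Submodule (ZMod ℓ) (V ℓ L)}
    (h : Rk2 A U) (hA : ∀ v ∈ A, Θ v ∈ A') (hU : ∀ v, Θ v ∈ U' → v ∈ U) : Rk2 A' U' := by
  obtain ⟨u, hu, v, hv, h⟩ := h
  refine ⟨Θ u, hA u hu, Θ v, hA v hv, fun i j hij => h i j (hU _ ?_)⟩
  rwa [map_add, map_smul, map_smul]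

/-- the transferred valuation is trivial on curves corresponding to trivially valued ones. -/
theorem Hyp.triv_crv (H : Hyp ℓ k l Θ) {F : Subfield K} (hkF : k ≤ F) (hfg : FG k F)
    {W : ValuationSubring K} {π θ : K} (hW : Nice W F π θ) {O : ValuationSubring L}
    (hOl : TrivOn O l) (hT : Tr Θ W π O) {y : K} (hy : y ∉ k) (hyW : TrivOn W (adj k y))
    {E : Subfield L} (hE : Crv l E) (hVS : ∀ v ∈ VS ℓ (adj k y), Θ v ∈ VS ℓ E) :
    TrivOn O E := by
  refine triv_of_rk2 (ℓ := ℓ) H.acl hE hOl ?_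
  refine Rk2.map (Θ := Θ) (rk2_of_finite (VS_infinite H.ack H.fgk (le_adj k y)
    (fun h => hy (h (mem_adj k y))))
    (hW.finite (ℓ := ℓ) H.ack hkF hfg (le_adj k y) hyW)) hVS (fun v hv => (hT.iff v).1 hv)

omit [CharZero K] [CharZero L] in
theorem Tr.not_triv {W : ValuationSubring K} {π : K} {O : ValuationSubring L}
    (hT : Tr Θ W π O) (hW : IsUnif W π) {E : Subfield L} (h : Θ (cl ℓ π) ∈ VS ℓ E) :
    ¬ TrivOn O E := by
  intro hO
  obtain ⟨x, hx, hx0, hx1⟩ := h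
  have h1 := hT.unit hW x (hO.eq_one hx hx0)
  rw [← hx1, LinearEquiv.symm_apply_apply, hW.fn_self] at h1
  exact one_ne_zero h1

end Vale.Agent.P019
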