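import Vale.Agent.P019.ExMdl

/-!
# From algebras to models
-/

namespace Vale.Agent.P019

set_option linter.style.haveILetI false

open Polynomial

section iface

variable {k K : Type*} [Field k] [Field K] [Algebra k K]

/-- the image of the constants. -/
def cst (k K : Type*) [Field k] [Field K] [Algebra k K] : Subfield K :=
  (algebraMap k K).fieldRange

theorem mem_cst {x : K} : x ∈ cst k K ↔ ∃ c : k, algebraMap k K c = x := RingHom.mem_fieldRange

theorem algebraMap_mem_cst (c : k) : algebraMap k K c ∈ cst k K := mem_cst.2 ⟨c, rfl⟩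

/-- the constants and their image. -/
noncomputable def cstEquiv (k K : Type*) [Field k] [Field K] [Algebra k K] : k ≃+* cst k K :=
  RingEquiv.ofBijective ((algebraMap k K).codRestrict (cst k K) algebraMap_mem_cst)
    ⟨RingHom.injective _, by
      rintro ⟨x, hx⟩
      obtain ⟨c, rfl⟩ := mem_cst.1 hx
      exact ⟨c, rfl⟩⟩

theorem coe_cstEquiv (c : k) : (cstEquiv k K c : K) = algebraMap k K c := rfl

/-- X1 -/
theorem isAlgClosed_cst [IsAlgClosed k] : IsAlgClosed (cst k K) := by
  apply IsAlgClosed.of_exists_root
  intro p _ hirr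
  have h1 : (p.map (cstEquiv k K).symm.toRingHom).degree ≠ 0 := by
    rw [degree_map]
    exact (degree_pos_of_irreducible hirr).ne'
  obtain ⟨c, hc⟩ := IsAlgClosed.exists_root _ h1
  refine ⟨cstEquiv k K c, ?_⟩
  have h2 := congrArg (cstEquiv k K) (hc : eval c _ = 0)
  rw [map_zero] at h2
  have h3 : (p.map (cstEquiv k K).symm.toRingHom).map (cstEquiv k K).toRingHom = p := by
    rw [Polynomial.map_map]
    have h4 : (cstEquiv k K).toRingHom.comp (cstEquiv k K).symm.toRingHom =
        RingHom.id (cst k K) := by
      ext x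
      simp
    rw [h4, Polynomial.map_id]
  have h5 : eval (cstEquiv k K c) p =
      cstEquiv k K (eval c (p.map (cstEquiv k K).symm.toRingHom)) := by
    conv_lhs => rw [← h3]
    rw [eval_map]
    exact (Polynomial.hom_eval₂ _ (RingHom.id k) (cstEquiv k K).toRingHom c).symm
  change eval (cstEquiv k K c) p = 0
  rw [h5, h2]

theorem adjoin_cst (S : Set K) :
    (IntermediateField.adjoin k S).toSubfield = cst k K ⊔ Subfield.closure S := by
  apply le_antisymm
  · change Subfield.closure (Set.range (algebraMap k K) ∪ S) ≤ _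
    rw [Subfield.closure_le]
    rintro z (⟨a, rfl⟩ | hz)
    · exact (le_sup_left : cst k K ≤ cst k K ⊔ Subfield.closure S) (algebraMap_mem_cst a)
    · exact (le_sup_right : Subfield.closure S ≤ cst k K ⊔ Subfield.closure S)
        (Subfield.subset_closure hz)
  · refine sup_le ?_ ?_
    · intro z hz
      obtain ⟨c, rfl⟩ := mem_cst.1 hz
      exact (IntermediateField.adjoin k S).algebraMap_mem c
    · rw [Subfield.closure_le]
      exact IntermediateField.subset_adjoin k S

/-- X2 -/
theorem fg_cst [Algebra.EssFiniteType k K] : FG (cst k K) (⊤ : Subfield K) := by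
  obtain ⟨S, hS⟩ := IntermediateField.fg_top k K
  refine ⟨S, ?_⟩
  rw [← adjoin_cst, hS]
  rfl

theorem isAlgebraic_adjoin_cst (S : Set K) (z : K) :
    IsAlgebraic (Algebra.adjoin k S) z ↔
      IsAlgebraic (cst k K ⊔ Subfield.closure S : Subfield K) z := by
  rw [← IntermediateField.isAlgebraic_adjoin_iff, ← adjoin_cst]
  exact Iff.rfl

/-- X3 -/
theorem exists_two_of_trdeg (h : 2 ≤ Algebra.trdeg k K) :
    ∃ x y : K, x ∉ cst k K ∧ ¬ IsAlgebraic (adj (cst k K) x) y := by
  obtain ⟨s, hs⟩ := exists_isTranscendenceBasis k K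
  have h1 : (2 : Cardinal) ≤ Cardinal.mk s := by
    rw [hs.cardinalMk_eq_trdeg]
    exact h
  obtain ⟨x, y, hxy⟩ := Cardinal.two_le_iff.1 h1
  have h2 := hs.1
  have h3 : AlgebraicIndependent k (fun o : Option Unit => o.elim (y : K) (fun _ => (x : K))) := by
    have h4 : Function.Injective (fun o : Option Unit => o.elim y (fun _ => x)) := by
      rintro (_ | _) (_ | _) hab
      · rfl
      · exact absurd hab.symm hxy
      · exact absurd hab hxy
      · rfl
    have h5 := h2.comp _ h4
    have h6 : (fun o : Option Unit => o.elim (y : K) (fun _ => (x : K))) =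
        ((↑) : s → K) ∘ (fun o : Option Unit => o.elim y (fun _ => x)) := by
      funext o
      rcases o with _ | _ <;> rfl
    rw [h6]
    exact h5
  rw [AlgebraicIndependent.option_iff] at h3
  refine ⟨x, y, ?_, ?_⟩
  · intro hx
    obtain ⟨c, hc⟩ := mem_cst.1 hx
    have h4 := h2.transcendental x
    apply h4
    change IsAlgebraic k (x : K)
    rw [← hc]
    exact isAlgebraic_algebraMap c
  · intro hy
    apply h3.2
    rw [isAlgebraic_adjoin_cst]
    have h4 : Set.range (fun _ : Unit => (x : K)) = {(x : K)} := Set.range_const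
    rw [h4]
    exact hy

/-- X4 -/
theorem exists_mdl_of_algebra [IsAlgClosed k] [CharZero k] [Algebra.EssFiniteType k K]
    (h : 2 ≤ Algebra.trdeg k K) : ∃ M : Mdl K, M.k = cst k K := by
  haveI : CharZero K := charZero_of_injective_algebraMap (algebraMap k K).injective
  exact exists_mdl (cst k K) isAlgClosed_cst fg_cst (exists_two_of_trdeg h)

/-- X5 -/
theorem countable_cst_iff : ((cst k K : Subfield K) : Set K).Countable ↔ Countable k := by
  rw [← Set.countable_coe_iff]
  exact (cstEquiv k K).toEquiv.countable_iff.symm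

end iface

end Vale.Agent.P019
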