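import Mathlib

/-!
# Rigid elements and valuation rings

`LTData ℓ F Q` packages a logarithm `φ : F → Q` to a `ZMod ℓ`-module together with a
submodule `T` such that elements outside `T` are rigid, and one non-rigid element `g`.
The main result `LTData.exists_valuationSubring` produces a valuation ring.
-/

namespace Vale.Agent.P019

structure LTData (ℓ : ℕ) (F : Type*) [Field F] (Q : Type*) [AddCommGroup Q]
    [Module (ZMod ℓ) Q] where
  φ : F → Q
  T : Submodule (ZMod ℓ) Q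
  zero : φ 0 = 0
  mul : ∀ x y, x ≠ 0 → y ≠ 0 → φ (x * y) = φ x + φ y
  neg1 : φ (-1) = 0
  rig : ∀ x, φ x ∉ T → ∃ c : ZMod ℓ, φ (1 - x) = c • φ x
  g : F
  nr : ∀ i j : ZMod ℓ, i • φ g + j • φ (1 - g) = 0 → i = 0 ∧ j = 0

namespace LTData

set_option linter.unusedSectionVars false

variable {ℓ : ℕ} [Fact ℓ.Prime] {F : Type*} [Field F] {Q : Type*} [AddCommGroup Q]
    [Module (ZMod ℓ) Q] (D : LTData ℓ F Q)

theorem one : D.φ 1 = 0 := by
  have := D.mul 1 1 one_ne_zero one_ne_zero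
  rw [mul_one] at this
  simpa using this

theorem neg (x : F) : D.φ (-x) = D.φ x := by
  by_cases hx : x = 0
  · simp [hx]
  · have h := D.mul (-1) x (by simp) hx
    rw [D.neg1, zero_add] at h
    rw [← h]; congr 1; ring

theorem inv (x : F) : D.φ x⁻¹ = - D.φ x := by
  by_cases hx : x = 0
  · simp [hx, D.zero]
  · have h := D.mul x x⁻¹ hx (inv_ne_zero hx)
    rw [mul_inv_cancel₀ hx, D.one] at h
    exact eq_neg_of_add_eq_zero_right h.symm

theorem div {x y : F} (hx : x ≠ 0) (hy : y ≠ 0) : D.φ (x / y) = D.φ x - D.φ y := by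
  rw [div_eq_mul_inv, D.mul _ _ hx (inv_ne_zero hy), D.inv, sub_eq_add_neg]

theorem ne_zero {x : F} (h : D.φ x ∉ D.T) : x ≠ 0 := by
  rintro rfl
  exact h (by rw [D.zero]; exact D.T.zero_mem)

theorem ne_one {x : F} (h : D.φ x ∉ D.T) : x ≠ 1 := by
  rintro rfl
  exact h (by rw [D.one]; exact D.T.zero_mem)

theorem one_sub_ne_zero {x : F} (h : D.φ x ∉ D.T) : 1 - x ≠ 0 := by
  intro h0
  exact D.ne_one h (sub_eq_zero.1 h0).symm

theorem one_sub_inv {x : F} (hx : x ≠ 0) (hx1 : 1 - x ≠ 0) :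
    D.φ (1 - x⁻¹) = D.φ (1 - x) - D.φ x := by
  have : 1 - x⁻¹ = -((1 - x) / x) := by field_simp; ring
  rw [this, D.neg, D.div hx1 hx]

theorem smul_mem_iff' {c : ZMod ℓ} (hc : c ≠ 0) {v : Q} : c • v ∈ D.T ↔ v ∈ D.T :=
  D.T.smul_mem_iff hc

/-- non-rigid elements. -/
def NR (x : F) : Prop := ∀ i j : ZMod ℓ, i • D.φ x + j • D.φ (1 - x) = 0 → i = 0 ∧ j = 0

theorem NR.phi_ne_zero {D : LTData ℓ F Q} {x : F} (h : D.NR x) : D.φ x ≠ 0 := by
  intro h0
  have := (h 1 0 (by simp [h0])).1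
  exact one_ne_zero this

theorem NR.ne_zero {D : LTData ℓ F Q} {x : F} (h : D.NR x) : x ≠ 0 := by
  rintro rfl
  exact h.phi_ne_zero D.zero

theorem NR.phi_one_sub_ne_zero {D : LTData ℓ F Q} {x : F} (h : D.NR x) : D.φ (1 - x) ≠ 0 := by
  intro h0
  have := (h 0 1 (by simp [h0])).2
  exact one_ne_zero this

theorem NR.one_sub_ne_zero {D : LTData ℓ F Q} {x : F} (h : D.NR x) : 1 - x ≠ 0 := by
  intro h0
  exact h.phi_one_sub_ne_zero (by rw [h0, D.zero])

theorem NR.mem {D : LTData ℓ F Q} {x : F} (h : D.NR x) : D.φ x ∈ D.T := by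
  by_contra hx
  obtain ⟨c, hc⟩ := D.rig x hx
  have := (h c (-1) (by rw [hc]; module)).2
  exact (neg_ne_zero.2 one_ne_zero) this

theorem NR.one_sub {D : LTData ℓ F Q} {x : F} (h : D.NR x) : D.NR (1 - x) := by
  intro i j hij
  rw [sub_sub_cancel] at hij
  exact (h j i (by rw [← hij]; module)).symm

theorem NR.inv {D : LTData ℓ F Q} {x : F} (h : D.NR x) : D.NR x⁻¹ := by
  intro i j hij
  rw [D.inv, D.one_sub_inv h.ne_zero h.one_sub_ne_zero] at hij
  have := h (-i - j) j (by rw [← hij]; module)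
  obtain ⟨h1, h2⟩ := this
  subst h2
  refine ⟨?_, rfl⟩
  simpa using h1

theorem nr_g : D.NR D.g := D.nr

/-- Step 1: elements outside `T` satisfy `φ (1 - z) ∈ {0, φ z}`. -/
theorem dich {z : F} (hz : D.φ z ∉ D.T) : D.φ (1 - z) = 0 ∨ D.φ (1 - z) = D.φ z := by
  obtain ⟨α, hα⟩ := D.rig z hz
  by_cases hα0 : α = 0
  · left; rw [hα, hα0, zero_smul]
  right
  have hg := D.nr_g
  have hg0 := hg.ne_zero
  have hg1 := hg.one_sub_ne_zero
  have hp := hg.mem
  have hq := hg.one_sub.mem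
  have hz0 := D.ne_zero hz
  have hz1 := D.one_sub_ne_zero hz
  have h1z : D.φ (1 - z) ∉ D.T := by rw [hα, D.smul_mem_iff' hα0]; exact hz
  -- first computation
  have hw : D.φ (D.g / (1 - z)) ∉ D.T := by
    rw [D.div hg0 hz1]
    intro h
    exact h1z (by simpa using D.T.sub_mem hp h)
  obtain ⟨c, hc⟩ := D.rig _ hw
  have hw1 := D.one_sub_ne_zero hw
  have e1 : 1 - z - D.g = (1 - z) * (1 - D.g / (1 - z)) := by field_simp
  have e2 : D.φ (1 - z - D.g) = α • D.φ z + c • (D.φ D.g - α • D.φ z) := by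
    rw [e1, D.mul _ _ hz1 hw1, hc, D.div hg0 hz1, hα]
  -- second computation
  have hw' : D.φ (z / (1 - D.g)) ∉ D.T := by
    rw [D.div hz0 hg1]
    intro h
    exact hz (by simpa using D.T.add_mem h hq)
  obtain ⟨d, hd⟩ := D.rig _ hw'
  have hw1' := D.one_sub_ne_zero hw'
  have e3 : 1 - z - D.g = (1 - D.g) * (1 - z / (1 - D.g)) := by field_simp; ring
  have e4 : D.φ (1 - z - D.g) = D.φ (1 - D.g) + d • (D.φ z - D.φ (1 - D.g)) := by
    rw [e3, D.mul _ _ hg1 hw1', hd, D.div hz0 hg1]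
  have e5 := e2.symm.trans e4
  have e6 : (α - c * α - d) • D.φ z = (1 - d) • D.φ (1 - D.g) - c • D.φ D.g := by
    linear_combination (norm := module) e5
  have e7 : α - c * α - d = 0 := by
    by_contra hne
    refine hz ((D.smul_mem_iff' hne).1 ?_)
    rw [e6]
    exact D.T.sub_mem (D.T.smul_mem _ hq) (D.T.smul_mem _ hp)
  rw [e7, zero_smul] at e6
  obtain ⟨h1, h2⟩ := hg c (d - 1) (by linear_combination (norm := module) e6)
  have : α = 1 := by
    have hd1 : d = 1 := sub_eq_zero.1 h2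
    rw [h1, hd1] at e7
    simpa [sub_eq_zero] using e7
  rw [hα, this, one_smul]

/-- the set of elements outside `T` that are small. -/
def S : Set F := {z | D.φ z ∉ D.T ∧ D.φ (1 - z) = 0}

theorem mem_S {z : F} : z ∈ D.S ↔ D.φ z ∉ D.T ∧ D.φ (1 - z) = 0 := Iff.rfl

theorem S_ne_zero {z : F} (h : z ∈ D.S) : z ≠ 0 := D.ne_zero h.1

theorem S_one_sub_ne_zero {z : F} (h : z ∈ D.S) : 1 - z ≠ 0 := D.one_sub_ne_zero h.1

theorem phi_inv_notMem {z : F} (h : D.φ z ∉ D.T) : D.φ z⁻¹ ∉ D.T := by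
  rw [D.inv]; simpa using h

theorem inv_mem_S {z : F} (hz : D.φ z ∉ D.T) (h : z ∉ D.S) : z⁻¹ ∈ D.S := by
  refine ⟨D.phi_inv_notMem hz, ?_⟩
  rw [D.one_sub_inv (D.ne_zero hz) (D.one_sub_ne_zero hz)]
  rcases D.dich hz with h1 | h1
  · exact absurd ⟨hz, h1⟩ h
  · rw [h1, sub_self]

theorem not_both {z : F} (h : z ∈ D.S) (h' : z⁻¹ ∈ D.S) : False := by
  have h1 := h'.2
  rw [D.one_sub_inv (D.S_ne_zero h) (D.S_one_sub_ne_zero h), h.2, zero_sub, neg_eq_zero] at h1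
  exact h.1 (by rw [h1]; exact D.T.zero_mem)

/-- `φ (1 - x y) ∈ {0, φ x}` for `x, y ∈ S`. -/
theorem one_sub_mul {x y : F} (hx : x ∈ D.S) (hy : y ∈ D.S) :
    D.φ (1 - x * y) = 0 ∨ D.φ (1 - x * y) = D.φ x := by
  have hx0 := D.S_ne_zero hx
  have hx1 := D.S_one_sub_ne_zero hx
  have hy1 := D.S_one_sub_ne_zero hy
  have e : D.φ (-(x * (1 - y) / (1 - x))) = D.φ x := by
    rw [D.neg, D.div (mul_ne_zero hx0 hy1) hx1, D.mul _ _ hx0 hy1, hx.2, hy.2, add_zero, sub_zero]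
  have hw : D.φ (-(x * (1 - y) / (1 - x))) ∉ D.T := by rw [e]; exact hx.1
  have hw1 := D.one_sub_ne_zero hw
  have e1 : 1 - x * y = (1 - x) * (1 - -(x * (1 - y) / (1 - x))) := by field_simp; ring
  have e2 : D.φ (1 - x * y) = D.φ (1 - -(x * (1 - y) / (1 - x))) := by
    rw [e1, D.mul _ _ hx1 hw1, hx.2, zero_add]
  rw [e2]
  rcases D.dich hw with h | h
  · exact Or.inl h
  · right; rw [h, e]

/-- the key product property. -/
theorem prod {x y : F} (hx : x ∈ D.S) (hy : y ∈ D.S) (h : D.φ (x * y) ≠ 0) :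
    D.φ (1 - x * y) = 0 := by
  rcases D.one_sub_mul hx hy with h1 | h1
  · exact h1
  have h2' := D.one_sub_mul hy hx
  rw [mul_comm y x] at h2'
  rcases h2' with h2 | h2
  · exact h2
  exfalso
  have hxy : D.φ x = D.φ y := h1.symm.trans h2
  have hmul := D.mul x y (D.S_ne_zero hx) (D.S_ne_zero hy)
  by_cases hT : D.φ (x * y) ∈ D.T
  · have e : D.φ (x * y) = (2 : ZMod ℓ) • D.φ x := by rw [hmul, ← hxy]; module
    by_cases h20 : (2 : ZMod ℓ) = 0
    · rw [e, h20, zero_smul] at h; exact h rfl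
    · rw [e, D.smul_mem_iff' h20] at hT
      exact hx.1 hT
  · rcases D.dich hT with h3 | h3
    · rw [h1] at h3
      exact hx.1 (by rw [h3]; exact D.T.zero_mem)
    · rw [h1, hmul] at h3
      have : D.φ y = 0 := by simpa using h3
      exact hy.1 (by rw [this]; exact D.T.zero_mem)

theorem mul_mem_S {x y : F} (hx : x ∈ D.S) (hy : y ∈ D.S) (h : D.φ (x * y) ∉ D.T) :
    x * y ∈ D.S :=
  ⟨h, D.prod hx hy (fun h0 => h (by rw [h0]; exact D.T.zero_mem))⟩

theorem phi_mul_notMem {u s : F} (hu0 : u ≠ 0) (hu : D.φ u ∈ D.T) (hs : D.φ s ∉ D.T) :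
    D.φ (u * s) ∉ D.T := by
  rw [D.mul _ _ hu0 (D.ne_zero hs)]
  intro h
  exact hs (by simpa using D.T.sub_mem h hu)

/-- the stabilizer-type set. -/
def P : Set F := {y | y ≠ 0 ∧ D.φ y ∈ D.T ∧ ∀ s ∈ D.S, y * s ∈ D.S}

theorem mul_P {y y' : F} (h : y ∈ D.P) (h' : y' ∈ D.P) : y * y' ∈ D.P := by
  refine ⟨mul_ne_zero h.1 h'.1, ?_, ?_⟩
  · rw [D.mul _ _ h.1 h'.1]; exact D.T.add_mem h.2.1 h'.2.1
  · intro s hs
    rw [mul_assoc]
    exact h.2.2 _ (h'.2.2 s hs)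

theorem NR.mem_P {D : LTData ℓ F Q} {x : F} (h : D.NR x) : x ∈ D.P := by
  refine ⟨h.ne_zero, h.mem, ?_⟩
  intro s hs
  by_contra hns
  have h1 : D.φ (x * s) ∉ D.T := D.phi_mul_notMem h.ne_zero h.mem hs.1
  have h2 := D.inv_mem_S h1 hns
  have hs0 := D.S_ne_zero hs
  have hx0 := h.ne_zero
  have e : s * (x * s)⁻¹ = x⁻¹ := by field_simp
  have h3 := D.prod hs h2
  rw [e] at h3
  have h4 := h3 (by rw [D.inv]; exact neg_ne_zero.2 h.phi_ne_zero)
  exact h.inv.phi_one_sub_ne_zero h4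

theorem inv_g_mem_P : (D.g)⁻¹ ∈ D.P := D.nr_g.inv.mem_P

theorem g_mem_P : D.g ∈ D.P := D.nr_g.mem_P

theorem nr_div {x : F} (hx : x ∈ D.S) : D.NR (D.g / (1 - x)) := by
  have hg := D.nr_g
  have hg0 := hg.ne_zero
  have hg1 := hg.one_sub_ne_zero
  have hx1 := D.S_one_sub_ne_zero hx
  have hx0 := D.S_ne_zero hx
  have h1 : (1 - D.g)⁻¹ * x ∈ D.S := hg.one_sub.inv.mem_P.2.2 x hx
  have h2 := h1.2
  have h3 := D.S_one_sub_ne_zero h1
  have e : 1 - D.g / (1 - x) = (1 - D.g) * (1 - (1 - D.g)⁻¹ * x) / (1 - x) := by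
    field_simp; ring
  have e1 : D.φ (1 - D.g / (1 - x)) = D.φ (1 - D.g) := by
    rw [e, D.div (mul_ne_zero hg1 h3) hx1, D.mul _ _ hg1 h3, h2, hx.2, add_zero, sub_zero]
  have e2 : D.φ (D.g / (1 - x)) = D.φ D.g := by
    rw [D.div hg0 hx1, hx.2, sub_zero]
  intro i j hij
  rw [e1, e2] at hij
  exact hg i j hij

theorem one_sub_mem_P {x : F} (hx : x ∈ D.S) : 1 - x ∈ D.P := by
  have h1 := (D.nr_div hx).inv.mem_P
  have h2 := D.mul_P D.g_mem_P h1
  have hx1 := D.S_one_sub_ne_zero hx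
  have hg0 := D.nr_g.ne_zero
  have : D.g * (D.g / (1 - x))⁻¹ = 1 - x := by field_simp
  rwa [this] at h2

theorem inv_one_sub_mem_P {x : F} (hx : x ∈ D.S) : (1 - x)⁻¹ ∈ D.P := by
  have h1 := (D.nr_div hx).mem_P
  have h2 := D.mul_P D.inv_g_mem_P h1
  have hx1 := D.S_one_sub_ne_zero hx
  have hg0 := D.nr_g.ne_zero
  have : D.g⁻¹ * (D.g / (1 - x)) = (1 - x)⁻¹ := by field_simp
  rwa [this] at h2

theorem one_mem_P : (1 : F) ∈ D.P :=
  ⟨one_ne_zero, by rw [D.one]; exact D.T.zero_mem, fun s hs => by rwa [one_mul]⟩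

theorem neg_mem_S {s : F} (hs : s ∈ D.S) : -s ∈ D.S := by
  by_contra hns
  have h1 : D.φ (-s) ∉ D.T := by rw [D.neg]; exact hs.1
  have h2 := D.inv_mem_S h1 hns
  have hs0 := D.S_ne_zero hs
  have hg := D.nr_g
  have key : ∀ u, u ∈ D.P → D.φ u ≠ 0 → D.φ (1 + u) = 0 := by
    intro u hu hu0
    have h3 := D.prod (hu.2.2 s hs) h2
    have e : u * s * (-s)⁻¹ = -u := by field_simp
    rw [e, D.neg] at h3
    have := h3 hu0
    rwa [sub_neg_eq_add] at this
  have k1 := key _ D.g_mem_P hg.phi_ne_zero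
  have k2 := key _ D.inv_g_mem_P (by rw [D.inv]; exact neg_ne_zero.2 hg.phi_ne_zero)
  have hg0 := hg.ne_zero
  by_cases hg1 : 1 + D.g = 0
  · have : D.g = -1 := by linear_combination hg1
    exact hg.phi_ne_zero (by rw [this, D.neg1])
  · have e : 1 + (D.g)⁻¹ = (1 + D.g) / D.g := by field_simp; ring
    rw [e, D.div hg1 hg0, k1, zero_sub, neg_eq_zero] at k2
    exact hg.phi_ne_zero k2

theorem neg_one_mem_P : (-1 : F) ∈ D.P :=
  ⟨by simp, by rw [D.neg1]; exact D.T.zero_mem, fun s hs => by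
    rw [neg_one_mul]; exact D.neg_mem_S hs⟩

/-- Step 4: comparability. -/
theorem comparable {y : F} (hy0 : y ≠ 0) (hy : D.φ y ∈ D.T) : y ∈ D.P ∨ y⁻¹ ∈ D.P := by
  by_contra hcon
  push Not at hcon
  obtain ⟨hc1, hc2⟩ := hcon
  have hyi : D.φ y⁻¹ ∈ D.T := by rw [D.inv]; exact D.T.neg_mem hy
  have hs : ∃ s ∈ D.S, y * s ∉ D.S := by
    by_contra hne
    push Not at hne
    exact hc1 ⟨hy0, hy, hne⟩
  have ht : ∃ t ∈ D.S, y⁻¹ * t ∉ D.S := by
    by_contra hne
    push Not at hne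
    exact hc2 ⟨inv_ne_zero hy0, hyi, hne⟩
  obtain ⟨s, hs, hys⟩ := hs
  obtain ⟨t, ht, hyt⟩ := ht
  have hs0 := D.S_ne_zero hs
  have ht0 := D.S_ne_zero ht
  have h1 := D.inv_mem_S (D.phi_mul_notMem hy0 hy hs.1) hys
  have h2 := D.inv_mem_S (D.phi_mul_notMem (inv_ne_zero hy0) hyi ht.1) hyt
  have key : ∀ u, u ∈ D.P → u⁻¹ ∈ D.P → D.φ u = D.φ y := by
    intro u hu hui
    by_contra hne
    have hu0 := hu.1
    have k1 := D.prod (hu.2.2 s hs) h1
    have e1 : u * s * (y * s)⁻¹ = u / y := by field_simp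
    rw [e1, D.div hu0 hy0] at k1
    have k1 := k1 (sub_ne_zero.2 hne)
    have k2 := D.prod (hui.2.2 t ht) h2
    have e2 : u⁻¹ * t * (y⁻¹ * t)⁻¹ = (u / y)⁻¹ := by field_simp
    rw [e2, D.inv, D.div hu0 hy0] at k2
    have k2 := k2 (neg_ne_zero.2 (sub_ne_zero.2 hne))
    by_cases h10 : 1 - u / y = 0
    · have : u / y = 1 := (sub_eq_zero.1 h10).symm
      rw [div_eq_one_iff_eq hy0] at this
      exact hne (by rw [this])
    · rw [D.one_sub_inv (div_ne_zero hu0 hy0) h10, k1, zero_sub, neg_eq_zero,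
        D.div hu0 hy0, sub_eq_zero] at k2
      exact hne k2
  have a1 := key 1 D.one_mem_P (by rw [inv_one]; exact D.one_mem_P)
  have a2 := key D.g D.g_mem_P D.inv_g_mem_P
  rw [D.one] at a1
  exact D.nr_g.phi_ne_zero (a2.trans a1.symm)

/-- the carrier of the valuation ring. -/
def O : Set F := {z | z = 0 ∨ z ∈ D.S ∨ z ∈ D.P}

theorem zero_mem_O : (0 : F) ∈ D.O := Or.inl rfl

theorem S_sub_O {z : F} (h : z ∈ D.S) : z ∈ D.O := Or.inr (Or.inl h)

theorem P_sub_O {z : F} (h : z ∈ D.P) : z ∈ D.O := Or.inr (Or.inr h)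

theorem mem_or_inv (z : F) : z ∈ D.O ∨ z⁻¹ ∈ D.O := by
  by_cases hz0 : z = 0
  · left; rw [hz0]; exact D.zero_mem_O
  by_cases hz : D.φ z ∈ D.T
  · rcases D.comparable hz0 hz with h | h
    · exact Or.inl (D.P_sub_O h)
    · exact Or.inr (D.P_sub_O h)
  · by_cases h : z ∈ D.S
    · exact Or.inl (D.S_sub_O h)
    · exact Or.inr (D.S_sub_O (D.inv_mem_S hz h))

theorem mul_S_S {s t : F} (hs : s ∈ D.S) (ht : t ∈ D.S) : s * t ∈ D.O := by
  by_cases h : D.φ (s * t) ∈ D.T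
  · have hs0 := D.S_ne_zero hs
    have ht0 := D.S_ne_zero ht
    rcases D.comparable (mul_ne_zero hs0 ht0) h with h1 | h1
    · exact D.P_sub_O h1
    · exfalso
      have h2 := h1.2.2 s hs
      have e : (s * t)⁻¹ * s = t⁻¹ := by field_simp
      rw [e] at h2
      exact D.not_both ht h2
  · exact D.S_sub_O (D.mul_mem_S hs ht h)

theorem mul_mem_O {x y : F} (hx : x ∈ D.O) (hy : y ∈ D.O) : x * y ∈ D.O := by
  rcases hx with rfl | hx | hx
  · rw [zero_mul]; exact D.zero_mem_O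
  · rcases hy with rfl | hy | hy
    · rw [mul_zero]; exact D.zero_mem_O
    · exact D.mul_S_S hx hy
    · rw [mul_comm]; exact D.S_sub_O (hy.2.2 x hx)
  · rcases hy with rfl | hy | hy
    · rw [mul_zero]; exact D.zero_mem_O
    · exact D.S_sub_O (hx.2.2 y hy)
    · exact D.P_sub_O (D.mul_P hx hy)

theorem one_sub_mem_O {x : F} (hx : x ∈ D.O) : 1 - x ∈ D.O := by
  rcases hx with rfl | hx | hx
  · rw [sub_zero]; exact D.P_sub_O D.one_mem_P
  · exact D.P_sub_O (D.one_sub_mem_P hx)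
  · by_cases h0 : 1 - x = 0
    · rw [h0]; exact D.zero_mem_O
    by_cases hT : D.φ (1 - x) ∈ D.T
    · refine D.P_sub_O ⟨h0, hT, ?_⟩
      intro s hs
      refine ⟨D.phi_mul_notMem h0 hT hs.1, ?_⟩
      have hxs : x * s ∈ D.S := hx.2.2 s hs
      have h1 : (1 - s)⁻¹ * (x * s) ∈ D.S := (D.inv_one_sub_mem_P hs).2.2 _ hxs
      have h2 := D.neg_mem_S h1
      have hs1 := D.S_one_sub_ne_zero hs
      have h3 := D.S_one_sub_ne_zero h2
      have e : 1 - (1 - x) * s = (1 - s) * (1 - -((1 - s)⁻¹ * (x * s))) := by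
        field_simp; ring
      rw [e, D.mul _ _ hs1 h3, hs.2, h2.2, add_zero]
    · by_cases hS : 1 - x ∈ D.S
      · exact D.S_sub_O hS
      · exfalso
        have h1 := D.inv_mem_S hT hS
        have h2 := hx.2.2 _ h1
        have e : 1 - (1 - x)⁻¹ = -(x * (1 - x)⁻¹) := by field_simp; ring
        have h3 := h1.2
        rw [e, D.neg] at h3
        exact h2.1 (by rw [h3]; exact D.T.zero_mem)

theorem neg_mem_O {x : F} (hx : x ∈ D.O) : -x ∈ D.O := by
  have := D.mul_mem_O (D.P_sub_O D.neg_one_mem_P) hx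
  rwa [neg_one_mul] at this

theorem add_mem_O {x y : F} (hx : x ∈ D.O) (hy : y ∈ D.O) : x + y ∈ D.O := by
  by_cases hx0 : x = 0
  · rw [hx0, zero_add]; exact hy
  by_cases hy0 : y = 0
  · rw [hy0, add_zero]; exact hx
  rcases D.mem_or_inv (y / x) with h | h
  · have h1 := D.one_sub_mem_O (D.neg_mem_O h)
    have h2 := D.mul_mem_O hx h1
    have e : x * (1 - -(y / x)) = x + y := by field_simp; ring
    rwa [e] at h2
  · rw [inv_div] at h
    have h1 := D.one_sub_mem_O (D.neg_mem_O h)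
    have h2 := D.mul_mem_O hy h1
    have e : y * (1 - -(x / y)) = x + y := by field_simp; ring
    rwa [e] at h2

/-- the valuation ring. -/
def ring : ValuationSubring F where
  carrier := D.O
  mul_mem' := D.mul_mem_O
  one_mem' := D.P_sub_O D.one_mem_P
  add_mem' := D.add_mem_O
  zero_mem' := D.zero_mem_O
  neg_mem' := D.neg_mem_O
  mem_or_inv_mem' := D.mem_or_inv

theorem mem_ring {z : F} : z ∈ D.ring ↔ z ∈ D.O := Iff.rfl

theorem unit_mem {z : F} (hz0 : z ≠ 0) (h : z ∈ D.O) (h' : z⁻¹ ∈ D.O) : D.φ z ∈ D.T := by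
  by_contra hz
  have h1 : z ∈ D.S := by
    rcases h with h | h | h
    · exact absurd h hz0
    · exact h
    · exact absurd h.2.1 hz
  have hzi := D.phi_inv_notMem hz
  have h2 : z⁻¹ ∈ D.S := by
    rcases h' with h' | h' | h'
    · exact absurd h' (inv_ne_zero hz0)
    · exact h'
    · exact absurd h'.2.1 hzi
  exact D.not_both h1 h2

theorem one_add_of_lt {z : F} (hz0 : z ≠ 0) (h : z⁻¹ ∉ D.O) : D.φ (1 + z) = 0 := by
  have hz : z ∈ D.O := (D.mem_or_inv z).resolve_right h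
  rcases hz with hz | hz | hz
  · exact absurd hz hz0
  · have := (D.neg_mem_S hz).2
    rwa [sub_neg_eq_add] at this
  · -- `z` is a product of two elements of `S`
    have hzi : D.φ z⁻¹ ∈ D.T := by rw [D.inv]; exact D.T.neg_mem hz.2.1
    have hs : ∃ s ∈ D.S, z⁻¹ * s ∉ D.S := by
      by_contra hne
      push Not at hne
      exact h (D.P_sub_O ⟨inv_ne_zero hz0, hzi, hne⟩)
    obtain ⟨s, hs, hns⟩ := hs
    have hy := D.inv_mem_S (D.phi_mul_notMem (inv_ne_zero hz0) hzi hs.1) hns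
    set y := (z⁻¹ * s)⁻¹ with hydef
    have hs0 := D.S_ne_zero hs
    have e : z = s * y := by rw [hydef]; field_simp
    have hms := D.neg_mem_S hs
    have h1 : (1 - -s)⁻¹ ∈ D.P := D.inv_one_sub_mem_P hms
    have h2 : (1 - y) * s ∈ D.S := (D.one_sub_mem_P hy).2.2 s hs
    have h3 : (1 - -s)⁻¹ * ((1 - y) * s) ∈ D.S := h1.2.2 _ h2
    have h4 := D.S_one_sub_ne_zero h3
    have h5 := D.S_one_sub_ne_zero hms
    have e2 : 1 + z = (1 - -s) * (1 - (1 - -s)⁻¹ * ((1 - y) * s)) := by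
      rw [e]; field_simp; ring
    rw [e2, D.mul _ _ h5 h4, hms.2, h3.2, add_zero]

/-- **The rigid element theorem.** -/
theorem exists_valuationSubring :
    ∃ O : ValuationSubring F, (∀ z, O.valuation z = 1 → D.φ z ∈ D.T) ∧
      (∀ z, O.valuation z < 1 → D.φ (1 + z) = 0) := by
  refine ⟨D.ring, ?_, ?_⟩
  · intro z hz
    have hz0 : z ≠ 0 := by
      rintro rfl
      rw [map_zero] at hz
      exact zero_ne_one hz
    refine D.unit_mem hz0 ?_ ?_
    · rw [← D.mem_ring, ← ValuationSubring.valuation_le_one_iff, hz]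
    · rw [← D.mem_ring, ← ValuationSubring.valuation_le_one_iff, map_inv₀, hz, inv_one]
  · intro z hz
    by_cases hz0 : z = 0
    · rw [hz0, add_zero, D.one]
    refine D.one_add_of_lt hz0 ?_
    rw [← D.mem_ring, ← ValuationSubring.valuation_le_one_iff, map_inv₀, not_le]
    exact (one_lt_inv₀ (by
      rw [zero_lt_iff]; exact (Valuation.ne_zero_iff _).2 hz0)).2 hz

end LTData

end Vale.Agent.P019
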