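import Vale.Agent.P019.FrameB

/-!
# Rationality of functions that are constant on fibres
-/

namespace Vale.Agent.P019

open Polynomial Filter

variable {N : Type*} [Field N]

/-- the elements which become polynomial in `h` after multiplication by a power of `u`. -/
def locRing (B : Subring N) (u : N) (hu : u ∈ B) : Subring N where
  carrier := {x | ∃ m : ℕ, x * u ^ m ∈ B}
  mul_mem' := by
    rintro x y ⟨m, hm⟩ ⟨k, hk⟩
    refine ⟨m + k, ?_⟩
    have : x * y * u ^ (m + k) = (x * u ^ m) * (y * u ^ k) := by ring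
    rw [this]
    exact B.mul_mem hm hk
  one_mem' := ⟨0, by simp⟩
  add_mem' := by
    rintro x y ⟨m, hm⟩ ⟨k, hk⟩
    refine ⟨m + k, ?_⟩
    have : (x + y) * u ^ (m + k) = (x * u ^ m) * u ^ k + (y * u ^ k) * u ^ m := by ring
    rw [this]
    exact B.add_mem (B.mul_mem hm (B.pow_mem hu k)) (B.mul_mem hk (B.pow_mem hu m))
  zero_mem' := ⟨0, by simp⟩
  neg_mem' := by
    rintro x ⟨m, hm⟩
    refine ⟨m, ?_⟩
    rw [neg_mul]
    exact B.neg_mem hm

/-- if all valuations over `σ = b` kill `h - c` then a power of `h - c` is divisible by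
`σ - b` in `G[σ, h]`. -/
theorem exists_pow_eq {G : Subfield N} {σ h b c : N} (B : Subring N) (hG : ∀ g ∈ G, g ∈ B)
    (hσ : σ ∈ B) (hh : h ∈ B) (hb : b ∈ G) (hc : c ∈ G)
    (hW : ∀ W : ValuationSubring N, Over W G σ b → W.valuation (h - c) < 1) :
    ∃ m : ℕ, ∃ β ∈ B, (h - c) ^ m = (σ - b) * β := by
  by_cases h0 : h - c = 0
  · exact ⟨1, 0, B.zero_mem, by rw [h0]; simp⟩
  have hu : h - c ∈ B := B.sub_mem hh (hG c hc)
  let A := locRing B (h - c) hu
  have hBA : ∀ x ∈ B, x ∈ A := fun x hx => ⟨0, by simpa using hx⟩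
  have hsb : σ - b ∈ A := hBA _ (B.sub_mem hσ (hG b hb))
  by_cases hI : Ideal.span {(⟨σ - b, hsb⟩ : A)} = ⊤
  · rw [Ideal.eq_top_iff_one, Ideal.mem_span_singleton'] at hI
    obtain ⟨⟨a, m, ha⟩, h1⟩ := hI
    have h2 : a * (σ - b) = 1 := congrArg Subtype.val h1
    refine ⟨m, a * (h - c) ^ m, ha, ?_⟩
    rw [← mul_assoc, mul_comm (σ - b) a, h2, one_mul]
  · exfalso
    obtain ⟨W, hW1, hW2⟩ := exists_val_of_proper A _ hI
    have hov : Over W G σ b :=
      ⟨fun g hg => hW1 g (hBA g (hG g hg)), hW2 ⟨σ - b, hsb⟩ (Ideal.mem_span_singleton_self _)⟩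
    have h3 := hW W hov
    have h4 : (h - c)⁻¹ ∈ A := ⟨1, by
      rw [pow_one, inv_mul_cancel₀ h0]; exact B.one_mem⟩
    have h5 := (W.valuation_le_one_iff _).2 (hW1 _ h4)
    rw [map_inv₀] at h5
    have h6 : 0 < W.valuation (h - c) := zero_lt_iff.2 ((Valuation.ne_zero_iff _).2 h0)
    exact absurd h3 (not_lt.2 ((inv_le_one₀ h6).1 h5))

theorem residue_eq_zero {W : ValuationSubring N} (x : W) :
    IsLocalRing.residue W x = 0 ↔ W.valuation (x : N) < 1 := by
  rw [IsLocalRing.residue_eq_zero_iff, W.valuation_lt_one_iff]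

/-- monic divisors of a power of `T - c`. -/
theorem eq_pow_of_dvd {κ : Type*} [Field κ] {Φ : κ[X]} (hΦ : Φ.Monic) {c : κ} {m : ℕ}
    (h : Φ ∣ (X - C c) ^ m) : Φ = (X - C c) ^ Φ.natDegree := by
  obtain ⟨i, _, hi⟩ := (dvd_prime_pow (prime_X_sub_C c) m).1 h
  have h1 : Φ = (X - C c) ^ i :=
    eq_of_monic_of_associated hΦ ((monic_X_sub_C c).pow i) hi
  have h2 : Φ.natDegree = i := by
    rw [h1, natDegree_pow, natDegree_X_sub_C, mul_one]
  rw [h2]; exact h1

/-- the reduction argument over one point `b`. -/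
theorem lemZ_point {G : Subfield N} {σ h b c : N} [CharZero N] {W : ValuationSubring N}
    (F' : Subfield N) (hGF : G ≤ F') (hσF : σ ∈ F') (hh : IsAlgebraic F' h) (hb : b ∈ G)
    (hc : c ∈ G) (hov : Over W G σ b) (hint : IntCoeff W (minpoly F' h))
    (hW : ∀ W : ValuationSubring N, Over W G σ b → W.valuation (h - c) < 1) (t : F')
    (ht : ((minpoly F' h).natDegree : F') * t =
      -(minpoly F' h).coeff ((minpoly F' h).natDegree - 1)) (j : ℕ) :
    W.valuation (((minpoly F' h).coeff j -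
      ((X - C t) ^ (minpoly F' h).natDegree).coeff j : F') : N) < 1 := by
  set Φ := minpoly F' h with hΦdef
  have hmon : Φ.Monic := minpoly.monic hh.isIntegral
  have hn : 0 < Φ.natDegree := minpoly.natDegree_pos hh.isIntegral
  set n := Φ.natDegree with hndef
  -- the ring of `W`-integral elements of `F'`
  let O : Subring F' := W.toSubring.comap F'.subtype
  have hO : ∀ x : F', x ∈ O ↔ (x : N) ∈ W := fun x => Iff.rfl
  let ψ : O →+* W := (F'.subtype.comp O.subtype).codRestrict W.toSubring (fun x => x.2)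
  let ρ : O →+* IsLocalRing.ResidueField W := (IsLocalRing.residue W).comp ψ
  have hρ : ∀ x : O, ρ x = 0 ↔ W.valuation ((x : F') : N) < 1 := fun x => residue_eq_zero (ψ x)
  let ι : O →+* F' := O.subtype
  have hι : Function.Injective ι := Subtype.val_injective
  let jj : O →+* N := F'.subtype.comp ι
  let B : Subring N := (eval₂RingHom jj h).range
  have hσW : σ ∈ W := hov.mem hb
  have hGB : ∀ g ∈ G, g ∈ B := by
    intro g hg
    refine ⟨C (⟨⟨g, hGF hg⟩, hov.triv g hg⟩ : O), ?_⟩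
    simp [jj, ι]
  have hσB : σ ∈ B := by
    refine ⟨C (⟨⟨σ, hσF⟩, hσW⟩ : O), ?_⟩
    simp [jj, ι]
  have hhB : h ∈ B := ⟨X, by simp⟩
  obtain ⟨m, β, ⟨P, hP⟩, hm⟩ := exists_pow_eq B hGB hσB hhB hb hc hW
  let σO : O := ⟨⟨σ - b, F'.sub_mem hσF (hGF hb)⟩, (W.valuation_le_one_iff _).1 hov.lt.le⟩
  let cO : O := ⟨⟨c, hGF hc⟩, hov.triv c hc⟩
  let Ψ : O[X] := (X - C cO) ^ m - C σO * P
  have hΨ : aeval h (Ψ.map ι) = 0 := by
    rw [aeval_def, eval₂_map]
    have e1 : (algebraMap F' N).comp ι = jj := rfl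
    rw [e1]
    have e2 : eval₂ jj h P = β := hP
    have e3 : jj σO = σ - b := rfl
    have e4 : jj cO = c := rfl
    simp only [Ψ, eval₂_sub, eval₂_pow, eval₂_X, eval₂_C, eval₂_mul, e2, e3, e4, hm, sub_self]
  have hdvd : Φ ∣ Ψ.map ι := minpoly.dvd F' h hΨ
  -- lift of the minimal polynomial
  obtain ⟨Φ0, hΦ0, hΦ0m⟩ : ∃ Φ0 : O[X], Φ0.map ι = Φ ∧ Φ0.Monic := by
    have h1 : Φ ∈ lifts ι := by
      rw [lifts_iff_coeff_lifts]
      intro i
      exact ⟨⟨Φ.coeff i, hint i⟩, rfl⟩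
    obtain ⟨Q, hQ1, _, hQ3⟩ := lifts_and_natDegree_eq_and_monic h1 hmon
    exact ⟨Q, hQ1, hQ3⟩
  have hdvd0 : Φ0 ∣ Ψ := by
    rw [← hΦ0] at hdvd
    exact (map_dvd_map ι hι hΦ0m).1 hdvd
  have hred : Φ0.map ρ ∣ (X - C (ρ cO)) ^ m := by
    have h1 := Polynomial.map_dvd ρ hdvd0
    have h2 : Ψ.map ρ = (X - C (ρ cO)) ^ m := by
      have h3 : ρ σO = 0 := (hρ σO).2 hov.lt
      simp only [Ψ, Polynomial.map_sub, Polynomial.map_pow, Polynomial.map_mul, map_X, map_C, h3,
        map_zero, zero_mul, sub_zero]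
    rwa [h2] at h1
  have hmρ : (Φ0.map ρ).Monic := hΦ0m.map ρ
  have hn0 : Φ0.natDegree = n := by
    rw [hndef, ← hΦ0, hΦ0m.natDegree_map]
  have hdeg : (Φ0.map ρ).natDegree = n := by rw [hΦ0m.natDegree_map, hn0]
  have hpow := eq_pow_of_dvd hmρ hred
  rw [hdeg] at hpow
  -- the number `n` is a unit
  have hnW : (W.valuation (n : N)) = 1 :=
    hov.triv.eq_one (natCast_mem G n) (Nat.cast_ne_zero.2 hn.ne')
  have hnρ : ((n : O) : O) ≠ 0 ∧ ρ (n : O) ≠ 0 := by
    have h1 : ρ (n : O) ≠ 0 := by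
      intro h0
      have h2 := (hρ (n : O)).1 h0
      have h3 : (((n : O) : F') : N) = (n : N) := by simp
      rw [h3, hnW] at h2
      exact lt_irrefl _ h2
    refine ⟨fun h0 => h1 ?_, h1⟩
    rw [h0, map_zero]
  -- `t` is integral
  have htW : (t : N) ∈ W := by
    have h1 : (t : N) = (n : N)⁻¹ * (-(Φ.coeff (n - 1) : F') : F') := by
      rw [← ht]
      have h2 : (n : N) ≠ 0 := Nat.cast_ne_zero.2 hn.ne'
      push_cast
      rw [inv_mul_cancel_left₀ h2]
    rw [h1]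
    refine mul_mem (hov.triv _ (G.inv_mem (natCast_mem G n))) ?_
    have h3 := hint (n - 1)
    change (-((Φ.coeff (n - 1) : F') : N)) ∈ W
    exact neg_mem h3
  let t0 : O := ⟨t, htW⟩
  have ht0 : (n : O) * t0 = -Φ0.coeff (n - 1) := by
    apply hι
    rw [map_mul, map_natCast, map_neg]
    have h1 : ι (Φ0.coeff (n - 1)) = Φ.coeff (n - 1) := by rw [← hΦ0, coeff_map]
    rw [h1]
    exact ht
  have htc : ρ t0 = ρ cO := by
    have h1 := congrArg ρ ht0
    rw [map_mul, map_neg] at h1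
    have h2 : ρ (Φ0.coeff (n - 1)) = (Φ0.map ρ).coeff (n - 1) := (coeff_map ρ (n - 1)).symm
    rw [h2, hpow, sub_eq_add_neg, ← C_neg, coeff_X_add_C_pow] at h1
    have h3 : n - (n - 1) = 1 := by omega
    have h4 : n.choose (n - 1) = n := by
      rw [Nat.choose_symm_of_eq_add (show n = (n - 1) + 1 by omega), Nat.choose_one_right]
    rw [h3, h4, pow_one] at h1
    have h5 : ρ (n : O) = (n : IsLocalRing.ResidueField W) := map_natCast ρ n
    have h6 := hnρ.2
    rw [h5] at h1 h6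
    apply mul_left_cancel₀ h6
    linear_combination h1
  -- conclusion
  let f0 : O := Φ0.coeff j - ((X - C t0) ^ n).coeff j
  have hf0 : ρ f0 = 0 := by
    have h1 : ρ f0 = (Φ0.map ρ).coeff j - (((X - C t0) ^ n).map ρ).coeff j := by
      rw [coeff_map, coeff_map]; exact map_sub ρ _ _
    rw [h1, hpow, Polynomial.map_pow, Polynomial.map_sub, map_X, map_C, htc, sub_self]
  have h1 := (hρ f0).1 hf0
  have h2 : ((f0 : O) : F') = Φ.coeff j - ((X - C t) ^ n).coeff j := by
    change ι (Φ0.coeff j - ((X - C t0) ^ n).coeff j) = _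
    rw [map_sub, ← coeff_map, hΦ0, ← coeff_map, Polynomial.map_pow, Polynomial.map_sub, map_X,
      map_C]
    rfl
  rw [← h2]
  exact h1

theorem lemZ [CharZero N] {G : Subfield N} {σ h : N} (hσ : ¬ IsAlgebraic G σ)
    (hh : IsAlgebraic (adj G σ) h)
    (hinf : {b : N | b ∈ G ∧ ∃ c ∈ G, ∀ W : ValuationSubring N, Over W G σ b →
      W.valuation (h - c) < 1}.Infinite) : h ∈ adj G σ := by
  rw [← mem_adjoin_simple]
  have hh' : IsAlgebraic (IntermediateField.adjoin G {σ}) h := isAlgebraic_adjoin_simple.2 hh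
  set F' := IntermediateField.adjoin G {σ} with hF'
  set Φ := minpoly F' h with hΦdef
  have hmon : Φ.Monic := minpoly.monic hh'.isIntegral
  have hn : 0 < Φ.natDegree := minpoly.natDegree_pos hh'.isIntegral
  let t : F' := -(Φ.coeff (Φ.natDegree - 1)) / (Φ.natDegree : F')
  have hn0 : (Φ.natDegree : F') ≠ 0 := Nat.cast_ne_zero.2 hn.ne'
  have ht : (Φ.natDegree : F') * t = -(Φ.coeff (Φ.natDegree - 1)) := by
    simp only [t]
    field_simp
  have hkey : Φ = (X - C t) ^ Φ.natDegree := by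
    by_contra hne
    obtain ⟨j, hj⟩ : ∃ j, Φ.coeff j ≠ ((X - C t) ^ Φ.natDegree).coeff j := by
      by_contra hcon
      push Not at hcon
      exact hne (Polynomial.ext hcon)
    have hf : ((Φ.coeff j - ((X - C t) ^ Φ.natDegree).coeff j : F') : N) ≠ 0 := by
      intro h0
      apply hj
      have : Φ.coeff j - ((X - C t) ^ Φ.natDegree).coeff j = 0 := Subtype.ext h0
      exact sub_eq_zero.1 this
    have h1 := (int_ae hh').and (unit_ae_of_mem
      (Φ.coeff j - ((X - C t) ^ Φ.natDegree).coeff j : F').2 hf)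
    -- the infinite set in `G`
    have h2 : {b : G | ∃ c ∈ G, ∀ W : ValuationSubring N, Over W G σ b →
      W.valuation (h - c) < 1}.Infinite := by
      intro hfin
      apply hinf
      refine (hfin.image (fun b : G => (b : N))).subset ?_
      rintro b ⟨hb, hb'⟩
      exact ⟨⟨b, hb⟩, hb', rfl⟩
    obtain ⟨b, ⟨c, hc, hcW⟩, h3, h4⟩ :=
      ((frequently_cofinite_iff_infinite.2 h2).and_eventually h1).exists
    obtain ⟨W, hW⟩ := exists_over hσ b.2
    have h5 := lemZ_point (W := W) F'.toSubfield (fun g hg => F'.algebraMap_mem ⟨g, hg⟩)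
      (IntermediateField.mem_adjoin_simple_self G σ) hh' b.2 hc hW (h3 W hW) hcW t ht j
    have h6 := h4 W hW
    exact absurd h6 (ne_of_lt h5)
  have h1 : aeval h Φ = 0 := minpoly.aeval F' h
  rw [hkey, map_pow, map_sub, aeval_X, aeval_C] at h1
  have h2 : h - algebraMap F' N t = 0 := eq_zero_of_pow_eq_zero h1
  rw [sub_eq_zero] at h2
  rw [h2]
  exact t.2

end Vale.Agent.P019
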