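import Vale.Agent.P019.FrameB
import Vale.Agent.P019.Gen

/-!
# Rational functions with many values in a smaller field
-/

namespace Vale.Agent.P019

open Polynomial Filter

variable {N : Type*} [Field N]

/-- a linear functional applied to the coefficients of a polynomial. -/
noncomputable def ratDescPl {k G : Type*} [Field k] [Field G] [Algebra k G] (f : G →ₗ[k] k)
    (P : G[X]) : k[X] := ∑ i ∈ P.support, monomial i (f (P.coeff i))

theorem ratDescPl_coeff {k G : Type*} [Field k] [Field G] [Algebra k G] (f : G →ₗ[k] k)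
    (P : G[X]) (i : ℕ) : (ratDescPl f P).coeff i = f (P.coeff i) := by
  unfold ratDescPl
  rw [finsetSum_coeff]
  simp only [coeff_monomial]
  rw [Finset.sum_ite_eq' P.support i (fun j => f (P.coeff j))]
  split_ifs with h
  · rfl
  · rw [notMem_support_iff.1 h, map_zero]

theorem ratDescPl_eval {k G : Type*} [Field k] [Field G] [Algebra k G] (f : G →ₗ[k] k)
    (P : G[X]) (b : k) : (ratDescPl f P).eval b = f (P.eval (algebraMap k G b)) := by
  unfold ratDescPl
  rw [eval_finsetSum, eval_eq_sum, Polynomial.sum_def, map_sum]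
  refine Finset.sum_congr rfl fun i _ => ?_
  rw [eval_monomial, ← map_pow, mul_comm (P.coeff i), ← Algebra.smul_def, map_smul,
    smul_eq_mul, mul_comm]

theorem rat_descent {k G : Subfield N} (hkG : k ≤ G) {σ h : N} (hσ : ¬ IsAlgebraic G σ)
    (hh : h ∈ adj G σ)
    (hinf : {b : N | b ∈ k ∧ ∃ c ∈ k, ∀ W : ValuationSubring N, Over W G σ b →
      W.valuation (h - c) < 1}.Infinite) : h ∈ adj k σ := by
  classical
  obtain ⟨P, Q, hPQ⟩ := Gn.mem_adj_frac hh
  by_cases hQ0 : Q = 0
  · rw [hPQ, hQ0, map_zero, div_zero]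
    exact zero_mem _
  have hQσ : aeval σ Q ≠ 0 := fun h0 => hσ ⟨Q, hQ0, h0⟩
  let _ : Algebra k G := (Subfield.inclusion hkG).toAlgebra
  have hval : ∀ b : G, (b : N) ∈ {b : N | b ∈ k ∧ ∃ c ∈ k, ∀ W : ValuationSubring N,
      Over W G σ b → W.valuation (h - c) < 1} →
      ∃ c : k, P.eval b = algebraMap k G c * Q.eval b := by
    rintro b ⟨hb, c, hc, hW⟩
    obtain ⟨W, hover⟩ := exists_over hσ b.2
    refine ⟨⟨c, hc⟩, ?_⟩
    have e1 := aeval_sub_eval hover P
    have e2 := aeval_sub_eval hover Q
    have e3 := hW W hover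
    have e4 : h * aeval σ Q = aeval σ P := by
      rw [hPQ, div_mul_cancel₀ _ hQσ]
    have hQW : W.valuation (aeval σ Q) ≤ 1 := by
      rw [W.valuation_le_one_iff]
      exact aeval_mem (hover.mem b.2) (fun i => hover.triv _ (Q.coeff i).2)
    have hcW : W.valuation c ≤ 1 := by
      rw [W.valuation_le_one_iff]
      exact hover.triv _ (hkG hc)
    have e5 : W.valuation (((P.eval b : G) : N) - c * (Q.eval b : G)) < 1 := by
      have e6 : ((P.eval b : G) : N) - c * (Q.eval b : G) =
          -(aeval σ P - (P.eval b : G)) + (h - c) * aeval σ Q +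
            c * (aeval σ Q - (Q.eval b : G)) := by
        rw [← e4]; ring
      rw [e6]
      refine W.valuation.map_add_lt (W.valuation.map_add_lt ?_ ?_) ?_
      · rw [Valuation.map_neg]; exact e1
      · rw [map_mul]
        exact lt_of_le_of_lt (mul_le_of_le_one_right' hQW) e3
      · rw [map_mul]
        exact lt_of_le_of_lt (mul_le_of_le_one_left' hcW) e2
    have e7 : ((P.eval b : G) : N) - c * (Q.eval b : G) = 0 := by
      by_contra hne
      have hmem : ((P.eval b : G) : N) - c * (Q.eval b : G) ∈ G :=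
        sub_mem (P.eval b : G).2 (mul_mem (hkG hc) (Q.eval b : G).2)
      rw [hover.triv.eq_one hmem hne] at e5
      exact lt_irrefl _ e5
    apply Subtype.ext
    exact sub_eq_zero.1 e7
  -- a functional
  obtain ⟨i, hi⟩ : ∃ i, Q.coeff i ≠ 0 := by
    by_contra hcon
    push Not at hcon
    exact hQ0 (Polynomial.ext (by simpa using hcon))
  obtain ⟨f, hf⟩ : ∃ f : G →ₗ[k] k, f (Q.coeff i) ≠ 0 := by
    by_contra hcon
    push Not at hcon
    exact hi ((Module.forall_dual_apply_eq_zero_iff k (Q.coeff i)).1 hcon)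
  have hpoly : P * (ratDescPl f Q).map (algebraMap k G) =
      Q * (ratDescPl f P).map (algebraMap k G) := by
    refine Polynomial.eq_of_infinite_eval_eq _ _ (Set.Infinite.mono ?_
      (Set.Infinite.preimage (f := ((↑) : G → N)) hinf ?_))
    · intro b hb
      obtain ⟨c, hc⟩ := hval b hb
      have hbk : algebraMap k G ⟨(b : N), hb.1⟩ = b := Subtype.ext rfl
      have h1 : (ratDescPl f P).eval ⟨(b : N), hb.1⟩ =
          c * (ratDescPl f Q).eval ⟨(b : N), hb.1⟩ := by
        rw [ratDescPl_eval, ratDescPl_eval, hbk, hc, ← Algebra.smul_def, map_smul, smul_eq_mul]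
      show (P * (ratDescPl f Q).map (algebraMap k G)).eval b =
        (Q * (ratDescPl f P).map (algebraMap k G)).eval b
      rw [eval_mul, eval_mul]
      have h2 : ∀ R : k[X], (R.map (algebraMap k G)).eval b =
          algebraMap k G (R.eval ⟨(b : N), hb.1⟩) := by
        intro R
        conv_lhs => rw [← hbk]
        rw [eval_map_algebraMap, aeval_algebraMap_apply, coe_aeval_eq_eval]
      rw [h2, h2, h1, hc, map_mul]
      ring
    · rintro b ⟨hb, -⟩
      exact ⟨⟨b, hkG hb⟩, rfl⟩
  have hmap : ∀ R : k[X], aeval σ (R.map (algebraMap k G)) = aeval σ R := by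
    intro R
    rw [aeval_def, eval₂_map]
    rfl
  have h3 := congrArg (aeval σ) hpoly
  rw [map_mul, map_mul, hmap, hmap] at h3
  have hQl : aeval σ (ratDescPl f Q) ≠ 0 := by
    intro h0
    have hne : ratDescPl f Q ≠ 0 := by
      intro h0'
      have := ratDescPl_coeff f Q i
      rw [h0', coeff_zero] at this
      exact hf this.symm
    exact hσ (isAlgebraic_mono hkG ⟨_, hne, h0⟩)
  have h4 : h = aeval σ (ratDescPl f P) / aeval σ (ratDescPl f Q) := by
    rw [hPQ, div_eq_div_iff hQσ hQl, h3, mul_comm]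
  rw [h4]
  exact (adj k σ).div_mem (Gn.aeval_mem_adj _ _) (Gn.aeval_mem_adj _ _)

end Vale.Agent.P019
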