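import Vale.Agent.P019.FinK
import Vale.Agent.P019.Line
import Vale.Agent.P019.LemZ
import Vale.Agent.P019.RatDesc

/-!
# Functions whose fibre classes come from a rational function field
-/

namespace Vale.Agent.P019

open Polynomial Filter

/-- the value of a class on the order functional of a fibre. -/
theorem lemX_fn {N : Type*} [Field N] {ℓ : ℕ} {k : Subfield N}
    {W : ValuationSubring N} (hW : TrivOn W k) {σ b : N} (hb : b ∈ k)
    (hU : IsUnif W (σ - b)) (s : Finset N) (hs : ∀ c ∈ s, c ∈ k) (n : N → ZMod ℓ)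
    (hbs : b ∈ s) : hU.fn ℓ (∑ c ∈ s, n c • cl ℓ (σ - c)) = n b := by
  classical
  rw [map_sum, Finset.sum_eq_single b]
  · rw [map_smul, hU.fn_self, smul_eq_mul, mul_one]
  · intro c hc hcb
    rw [map_smul]
    have h1 : W.valuation (σ - c) = 1 := by
      have h2 : σ - c = (b - c) + (σ - b) := by ring
      have h3 : W.valuation (b - c) = 1 :=
        hW.eq_one (k.sub_mem hb (hs c hc)) (sub_ne_zero.2 (Ne.symm hcb))
      rw [h2, Valuation.map_add_eq_of_lt_left, h3]
      rw [h3]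
      exact hU.lt
    rw [hU.fn_unit ℓ _ h1, smul_zero]
  · intro h
    exact absurd hbs h

theorem lemX {N : Type*} [Field N] [CharZero N] {ℓ : ℕ} [Fact ℓ.Prime] {k G : Subfield N}
    (hk : IsAlgClosed k) (hkG : k ≤ G) (hfg : FG k (⊤ : Subfield N)) {σ h : N}
    (hσ : ¬ IsAlgebraic G σ) (halg : ∀ z : N, IsAlgebraic (adj G σ) z) (hh : h ∉ k)
    (hcl : ∀ c ∈ k, cl ℓ (h - c) ∈ VS ℓ (adj k σ)) : h ∈ adj k σ := by
  classical
  have hσk : σ ∉ k := fun h => hσ (isAlgebraic_of_mem (hkG h))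
  obtain ⟨θ, hθ⟩ := exists_prim (hkG.trans (le_adj G σ)) hfg halg
  have hθ' : ∀ z : N, z ∈ IntermediateField.adjoin (IntermediateField.adjoin G {σ}) {θ} := by
    have h1 : adj (adj G σ) θ ≤
        (IntermediateField.adjoin (IntermediateField.adjoin G {σ}) {θ}).toSubfield := by
      refine adj_le ?_ ?_
      · intro z hz
        exact (IntermediateField.adjoin (IntermediateField.adjoin G {σ}) {θ}).algebraMap_mem
          ⟨z, mem_adjoin_simple.2 hz⟩
      · exact IntermediateField.mem_adjoin_simple_self _ θ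
    exact fun z => h1 (hθ z)
  have hθalg : IsAlgebraic (IntermediateField.adjoin G {σ}) θ :=
    isAlgebraic_adjoin_simple.2 (halg θ)
  have hhalg : IsAlgebraic (IntermediateField.adjoin G {σ}) h :=
    isAlgebraic_adjoin_simple.2 (halg h)
  have hB := (unif_ae hσ hθalg hθ').and (mem_ae hhalg)
  rw [eventually_cofinite] at hB
  set bad : Set N := Subtype.val '' {b : G | ¬ ((∀ W : ValuationSubring N, Over W G σ b →
      IsUnif W (σ - b) ∧ ∀ z : N, W.valuation z ≤ 1 → ∃ P Q : G[X], W.valuation (aeval θ Q) = 1 ∧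
      W.valuation (z * aeval θ Q - aeval θ P) < 1) ∧
      ∀ W : ValuationSubring N, Over W G σ b → h ∈ W)} with hbad
  have hbadfin : bad.Finite := hB.image _
  have hgood : ∀ b ∈ G, b ∉ bad → ∀ W : ValuationSubring N, Over W G σ b →
      IsUnif W (σ - b) ∧ h ∈ W := by
    intro b hb hbb W hW
    by_contra hcon
    apply hbb
    refine ⟨⟨b, hb⟩, ?_, rfl⟩
    intro h1
    exact hcon ⟨(h1.1 W hW).1, h1.2 W hW⟩
  -- factorizations
  have hfac : ∀ c : N, ∃ (s : Finset N) (n : N → ZMod ℓ), c ∈ k → (∀ b ∈ s, b ∈ k) ∧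
      cl ℓ (h - c) = ∑ b ∈ s, n b • cl ℓ (σ - b) := by
    intro c
    by_cases hc : c ∈ k
    · obtain ⟨s, n, h1, h2⟩ := adj_factor hk hσk (hcl c hc)
      exact ⟨s, n, fun _ => ⟨h1, h2⟩⟩
    · exact ⟨∅, 0, fun h => absurd h hc⟩
  choose s n hsn using hfac
  -- exceptional constants
  set D : Set N := {c : N | c ∈ k ∧ ∀ b ∈ s c, n c b ≠ 0 → b ∈ bad} with hD
  have hDfin : D.Finite := by
    have : NeZero ℓ := ⟨(Fact.out : ℓ.Prime).ne_zero⟩
    let Φ : (hbadfin.toFinset → ZMod ℓ) → V ℓ N := fun m => ∑ b, m b • cl ℓ (σ - (b : N))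
    have hT : (Set.range Φ).Finite := Set.finite_range Φ
    refine (hT.biUnion (fun v _ => dist_top (ℓ := ℓ) hk hfg hh v)).subset ?_
    intro c hc
    rw [hD, Set.mem_ofPred_eq] at hc
    rw [Set.mem_iUnion₂]
    refine ⟨cl ℓ (h - c), ⟨fun b => if (b : N) ∈ s c then n c b else 0, ?_⟩, hc.1, rfl⟩
    change ∑ b : hbadfin.toFinset, (if (b : N) ∈ s c then n c b else 0) • cl ℓ (σ - (b : N)) = _
    rw [(hsn c hc.1).2, Finset.sum_coe_sort hbadfin.toFinset
      (fun b => (if b ∈ s c then n c b else 0) • cl ℓ (σ - b))]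
    have h1 : ∑ b ∈ s c, n c b • cl ℓ (σ - b) =
        ∑ b ∈ (s c).filter (fun b => b ∈ hbadfin.toFinset), n c b • cl ℓ (σ - b) := by
      rw [Finset.sum_filter]
      refine Finset.sum_congr rfl (fun b hb => ?_)
      split_ifs with h2
      · rfl
      · have h3 : n c b = 0 := by
          by_contra h4
          exact h2 (hbadfin.mem_toFinset.2 (hc.2 b hb h4))
        rw [h3, zero_smul]
    rw [h1]
    have h2 : ∀ b, (if b ∈ s c then n c b else 0) • cl ℓ (σ - b) =
        if b ∈ s c then n c b • cl ℓ (σ - b) else 0 := by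
      intro b
      split_ifs
      · rfl
      · rw [zero_smul]
    simp only [h2]
    rw [← Finset.sum_filter]
    refine Finset.sum_congr ?_ (fun _ _ => rfl)
    ext b
    rw [Finset.mem_filter, Finset.mem_filter, and_comm]
  have hkinf : (k : Set N).Infinite :=
    Set.infinite_of_injective_forall_mem (f := fun n : ℕ => (n : N)) Nat.cast_injective
      (fun n => natCast_mem k n)
  have hinf : ((k : Set N) \ D).Infinite := hkinf.sdiff hDfin
  -- the points
  have hpt : ∀ c : N, ∃ b : N, c ∈ (k : Set N) \ D → b ∈ k ∧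
      ∀ W : ValuationSubring N, Over W G σ b → W.valuation (h - c) < 1 := by
    intro c
    by_cases hc : c ∈ (k : Set N) \ D
    · have hck : c ∈ k := hc.1
      have h1 : ∃ b ∈ s c, n c b ≠ 0 ∧ b ∉ bad := by
        by_contra hcon
        apply hc.2
        refine ⟨hck, fun b hb hnb => ?_⟩
        by_contra hbb
        exact hcon ⟨b, hb, hnb, hbb⟩
      obtain ⟨b, hb, hnb, hbb⟩ := h1
      have hbk := (hsn c hck).1 b hb
      refine ⟨b, fun _ => ⟨hbk, fun W hW => ?_⟩⟩
      obtain ⟨hU, hhW⟩ := hgood b (hkG hbk) hbb W hW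
      have h2 : h - c ∈ W := sub_mem hhW (hW.triv c (hkG hck))
      rcases lt_or_eq_of_le ((W.valuation_le_one_iff _).2 h2) with h3 | h3
      · exact h3
      · exfalso
        have h4 := hU.fn_unit ℓ _ h3
        rw [(hsn c hck).2, lemX_fn (hW.triv.mono hkG) hbk hU (s c) (hsn c hck).1 (n c) hb] at h4
        exact hnb h4
    · exact ⟨0, fun h => absurd h hc⟩
  choose β hβ using hpt
  have hSinf : {b : N | b ∈ k ∧ ∃ c ∈ k, ∀ W : ValuationSubring N, Over W G σ b →
      W.valuation (h - c) < 1}.Infinite := by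
    refine Set.infinite_of_injOn_mapsTo (f := β) ?_ ?_ hinf
    · intro c hc c' hc' hcc
      obtain ⟨W, hW⟩ := exists_over hσ (hkG (hβ c hc).1)
      have h1 := (hβ c hc).2 W hW
      rw [hcc] at hW
      have h2 := (hβ c' hc').2 W hW
      have h3 : W.valuation (c - c') < 1 := by
        have h4 : c - c' = (h - c') - (h - c) := by ring
        rw [h4]
        exact lt_of_le_of_lt (W.valuation.map_sub _ _) (max_lt h2 h1)
      have h4 := hW.triv.eq_zero (hkG (k.sub_mem hc.1 hc'.1)) h3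
      exact sub_eq_zero.1 h4
    · intro c hc
      exact ⟨(hβ c hc).1, c, hc.1, (hβ c hc).2⟩
  refine rat_descent hkG hσ (lemZ hσ (halg h) (hSinf.mono ?_)) hSinf
  rintro b ⟨hb, c, hc, hW⟩
  exact ⟨hkG hb, c, hkG hc, hW⟩

end Vale.Agent.P019
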