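import Vale.Agent.P019.Basic

namespace Vale.Agent.P019

open scoped TensorProduct

variable {ℓ : ℕ} {K : Type*} [Field K]

section U1

theorem val_one_add {O : ValuationSubring K} {m : K} (hm : O.valuation m < 1) :
    O.valuation (1 + m) = 1 := by
  exact Valuation.map_one_add_of_lt _ hm

theorem one_add_ne_zero {O : ValuationSubring K} {m : K} (hm : O.valuation m < 1) :
    1 + m ≠ 0 := by
  intro h
  have := val_one_add hm
  rw [h, map_zero] at this
  exact zero_ne_one this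

/-- the classes of `1 + m`, `m` in the maximal ideal of `O`. -/
noncomputable def U1 (ℓ : ℕ) (O : ValuationSubring K) : Submodule (ZMod ℓ) (V ℓ K) :=
  AddSubgroup.toZModSubmodule ℓ
  { carrier := {v | ∃ m : K, O.valuation m < 1 ∧ v = cl ℓ (1 + m)}
    zero_mem' := ⟨0, by simp, by simp [cl_one]⟩
    add_mem' := by
      rintro _ _ ⟨m, hm, rfl⟩ ⟨n, hn, rfl⟩
      refine ⟨m + n + m * n, ?_, ?_⟩
      · refine lt_of_le_of_lt (O.valuation.map_add _ _) (max_lt ?_ ?_)
        · exact lt_of_le_of_lt (O.valuation.map_add _ _) (max_lt hm hn)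
        · rw [map_mul]
          exact mul_lt_one_of_nonneg_of_lt_one_left zero_le hm hn.le
      · rw [← cl_mul ℓ (one_add_ne_zero hm) (one_add_ne_zero hn)]
        congr 1; ring
    neg_mem' := by
      rintro _ ⟨m, hm, rfl⟩
      refine ⟨-m / (1 + m), ?_, ?_⟩
      · rw [map_div₀, val_one_add hm, div_one, Valuation.map_neg]; exact hm
      · rw [← cl_inv]
        congr 1
        have := one_add_ne_zero hm
        field_simp
        ring }

theorem mem_U1 {O : ValuationSubring K} {v : V ℓ K} :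
    v ∈ U1 ℓ O ↔ ∃ m : K, O.valuation m < 1 ∧ v = cl ℓ (1 + m) := Iff.rfl

theorem cl_mem_U1 {O : ValuationSubring K} {m : K} (hm : O.valuation m < 1) :
    cl ℓ (1 + m) ∈ U1 ℓ O := ⟨m, hm, rfl⟩

/-- if `x ≡ y` modulo the maximal ideal and `y` is a unit then the classes agree modulo `U1`. -/
theorem cl_sub_cl_mem_U1 {O : ValuationSubring K} {x y : K} (hy : O.valuation y = 1)
    (hxy : O.valuation (x - y) < 1) : cl ℓ x - cl ℓ y ∈ U1 ℓ O := by
  have hy0 : y ≠ 0 := by
    rintro rfl; rw [map_zero] at hy; exact zero_ne_one hy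
  have hx : O.valuation x = 1 := by
    have : x = y + (x - y) := by ring
    rw [this, Valuation.map_add_eq_of_lt_left, hy]
    rwa [hy]
  have hx0 : x ≠ 0 := by
    rintro rfl; rw [map_zero] at hx; exact zero_ne_one hx
  refine ⟨(x - y) / y, ?_, ?_⟩
  · rw [map_div₀, hy, div_one]; exact hxy
  · rw [← cl_div ℓ hx0 hy0]
    congr 1
    field_simp
    ring

/-- the tame symbol relation on generators. -/
theorem tame_gen (hneg : ∃ i : K, i ^ ℓ = -1) (O : ValuationSubring K)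
    (f : V ℓ K →ₗ[ZMod ℓ] ZMod ℓ) (hf : ∀ z : K, O.valuation z = 1 → f (cl ℓ z) = 0)
    (x : K) : f (cl ℓ (1 - x)) • cl ℓ x - f (cl ℓ x) • cl ℓ (1 - x) ∈ U1 ℓ O := by
  by_cases hx0 : x = 0
  · subst hx0; simp [cl_zero, cl_one]
  by_cases hx1 : 1 - x = 0
  · rw [hx1, cl_zero]; simp
  rcases lt_trichotomy (O.valuation x) 1 with h | h | h
  · have h1 : O.valuation (1 - x) = 1 := by
      have := val_one_add (O := O) (m := -x) (by rwa [Valuation.map_neg])
      rwa [← sub_eq_add_neg] at this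
    rw [hf _ h1, zero_smul, zero_sub]
    refine Submodule.neg_mem _ (Submodule.smul_mem _ _ ?_)
    rw [sub_eq_add_neg]
    exact cl_mem_U1 (by rwa [Valuation.map_neg])
  · rw [hf _ h, zero_smul, sub_zero]
    have h1 : O.valuation (1 - x) ≤ 1 := by
      refine le_trans (O.valuation.map_sub _ _) ?_
      rw [map_one, h]; simp
    rcases h1.lt_or_eq with h2 | h2
    · refine Submodule.smul_mem _ _ ?_
      have : x = 1 + (-(1 - x)) := by ring
      rw [this]
      exact cl_mem_U1 (by rwa [Valuation.map_neg])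
    · rw [hf _ h2, zero_smul]; exact Submodule.zero_mem _
  · have hinv : O.valuation x⁻¹ < 1 := by
      rw [map_inv₀]; exact inv_lt_one_of_one_lt₀ h
    have e1 : (1 - x) = (-x) * (1 + -x⁻¹) := by field_simp; ring
    have hm : O.valuation (-x⁻¹) < 1 := by rwa [Valuation.map_neg]
    have e2 : cl ℓ (1 - x) = cl ℓ x + cl ℓ (1 + -x⁻¹) := by
      rw [e1, cl_mul ℓ (neg_ne_zero.2 hx0) (one_add_ne_zero hm), cl_neg ℓ hneg]
    have e3 : f (cl ℓ (1 + -x⁻¹)) = 0 := hf _ (val_one_add hm)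
    rw [e2, map_add, e3, add_zero, smul_add]
    have : f (cl ℓ x) • cl ℓ x - (f (cl ℓ x) • cl ℓ x + f (cl ℓ x) • cl ℓ (1 + -x⁻¹)) =
      -(f (cl ℓ x) • cl ℓ (1 + -x⁻¹)) := by abel
    rw [this]
    exact Submodule.neg_mem _ (Submodule.smul_mem _ _ (cl_mem_U1 hm))

/-- the tame symbol as a linear map. -/
noncomputable def tame (O : ValuationSubring K) (f : V ℓ K →ₗ[ZMod ℓ] ZMod ℓ) :
    V ℓ K ⊗[ZMod ℓ] V ℓ K →ₗ[ZMod ℓ] (V ℓ K ⧸ U1 ℓ O) :=
  (U1 ℓ O).mkQ ∘ₗ
    (TensorProduct.lift ((LinearMap.lsmul (ZMod ℓ) (V ℓ K)).flip.compl₂ f) -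
     TensorProduct.lift ((LinearMap.lsmul (ZMod ℓ) (V ℓ K)) ∘ₗ f))

theorem tame_tmul (O : ValuationSubring K) (f : V ℓ K →ₗ[ZMod ℓ] ZMod ℓ) (u w : V ℓ K) :
    tame O f (u ⊗ₜ w) = (U1 ℓ O).mkQ (f w • u - f u • w) := by
  simp [tame]

theorem tame_orth (hneg : ∃ i : K, i ^ ℓ = -1) (O : ValuationSubring K)
    (f : V ℓ K →ₗ[ZMod ℓ] ZMod ℓ) (hf : ∀ z : K, O.valuation z = 1 → f (cl ℓ z) = 0)
    {u w : V ℓ K} (h : Orth u w) : f w • u - f u • w ∈ U1 ℓ O := by
  have key : R ℓ K ≤ LinearMap.ker (tame O f) := by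
    unfold R
    rw [Submodule.span_le]
    rintro _ ⟨x, y, hxy, rfl⟩
    have hy : (y : K) = 1 - x := by rw [← hxy]; ring
    have := tame_gen hneg O f hf (x : K)
    rw [← hy, cl_unit, cl_unit] at this
    rw [SetLike.mem_coe, LinearMap.mem_ker, tame_tmul, Submodule.mkQ_apply,
      Submodule.Quotient.mk_eq_zero]
    exact this
  have := key h
  rw [LinearMap.mem_ker, tame_tmul, Submodule.mkQ_apply,
      Submodule.Quotient.mk_eq_zero] at this
  exact this

theorem cpair_of_U1 (hneg : ∃ i : K, i ^ ℓ = -1) (O : ValuationSubring K)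
    (f g : V ℓ K →ₗ[ZMod ℓ] ZMod ℓ) (hf : ∀ z : K, O.valuation z = 1 → f (cl ℓ z) = 0)
    (hg : ∀ v ∈ U1 ℓ O, g v = 0) : CPair f g := by
  intro x
  have := hg _ (tame_gen hneg O f hf x)
  rw [map_sub, map_smul, map_smul, smul_eq_mul, smul_eq_mul, sub_eq_zero] at this
  exact this.symm

theorem H_le_U1 [Fact ℓ.Prime] (hneg : ∃ i : K, i ^ ℓ = -1) (O : ValuationSubring K)
    (f : V ℓ K →ₗ[ZMod ℓ] ZMod ℓ) (hf : ∀ z : K, O.valuation z = 1 → f (cl ℓ z) = 0) :
    H f ≤ U1 ℓ O := by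
  intro v hv
  by_contra hvn
  obtain ⟨g, hg1, hg2⟩ := Submodule.exists_le_ker_of_notMem hvn
  exact hg1 (hv g (cpair_of_U1 hneg O f g hf (fun w hw => hg2 hw)))

end U1

section unif

/-- `π` is a uniformizer of the (discrete) valuation subring `O`. -/
structure IsUnif (O : ValuationSubring K) (π : K) : Prop where
  ne : π ≠ 0
  lt : O.valuation π < 1
  rep : ∀ z : K, z ≠ 0 → ∃ n : ℤ, O.valuation (z * π ^ n) = 1

end unif

end Vale.Agent.P019
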