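import Vale.Agent.P019.LT
import Vale.Agent.P019.Val

/-!
# Local theory: transferring functionals to valuation rings
-/

namespace Vale.Agent.P019

open scoped TensorProduct

variable {ℓ : ℕ} [Fact ℓ.Prime] {K L : Type*} [Field K] [Field L]

/-- `cl x`, `cl (1-x)` are proportional modulo `H f` as soon as `f (cl x) ≠ 0`. -/
theorem rigid_mod_H (f : V ℓ K →ₗ[ZMod ℓ] ZMod ℓ) {x : K} (hx : f (cl ℓ x) ≠ 0) :
    cl ℓ (1 - x) - (f (cl ℓ (1 - x)) / f (cl ℓ x)) • cl ℓ x ∈ H f := by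
  intro g hg
  have := hg x
  rw [map_sub, map_smul, smul_eq_mul]
  field_simp
  linear_combination this

/-- the induced functional on `V / H f`. -/
noncomputable def fbar (f : V ℓ K →ₗ[ZMod ℓ] ZMod ℓ) : (V ℓ K ⧸ H f) →ₗ[ZMod ℓ] ZMod ℓ :=
  (H f).liftQ f (fun _ hv => H_le_ker f hv)

/-- the data for the rigid element theorem attached to a functional. -/
noncomputable def ltData (hneg : ∃ i : K, i ^ ℓ = -1) (f : V ℓ K →ₗ[ZMod ℓ] ZMod ℓ) (g : K)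
    (hg : ∀ i j : ZMod ℓ, i • cl ℓ g + j • cl ℓ (1 - g) ∈ H f → i = 0 ∧ j = 0) :
    LTData ℓ K (V ℓ K ⧸ H f) where
  φ z := (H f).mkQ (cl ℓ z)
  T := LinearMap.ker (fbar f)
  zero := by rw [cl_zero, map_zero]
  mul x y hx hy := by rw [cl_mul ℓ hx hy, map_add]
  neg1 := by rw [cl_neg ℓ hneg, cl_one, map_zero]
  rig x hx := by
    have hx' : f (cl ℓ x) ≠ 0 := hx
    refine ⟨f (cl ℓ (1 - x)) / f (cl ℓ x), ?_⟩
    rw [← map_smul, ← sub_eq_zero, ← map_sub, Submodule.mkQ_apply, Submodule.Quotient.mk_eq_zero]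
    exact rigid_mod_H f hx'
  g := g
  nr i j hij := by
    refine hg i j ?_
    rw [← map_smul, ← map_smul, ← map_add, Submodule.mkQ_apply,
      Submodule.Quotient.mk_eq_zero] at hij
    exact hij

theorem exists_valuation_of_functional (hneg : ∃ i : K, i ^ ℓ = -1)
    (f : V ℓ K →ₗ[ZMod ℓ] ZMod ℓ) (g : K)
    (hg : ∀ i j : ZMod ℓ, i • cl ℓ g + j • cl ℓ (1 - g) ∈ H f → i = 0 ∧ j = 0) :
    ∃ O : ValuationSubring K, (∀ z, O.valuation z = 1 → f (cl ℓ z) = 0) ∧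
      (∀ z, O.valuation z < 1 → cl ℓ (1 + z) ∈ H f) := by
  obtain ⟨O, h1, h2⟩ := (ltData hneg f g hg).exists_valuationSubring
  refine ⟨O, fun z hz => h1 z hz, fun z hz => ?_⟩
  have := h2 z hz
  change (H f).mkQ (cl ℓ (1 + z)) = 0 at this
  rwa [Submodule.mkQ_apply, Submodule.Quotient.mk_eq_zero] at this

/-- if no element of `L` is non-rigid modulo `H f`, all functionals killing `H f` are C-pairs. -/
theorem cpair_of_no_nr (f : V ℓ K →ₗ[ZMod ℓ] ZMod ℓ)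
    (hno : ∀ g : K, ∃ i j : ZMod ℓ, i • cl ℓ g + j • cl ℓ (1 - g) ∈ H f ∧ ¬ (i = 0 ∧ j = 0))
    (a b : V ℓ K →ₗ[ZMod ℓ] ZMod ℓ) (ha : ∀ v ∈ H f, a v = 0) (hb : ∀ v ∈ H f, b v = 0) :
    CPair a b := by
  intro x
  obtain ⟨i, j, hm, hij⟩ := hno x
  have h1 := ha _ hm
  have h2 := hb _ hm
  rw [map_add, map_smul, map_smul, smul_eq_mul, smul_eq_mul] at h1 h2
  by_cases hi : i = 0
  · have hj : j ≠ 0 := fun hj => hij ⟨hi, hj⟩
    have e : j * (a (cl ℓ x) * b (cl ℓ (1 - x))) = j * (a (cl ℓ (1 - x)) * b (cl ℓ x)) := by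
      subst hi
      linear_combination (a (cl ℓ x)) * h2 - (b (cl ℓ x)) * h1
    exact mul_left_cancel₀ hj e
  · have e : i * (a (cl ℓ x) * b (cl ℓ (1 - x))) = i * (a (cl ℓ (1 - x)) * b (cl ℓ x)) := by
      linear_combination (b (cl ℓ (1 - x))) * h1 - (a (cl ℓ (1 - x))) * h2
    exact mul_left_cancel₀ hi e

/-- two independent classes are separated by functionals. -/
theorem exists_sep (N : Submodule (ZMod ℓ) (V ℓ K)) (u w : V ℓ K)
    (h : ∀ i j : ZMod ℓ, i • u + j • w ∈ N → i = 0 ∧ j = 0) :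
    ∃ a : V ℓ K →ₗ[ZMod ℓ] ZMod ℓ, (∀ v ∈ N, a v = 0) ∧ a w = 0 ∧ a u ≠ 0 := by
  have hn : u ∉ N ⊔ Submodule.span (ZMod ℓ) {w} := by
    intro hu
    rw [Submodule.mem_sup] at hu
    obtain ⟨n, hn, s, hs, hns⟩ := hu
    rw [Submodule.mem_span_singleton] at hs
    obtain ⟨c, rfl⟩ := hs
    have e : (1 : ZMod ℓ) • u + (-c) • w = n := by rw [← hns]; module
    exact one_ne_zero (h 1 (-c) (by rw [e]; exact hn)).1
  obtain ⟨g, hg1, hg2⟩ := Submodule.exists_le_ker_of_notMem hn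
  refine ⟨g, fun v hv => hg2 (Submodule.mem_sup_left hv), ?_, hg1⟩
  exact hg2 (Submodule.mem_sup_right (Submodule.mem_span_singleton_self w))

/-- transfer of the valuation ring through a compatible isomorphism. -/
theorem exists_transfer {Θ : V ℓ K ≃ₗ[ZMod ℓ] V ℓ L} (hΘ : Compatible Θ)
    (hneg : ∃ i : L, i ^ ℓ = -1) (f : V ℓ K →ₗ[ZMod ℓ] ZMod ℓ) (g₀ : K)
    (h₀ : ∀ i j : ZMod ℓ, i • cl ℓ g₀ + j • cl ℓ (1 - g₀) ∈ H f → i = 0 ∧ j = 0) :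
    ∃ O : ValuationSubring L, (∀ z, O.valuation z = 1 → f (Θ.symm (cl ℓ z)) = 0) ∧
      (∀ z, O.valuation z < 1 → Θ.symm (cl ℓ (1 + z)) ∈ H f) := by
  set f' : V ℓ L →ₗ[ZMod ℓ] ZMod ℓ := f ∘ₗ Θ.symm.toLinearMap with hf'
  have hH : ∀ v : V ℓ L, Θ.symm v ∈ H f ↔ v ∈ H f' := fun v => hΘ.symm.mem_H
  have hex : ∃ g : L, ∀ i j : ZMod ℓ, i • cl ℓ g + j • cl ℓ (1 - g) ∈ H f' → i = 0 ∧ j = 0 := by
    by_contra hcon
    push Not at hcon
    have hno : ∀ g : L, ∃ i j : ZMod ℓ, i • cl ℓ g + j • cl ℓ (1 - g) ∈ H f' ∧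
        ¬ (i = 0 ∧ j = 0) := by
      intro g
      obtain ⟨i, j, h1, h2⟩ := hcon g
      exact ⟨i, j, h1, fun h => h2 h.1 h.2⟩
    obtain ⟨a, ha1, ha2, ha3⟩ := exists_sep (H f) (cl ℓ g₀) (cl ℓ (1 - g₀)) h₀
    obtain ⟨b, hb1, hb2, hb3⟩ := exists_sep (H f) (cl ℓ (1 - g₀)) (cl ℓ g₀)
      (fun i j hij => (h₀ j i (by rw [add_comm]; exact hij)).symm)
    have hab := cpair_of_no_nr f' hno (a ∘ₗ Θ.symm.toLinearMap) (b ∘ₗ Θ.symm.toLinearMap)
      (fun v hv => ha1 _ ((hH v).2 hv)) (fun v hv => hb1 _ ((hH v).2 hv))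
    have h3 := hΘ.cpair hab g₀
    simp only [LinearMap.comp_apply, LinearEquiv.coe_coe, LinearEquiv.symm_apply_apply] at h3
    rw [ha2, zero_mul] at h3
    exact mul_ne_zero ha3 hb3 h3
  obtain ⟨g, hg⟩ := hex
  obtain ⟨O, h1, h2⟩ := exists_valuation_of_functional hneg f' g hg
  exact ⟨O, fun z hz => h1 z hz, fun z hz => (hH _).2 (h2 z hz)⟩

end Vale.Agent.P019
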