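import Vale.Agent.P019.EndG
import Vale.Agent.P019.AlphaB

/-!
# The main theorem
-/

namespace Vale.Agent.P019

open Polynomial Filter

variable {K L : Type*} [Field K] [Field L] [CharZero K] [CharZero L] {ℓ : ℕ} [Fact ℓ.Prime]
  {k : Subfield K} {l : Subfield L} {Θ : V ℓ K ≃ₗ[ZMod ℓ] V ℓ L}

theorem Hyp.end_rel (H : Hyp ℓ k l Θ) {A : K →+* L} (hA : ∀ c ∈ k, A c ∈ l)
    (hA' : ∀ β ∈ l, ∃ b ∈ k, A b = β) {e : ZMod ℓ} (he : e ≠ 0) {t s : K}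
    (ht : Rt k l Θ t (A t)) (hs : Rt k l Θ s (A s)) (hst : ¬ IsAlgebraic (adj k s) t)
    (hc : ∀ᶠ a in ae k, Cor k l Θ t (A t) e a (A a)) :
    ∃ F' : Subfield L, l ≤ F' ∧ (∀ z : L, IsAlgebraic (adj F' (A t)) z) ∧ adj l (A s) ≤ F' ∧
      ∀ᶠ a in ae k, ∃ u : ValuationSubring L, TrivOn u F' ∧ u.valuation (A t - A a) < 1 ∧
        ∀ b ∈ k, Θ (cl ℓ (s - b) - cl ℓ (t + s - a - b)) ∈ U1 ℓ u := by
  have hrl := RAC_of_isAlgClosed l H.acl
  have hs' : ¬ IsAlgebraic l (A s) := fun h => hs.good'.1 (hrl _ h)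
  have hst' : ¬ IsAlgebraic (adj l (A s)) (A t) := fun h => hst (end_alg hA' h)
  obtain ⟨G, hG⟩ := exists_frame H.fgl hs' hst'
  obtain ⟨θ, hθ⟩ := hG.nice H.fgl
  have hlF : l ≤ adj G (A s) := hG.le.trans (le_adj _ _)
  have hsF : adj l (A s) ≤ adj G (A s) := adj_mono hG.le _
  refine ⟨adj G (A s), hlF, hG.alg, hsF, ?_⟩
  have h1 : ∀ᶠ a in ae l, ∀ W : ValuationSubring L, Over W (adj G (A s)) (A t) a →
      Nice W (adj G (A s)) (A t - a) θ := ae_mono hlF hθ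
  have h2 := ae_of_image hA h1
  filter_upwards [h2, hc, ae_mem k] with a h2 hc ha
  obtain ⟨W, hW⟩ := exists_over hG.tt (hlF (hA a ha))
  have hN := h2 W hW
  have hWs : TrivOn W (adj l (A s)) := hN.triv.mono hsF
  have hfgF : FG l (adj G (A s)) := hG.fg.adj_right _
  obtain ⟨O, hOk, hT⟩ := H.symm.exists_tr hlF hfgF hN hs.good' hWs
  have hOs : TrivOn O (adj k s) := H.symm.triv_crv hlF hfgF hN hOk hT hs.good'.1 hWs
    (Crv.of_good hs.good) (fun v hv => (hs.map _).1 (by rwa [LinearEquiv.apply_symm_apply]))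
  have hOt : O.valuation (t - a) < 1 :=
    H.centre ht ha (hA a ha) he hc (hWs.mono (le_adj _ _)) hN.unif hOk hT
  refine ⟨W, hN.triv, hW.lt, ?_⟩
  intro b hb
  have h3 : cl ℓ (s - b) - cl ℓ (t + s - a - b) ∈ U1 ℓ O := by
    rw [← neg_mem_iff, neg_sub]
    refine cl_sub_cl_mem_U1 (hOs.eq_one (Subfield.sub_mem _ (mem_adj _ _) (le_adj _ _ hb)) ?_) ?_
    · intro h
      rw [sub_eq_zero] at h
      exact hs.good.1 (h ▸ hb)
    · have h4 : t + s - a - b - (s - b) = t - a := by ring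
      rw [h4]
      exact hOt
  have h4 := (hT.iff (Θ (cl ℓ (s - b) - cl ℓ (t + s - a - b)))).1
  rw [LinearEquiv.symm_apply_apply] at h4
  exact h4 h3

theorem Hyp.exists_end (H : Hyp ℓ k l Θ) : ∃ (A : K →+* L) (e : ZMod ℓ), EndHyp ℓ k l Θ A e := by
  obtain ⟨σ, e, A, hσ, he, hA, hN⟩ := H.exists_alpha
  have h1 : ∀ c ∈ k, A c ∈ l := fun c hc => by rw [hA c hc]; exact hσ.mem c hc
  have h2 : ∀ β ∈ l, ∃ b ∈ k, A b = β := by
    intro β hβ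
    obtain ⟨b, hb, rfl⟩ := hσ.surj β hβ
    exact ⟨b, hb, hA b hb⟩
  have h3 : ∀ s, Good k s → ∀ᶠ b in ae k, Cor k l Θ s (A s) e b (A b) := by
    intro s hs
    filter_upwards [(hN s hs).cor, ae_mem k] with b hb hbk
    rwa [hA b hbk]
  exact ⟨A, e, he, h1, h2, fun s hs => (hN s hs).rt, h3, fun t s ht hs _ hst =>
    H.end_rel h1 h2 he (hN t ht).rt (hN s hs).rt hst (h3 t ht)⟩

theorem Hyp.final (H : Hyp ℓ k l Θ) :
    ∃ (c : (ZMod ℓ)ˣ) (α : K ≃+* L), (∀ x, x ∈ k ↔ α x ∈ l) ∧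
      ∀ x : K, Θ (cl ℓ x) = (c : ZMod ℓ) • cl ℓ (α x) := by
  obtain ⟨A, e, E⟩ := H.exists_end
  exact E.final H (fun y hy => H.symm.rt_all hy)

end Vale.Agent.P019
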