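import Mathlib.Algebra.GroupWithZero.Action.Pointwise.Finset
import Mathlib.Algebra.GroupWithZero.Submonoid.CancelMulZero
import Mathlib.Algebra.Lie.OfAssociative
import Mathlib.Algebra.Module.StablyFree.Basic
import Mathlib.Algebra.Module.Torsion.Prod
import Mathlib.Algebra.Order.Ring.Star
import Mathlib.Algebra.Ring.Action.Pointwise.Finset
import Mathlib.Analysis.CStarAlgebra.Classes
import Mathlib.Analysis.Complex.Polynomial.Basic
import Mathlib.Analysis.Fourier.FiniteAbelian.PontryaginDuality
import Mathlib.Combinatorics.Pigeonhole
import Mathlib.Computability.Reduce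
import Mathlib.Data.Finset.Functor
import Mathlib.Data.Finsupp.Pointwise
import Mathlib.Data.Int.Star
import Mathlib.FieldTheory.PurelyInseparable.Tower
import Mathlib.FieldTheory.RatFunc.Luroth
import Mathlib.FieldTheory.SeparablyGenerated
import Mathlib.GroupTheory.CosetCover
import Mathlib.GroupTheory.IndexNormal
import Mathlib.GroupTheory.Nilpotent
import Mathlib.LinearAlgebra.Charpoly.ToMatrix
import Mathlib.LinearAlgebra.Eigenspace.Triangularizable
import Mathlib.Order.CompletePartialOrder
import Mathlib.Order.Filter.FilterProduct
import Mathlib.RingTheory.Adjoin.Polynomial.Bivariate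
import Mathlib.RingTheory.Discriminant
import Mathlib.RingTheory.Etale.Weakly
import Mathlib.RingTheory.Finiteness.ModuleFinitePresentation
import Mathlib.RingTheory.Flat.TorsionFree
import Mathlib.RingTheory.Henselian
import Mathlib.RingTheory.PicardGroup
import Mathlib.RingTheory.Polynomial.IsIntegral
import Mathlib.RingTheory.Polynomial.Wronskian
import Mathlib.RingTheory.PowerSeries.Derivative
import Mathlib.RingTheory.PowerSeries.Expand
import Mathlib.RingTheory.PowerSeries.Inverse
import Mathlib.RingTheory.RegularLocalRing.Defs
import Mathlib.RingTheory.RootsOfUnity.AlgebraicallyClosed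
import Mathlib.RingTheory.SimpleRing.Principal
import Mathlib.RingTheory.TotallySplit
import Mathlib.RingTheory.UniqueFactorizationDomain.Finsupp
import Mathlib.RingTheory.Valuation.LocalSubring
import Mathlib.Tactic

/-! The part of Mathlib that the development of this folder uses. -/
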