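import Mathlib

/-!
# Injective rational functions are Moebius transformations
-/

namespace Vale.Agent.P019

open Polynomial

section MobHelpers

variable {l : Type*} [Field l]

theorem mob_not_both_root {P Q : l[X]} (hcop : IsCoprime P Q) {x : l} (hQ : Q.eval x = 0) :
    P.eval x ≠ 0 := by
  intro hP
  obtain ⟨a, b, hab⟩ := hcop
  have := congrArg (Polynomial.eval x) hab
  simp [hP, hQ] at this

theorem mob_fibre_ne_zero {P Q : l[X]} (hcop : IsCoprime P Q)
    (hnc : P.natDegree ≠ 0 ∨ Q.natDegree ≠ 0) (c : l) : P - C c * Q ≠ 0 := by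
  intro h
  have hP : P = C c * Q := sub_eq_zero.mp h
  have hQ : IsUnit Q := by
    refine hcop.isUnit_of_dvd' ?_ dvd_rfl
    exact ⟨C c, by rw [hP]; ring⟩
  have hQ0 : Q.natDegree = 0 := natDegree_eq_zero_of_isUnit hQ
  have hP0 : P.natDegree = 0 := by
    have h1 : P.natDegree ≤ Q.natDegree := by
      rw [hP]; exact natDegree_C_mul_le c Q
    omega
  rcases hnc with h1 | h1 <;> contradiction

theorem mob_value {P Q : l[X]} (hcop : IsCoprime P Q) {c x : l}
    (h : (P - C c * Q).eval x = 0) : Q.eval x ≠ 0 ∧ P.eval x / Q.eval x = c := by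
  have h1 : P.eval x = c * Q.eval x := by
    have : P.eval x - c * Q.eval x = 0 := by simpa using h
    linear_combination this
  have h2 : Q.eval x ≠ 0 := by
    intro h0
    exact mob_not_both_root hcop h0 (by rw [h1, h0, mul_zero])
  exact ⟨h2, by rw [h1]; field_simp⟩

theorem mob_wronskian {P Q : l[X]} [CharZero l] (hcop : IsCoprime P Q)
    (hnc : P.natDegree ≠ 0 ∨ Q.natDegree ≠ 0) : wronskian P Q ≠ 0 := by
  intro h
  rw [hcop.wronskian_eq_zero_iff] at h
  have hP : P.natDegree = 0 := derivative_eq_zero.mp h.1
  have hQ : Q.natDegree = 0 := derivative_eq_zero.mp h.2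
  rcases hnc with h1 | h1 <;> contradiction

end MobHelpers

/-- multiplicities of generic fibres are one. -/
theorem rootMultiplicity_fibre {l : Type*} [Field l] [IsAlgClosed l] [CharZero l] (P Q : l[X])
    (hcop : IsCoprime P Q) (hnc : P.natDegree ≠ 0 ∨ Q.natDegree ≠ 0) :
    {c : l | ∃ x, (P - C c * Q).eval x = 0 ∧ (P - C c * Q).rootMultiplicity x ≠ 1}.Finite := by
  classical
  refine ((wronskian P Q).roots.toFinset.finite_toSet.image
    (fun x => P.eval x / Q.eval x)).subset ?_
  rintro c ⟨x, hx, hm⟩
  refine ⟨x, ?_, (mob_value hcop hx).2⟩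
  have hne := mob_fibre_ne_zero hcop hnc c
  have hpos : 0 < (P - C c * Q).rootMultiplicity x :=
    (rootMultiplicity_pos hne).mpr hx
  have h2 : 1 < (P - C c * Q).rootMultiplicity x := by omega
  have hd : (derivative (P - C c * Q)).IsRoot x :=
    ((one_lt_rootMultiplicity_iff_isRoot hne).mp h2).2
  have hd' : (derivative P).eval x = c * (derivative Q).eval x := by
    have h3 : (derivative P).eval x - c * (derivative Q).eval x = 0 := by
      have := hd
      simpa [IsRoot, derivative_sub, derivative_C_mul] using this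
    linear_combination h3
  have hP : P.eval x = c * Q.eval x := by
    have h3 : P.eval x - c * Q.eval x = 0 := by simpa using hx
    linear_combination h3
  have hw : (wronskian P Q).eval x = 0 := by
    simp only [wronskian, eval_sub, eval_mul, hP, hd']
    ring
  simp only [Finset.mem_coe, Multiset.mem_toFinset]
  rw [mem_roots (mob_wronskian hcop hnc)]
  exact hw

theorem mob_of_inj {l : Type*} [Field l] [IsAlgClosed l] [CharZero l] (P Q : l[X])
    (hcop : IsCoprime P Q) (S : Set l) (hS : Sᶜ.Finite)
    (hinj : ∀ x ∈ S, ∀ y ∈ S, P.eval x * Q.eval y = P.eval y * Q.eval x → x = y) :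
    ∃ A B C' D : l, A * D - B * C' ≠ 0 ∧ P = C A * X + C B ∧ Q = C C' * X + C D := by
  classical
  have : Infinite l := inferInstance
  have hSinf : S.Infinite := by
    intro hfin
    have : (Set.univ : Set l).Finite := by
      rw [← Set.union_compl_self S]
      exact hfin.union hS
    exact Set.infinite_univ this
  have hnc : P.natDegree ≠ 0 ∨ Q.natDegree ≠ 0 := by
    by_contra hcon
    push Not at hcon
    obtain ⟨hP, hQ⟩ := hcon
    obtain ⟨x, hx, y, hy, hxy⟩ := hSinf.nontrivial
    apply hxy
    apply hinj x hx y hy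
    rw [eq_C_of_natDegree_eq_zero hP, eq_C_of_natDegree_eq_zero hQ]
    simp
  set d := max P.natDegree Q.natDegree with hd
  have hdpos : 0 < d := by
    rcases hnc with h | h
    · exact lt_of_lt_of_le (Nat.pos_of_ne_zero h) (le_max_left _ _)
    · exact lt_of_lt_of_le (Nat.pos_of_ne_zero h) (le_max_right _ _)
  -- bad values
  have hB1 := rootMultiplicity_fibre P Q hcop hnc
  have hB2 : ((fun x => P.eval x / Q.eval x) '' Sᶜ).Finite := hS.image _
  have hB3 : {c : l | P.coeff d = c * Q.coeff d}.Finite := by
    refine (Set.finite_singleton (P.coeff d / Q.coeff d)).subset ?_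
    intro c hc
    simp only [Set.mem_ofPred_eq] at hc
    have hQd : Q.coeff d ≠ 0 := by
      intro h0
      have hPd : P.coeff d = 0 := by rw [hc, h0, mul_zero]
      rcases le_total P.natDegree Q.natDegree with h | h
      · have hdq : d = Q.natDegree := max_eq_right h
        rw [hdq] at h0
        have hQz : Q = 0 := leadingCoeff_eq_zero.mp h0
        have : Q.natDegree = 0 := by rw [hQz]; simp
        omega
      · have hdp : d = P.natDegree := max_eq_left h
        rw [hdp] at hPd
        have hPz : P = 0 := leadingCoeff_eq_zero.mp hPd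
        have : P.natDegree = 0 := by rw [hPz]; simp
        omega
    simp only [Set.mem_singleton_iff]
    rw [hc]
    field_simp
  obtain ⟨c, hc⟩ := ((hB1.union hB2).union hB3).infinite_compl.nonempty
  simp only [Set.mem_compl_iff, Set.mem_union, not_or] at hc
  obtain ⟨⟨hc1, hc2⟩, hc3⟩ := hc
  set R := P - C c * Q with hR
  have hRne : R ≠ 0 := mob_fibre_ne_zero hcop hnc c
  have hRd : R.natDegree = d := by
    apply le_antisymm
    · refine (natDegree_sub_le _ _).trans ?_
      exact max_le_max le_rfl (natDegree_C_mul_le c Q)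
    · apply le_natDegree_of_ne_zero
      intro h0
      apply hc3
      have : P.coeff d - c * Q.coeff d = 0 := by simpa [hR] using h0
      simp only [Set.mem_ofPred_eq]
      linear_combination this
  have hcount : ∀ x ∈ R.roots, R.roots.count x = 1 := by
    intro x hx
    rw [count_roots]
    by_contra hne
    exact hc1 ⟨x, (mem_roots hRne).mp hx, hne⟩
  have hnodup : R.roots.Nodup := by
    rw [Multiset.nodup_iff_count_eq_one]
    exact hcount
  have hcard : R.roots.card = d := by
    rw [← hRd]
    exact (splits_iff_card_roots.mp (IsAlgClosed.splits R))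
  have hrootS : ∀ x ∈ R.roots, x ∈ S := by
    intro x hx
    by_contra hxS
    exact hc2 ⟨x, hxS, (mob_value hcop ((mem_roots hRne).mp hx)).2⟩
  have hle : d ≤ 1 := by
    rw [← hcard]
    by_contra hlt
    push Not at hlt
    have hfc : R.roots.toFinset.card = R.roots.card := Multiset.toFinset_card_of_nodup hnodup
    rw [← hfc] at hlt
    obtain ⟨x, hx, y, hy, hxy⟩ := Finset.one_lt_card.mp hlt
    rw [Multiset.mem_toFinset] at hx hy
    apply hxy
    apply hinj x (hrootS x hx) y (hrootS y hy)
    have h1 := mob_value hcop ((mem_roots hRne).mp hx)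
    have h2 := mob_value hcop ((mem_roots hRne).mp hy)
    have h3 : P.eval x = c * Q.eval x := by
      rw [← h1.2]; field_simp [h1.1]
    have h4 : P.eval y = c * Q.eval y := by
      rw [← h2.2]; field_simp [h2.1]
    rw [h3, h4]; ring
  have hPd : P.natDegree ≤ 1 := (le_max_left _ _).trans hle
  have hQd : Q.natDegree ≤ 1 := (le_max_right _ _).trans hle
  have hPe : P = C (P.coeff 1) * X + C (P.coeff 0) := eq_X_add_C_of_natDegree_le_one hPd
  have hQe : Q = C (Q.coeff 1) * X + C (Q.coeff 0) := eq_X_add_C_of_natDegree_le_one hQd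
  refine ⟨P.coeff 1, P.coeff 0, Q.coeff 1, Q.coeff 0, ?_, hPe, hQe⟩
  intro hdet
  have hPev : ∀ x, P.eval x = P.coeff 1 * x + P.coeff 0 := by
    intro x
    conv_lhs => rw [hPe]
    simp
  have hQev : ∀ x, Q.eval x = Q.coeff 1 * x + Q.coeff 0 := by
    intro x
    conv_lhs => rw [hQe]
    simp
  by_cases hC : Q.coeff 1 = 0
  · have hA : P.coeff 1 ≠ 0 := by
      intro hA
      rcases hnc with h | h
      · apply h
        rw [hPe, hA]; simp
      · apply h
        rw [hQe, hC]; simp
    have hD : Q.coeff 0 = 0 := by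
      rw [hC, mul_zero, sub_zero] at hdet
      exact (mul_eq_zero.mp hdet).resolve_left hA
    have hQ0 : Q.eval (-(P.coeff 0) / P.coeff 1) = 0 := by rw [hQev, hC, hD]; simp
    apply mob_not_both_root hcop hQ0
    rw [hPev]
    field_simp
    ring
  · have hQ0 : Q.eval (-(Q.coeff 0) / Q.coeff 1) = 0 := by
      rw [hQev]
      field_simp
      ring
    apply mob_not_both_root hcop hQ0
    rw [hPev]
    field_simp
    linear_combination -hdet

end Vale.Agent.P019
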