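import Vale.Agent.P019.Fld
import Vale.Agent.P019.Gauss
import Vale.Agent.P019.Place

/-!
# Places: basic facts
-/

namespace Vale.Agent.P019

set_option linter.style.haveILetI false

open Polynomial

section places

variable {K Ω : Type*} [Field K] [Field Ω]

/-- S01 residues of algebraic elements are algebraic. -/
theorem Pl.isAlgebraic_ev (P : Pl K Ω) (F : Subfield K) (κ : Subfield Ω)
    (hκ : ∀ x ∈ F, x ∈ P.O → P.ev x ∈ κ) {z : K} (hz : IsAlgebraic F z) (hzO : z ∈ P.O) :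
    IsAlgebraic κ (P.ev z) := by
  classical
  obtain ⟨Q, hQ0, hQ⟩ := hz
  obtain ⟨j, hj, hjmax⟩ := Q.support.exists_max_image
    (fun i => P.O.valuation ((Q.coeff i : F) : K)) (Polynomial.nonempty_support_iff.2 hQ0)
  have hj0 : Q.coeff j ≠ 0 := mem_support_iff.1 hj
  have hj0' : ((Q.coeff j : F) : K) ≠ 0 := fun h => hj0 (Subtype.ext h)
  have hvj : P.O.valuation ((Q.coeff j : F) : K) ≠ 0 := (Valuation.ne_zero_iff _).2 hj0'
  set c : F := (Q.coeff j)⁻¹ with hc
  have hcoef : ∀ i, (((C c * Q).coeff i : F) : K) ∈ P.O := by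
    intro i
    rw [coeff_C_mul]
    by_cases hi : Q.coeff i = 0
    · rw [hi, mul_zero]; exact P.O.zero_mem
    · have h1 := hjmax i (mem_support_iff.2 hi)
      rw [← P.O.valuation_le_one_iff]
      change P.O.valuation (((Q.coeff j : F) : K)⁻¹ * ((Q.coeff i : F) : K)) ≤ 1
      rw [map_mul, map_inv₀, mul_comm, ← div_eq_mul_inv]
      exact div_le_one_of_le₀ h1 zero_le
  have hlift : C c * Q ∈ Polynomial.lifts (RF P F).subtype := by
    rw [Polynomial.lifts_iff_coeff_lifts]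
    intro n
    exact ⟨⟨(C c * Q).coeff n, hcoef n⟩, rfl⟩
  obtain ⟨G, hG⟩ := (Polynomial.mem_lifts _).1 hlift
  have hGeval : evθ P F z G = 0 := by
    have h1 : evθ P F z G = aeval z (G.map (RF P F).subtype) := by
      rw [aeval_def, eval₂_map]
      rfl
    rw [h1, hG, map_mul, hQ, mul_zero]
  have hev := ev_evθ (P := P) (F := F) hzO G
  rw [hGeval, P.ev_zero] at hev
  -- restrict the codomain
  let f : RF P F →+* κ := (evF P F).codRestrict κ.toSubring (fun a => by
    rw [evF_apply]; exact hκ _ (a : F).2 (mem_RF.1 a.2))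
  have hf : ∀ a, ((f a : κ) : Ω) = evF P F a := fun a => rfl
  refine ⟨G.map f, ?_, ?_⟩
  · intro h0
    have h1 := congrArg (fun p => ((p.coeff j : κ) : Ω)) h0
    simp only [coeff_map, coeff_zero, hf] at h1
    rw [evF_apply] at h1
    have h2 : ((G.coeff j : F) : K) = 1 := by
      have h3 := congrArg (fun p => ((p.coeff j : F) : K)) hG
      simp only [coeff_map] at h3
      change ((G.coeff j : F) : K) = _ at h3
      rw [h3, coeff_C_mul, hc, inv_mul_cancel₀ hj0]
      rfl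
    rw [h2, P.ev_one] at h1
    exact one_ne_zero h1
  · rw [aeval_def, eval₂_map]
    rw [eval_map] at hev
    rw [hev]
    rfl

/-- S02 valuation rings are integrally closed. -/
theorem Pl.mem_of_isAlgebraic (P : Pl K Ω) (E : Subfield K) (hE : ∀ x ∈ E, x ∈ P.O) {z : K}
    (hz : IsAlgebraic E z) : z ∈ P.O :=
  TrivOn.mem_of_isAlgebraic (W := P.O) (F := E) hE hz

/-- nonzero elements algebraic over a field inside the valuation ring are units. -/
theorem Pl.U_of_isAlgebraic (P : Pl K Ω) (E : Subfield K) (hE : ∀ x ∈ E, x ∈ P.O) {z : K}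
    (hz : IsAlgebraic E z) (hz0 : z ≠ 0) : P.U z :=
  P.U_iff.2 (TrivOn.eq_one_of_isAlgebraic (W := P.O) (F := E) hE hz hz0)

theorem Pl.ev_sum (P : Pl K Ω) {ι : Type*} (s : Finset ι) (f : ι → K) (hf : ∀ i ∈ s, f i ∈ P.O) :
    P.ev (∑ i ∈ s, f i) = ∑ i ∈ s, P.ev (f i) := by
  classical
  induction s using Finset.induction_on with
  | empty => rw [Finset.sum_empty, Finset.sum_empty, P.ev_zero]
  | insert a s ha ih =>
    rw [Finset.sum_insert ha, Finset.sum_insert ha,
      P.ev_add (hf a (Finset.mem_insert_self a s))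
        (P.O.toSubring.sum_mem fun i hi => hf i (Finset.mem_insert_of_mem hi)),
      ih fun i hi => hf i (Finset.mem_insert_of_mem hi)]

theorem exists_polys_of_mem_adj {l : Subfield K} {y x : K} (hx : x ∈ adj l y) (hx0 : x ≠ 0) :
    ∃ r s : l[X], IsCoprime r s ∧ aeval y s ≠ 0 ∧ x * aeval y s = aeval y r := by
  classical
  have h1 : adj l y ≤ (IntermediateField.adjoin l {y}).toSubfield := by
    refine adj_le ?_ ?_
    · intro c hc
      exact (IntermediateField.adjoin l {y}).algebraMap_mem ⟨c, hc⟩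
    · exact IntermediateField.mem_adjoin_simple_self l y
  have h2 : x ∈ IntermediateField.adjoin l {y} := h1 hx
  rw [IntermediateField.mem_adjoin_simple_iff] at h2
  obtain ⟨r, s, hrs⟩ := h2
  have hs0 : aeval y s ≠ 0 := by
    intro h
    rw [h, div_zero] at hrs
    exact hx0 hrs
  have hsne : s ≠ 0 := by
    rintro rfl
    exact hs0 (map_zero _)
  letI := EuclideanDomain.gcdMonoid l[X]
  have hg : GCDMonoid.gcd r s ≠ 0 := gcd_ne_zero_of_right hsne
  set g := GCDMonoid.gcd r s with hgdef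
  have hr : g * (r / g) = r := EuclideanDomain.mul_div_cancel' hg (gcd_dvd_left r s)
  have hs : g * (s / g) = s := EuclideanDomain.mul_div_cancel' hg (gcd_dvd_right r s)
  have hgy : aeval y g ≠ 0 := by
    intro h
    rw [← hs, map_mul, h, zero_mul] at hs0
    exact hs0 rfl
  refine ⟨r / g, s / g, isCoprime_div_gcd_div_gcd hsne, ?_, ?_⟩
  · intro h
    rw [← hs, map_mul, h, mul_zero] at hs0
    exact hs0 rfl
  · have h3 : x * aeval y s = aeval y r := by
      rw [hrs]; field_simp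
    rw [← hs, ← hr, map_mul, map_mul] at h3
    apply mul_left_cancel₀ hgy
    linear_combination h3

/-- S03 one variable places. -/
theorem exists_one [Algebra K Ω] [IsAlgClosed Ω] {l A : Subfield K} (hl : IsAlgClosed l)
    (hlA : l ≤ A) {y : K} (hy : ¬ IsAlgebraic A y) {c : K} (hc : c ∈ l) :
    ∃ P : Pl K Ω, (∀ a ∈ A, a ∈ P.O ∧ P.ev a = algebraMap K Ω a) ∧ y ∈ P.O ∧
      P.ev y = algebraMap K Ω c ∧
      (∀ b ∈ P.O, IsAlgebraic (adj l y) b → ∃ d ∈ l, P.ev b = algebraMap K Ω d) := by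
  classical
  have hy' : Transcendental A y := hy
  let e := algEquivOfTranscendental A y hy'
  let φ0 : A[X] →+* Ω := eval₂RingHom ((algebraMap K Ω).comp A.subtype) (algebraMap K Ω c)
  let φ : (Algebra.adjoin A {y}).toSubring →+* Ω := φ0.comp (e.symm : Algebra.adjoin A {y} →+* A[X])
  obtain ⟨O, ψ, h1, h2⟩ := exists_place (F := K) (C := Ω) (Algebra.adjoin A {y}).toSubring φ
  let P : Pl K Ω := ⟨O, ψ, h2⟩
  have hA : ∀ a ∈ A, a ∈ P.O ∧ P.ev a = algebraMap K Ω a := by
    intro a ha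
    have hmem : a ∈ (Algebra.adjoin A {y}).toSubring :=
      (Algebra.adjoin A {y}).algebraMap_mem ⟨a, ha⟩
    obtain ⟨h', h3⟩ := h1 a hmem
    refine ⟨h', ?_⟩
    rw [P.ev_of_mem h']
    change ψ ⟨a, h'⟩ = _
    rw [h3]
    change φ0 (e.symm ⟨a, hmem⟩) = _
    have h4 : (⟨a, hmem⟩ : Algebra.adjoin A {y}) = e (C ⟨a, ha⟩) := by
      apply Subtype.ext
      simp only [e, algEquivOfTranscendental_apply, aeval_C]
      rfl
    rw [h4, AlgEquiv.symm_apply_apply]
    simp [φ0]
  have hyO : y ∈ P.O ∧ P.ev y = algebraMap K Ω c := by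
    have hmem : y ∈ (Algebra.adjoin A {y}).toSubring := Algebra.self_mem_adjoin_singleton A y
    obtain ⟨h', h3⟩ := h1 y hmem
    refine ⟨h', ?_⟩
    rw [P.ev_of_mem h']
    change ψ ⟨y, h'⟩ = _
    rw [h3]
    change φ0 (e.symm ⟨y, hmem⟩) = _
    have h4 : (⟨y, hmem⟩ : Algebra.adjoin A {y}) = e X := by
      apply Subtype.ext
      simp [e]
    rw [h4, AlgEquiv.symm_apply_apply]
    simp [φ0]
  refine ⟨P, hA, hyO.1, hyO.2, ?_⟩
  -- the image of l
  set κ : Subfield Ω := l.map (algebraMap K Ω) with hκ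
  have hpolyO : ∀ q : l[X], aeval y q ∈ P.O ∧ P.ev (aeval y q) =
      algebraMap K Ω (aeval c q) := by
    intro q
    induction q using Polynomial.induction_on' with
    | add p q hp hq =>
      refine ⟨?_, ?_⟩
      · rw [map_add]; exact P.O.add_mem _ _ hp.1 hq.1
      · rw [map_add, P.ev_add hp.1 hq.1, hp.2, hq.2, map_add, map_add]
    | monomial n a =>
      have ha := hA (a : K) (hlA a.2)
      have h5 : aeval y (monomial n a) = (a : K) * y ^ n := by
        rw [aeval_monomial]; rfl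
      have h6 : aeval c (monomial n a) = (a : K) * c ^ n := by
        rw [aeval_monomial]; rfl
      rw [h5, h6]
      refine ⟨P.O.mul_mem _ _ ha.1 (pow_mem hyO.1 n), ?_⟩
      rw [P.ev_mul ha.1 (pow_mem hyO.1 n), P.ev_pow hyO.1, ha.2, hyO.2, map_mul, map_pow]
  have hlc : ∀ q : l[X], aeval c q ∈ l := by
    intro q
    have : aeval c q = ((q.eval ⟨c, hc⟩ : l) : K) := by
      change aeval (algebraMap l K ⟨c, hc⟩) q = _
      rw [aeval_algebraMap_apply, coe_aeval_eq_eval]
      rfl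
    rw [this]
    exact Subtype.mem _
  have hadj : ∀ x ∈ adj l y, x ∈ P.O → P.ev x ∈ κ := by
    intro x hx hxO
    by_cases hx0 : x = 0
    · rw [hx0, P.ev_zero]; exact κ.zero_mem
    obtain ⟨r, s, hco, hs0, hxs⟩ := exists_polys_of_mem_adj hx hx0
    have h8 := congrArg P.ev hxs
    rw [P.ev_mul hxO (hpolyO s).1, (hpolyO s).2, (hpolyO r).2] at h8
    have h9 : aeval c s ≠ 0 := by
      intro h
      rw [h, map_zero, mul_zero] at h8
      have hr0 : aeval c r = 0 := by
        have := h8.symm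
        rwa [map_eq_zero] at this
      obtain ⟨u, v, huv⟩ := hco
      have h10 := congrArg (aeval c) huv
      rw [map_add, map_mul, map_mul, h, hr0, mul_zero, mul_zero, add_zero, map_one] at h10
      exact zero_ne_one h10
    have h11 : P.ev x = algebraMap K Ω (aeval c r / aeval c s) := by
      rw [map_div₀, eq_div_iff (by rwa [Ne, map_eq_zero])]
      exact h8
    rw [h11]
    exact ⟨_, l.div_mem (hlc r) (hlc s), rfl⟩
  have hκac : IsAlgClosed κ := by
    have hinj : Function.Injective ((algebraMap K Ω).comp l.subtype) := RingHom.injective _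
    apply IsAlgClosed.of_exists_root
    intro p hp hirr
    have hsurj : ∀ x : κ, ∃ d : l, algebraMap K Ω d = (x : Ω) := by
      rintro ⟨x, d, hd, rfl⟩
      exact ⟨⟨d, hd⟩, rfl⟩
    -- pull back the polynomial
    let g : l →+* κ := ((algebraMap K Ω).comp l.subtype).codRestrict κ.toSubring
      (fun a => ⟨a, a.2, rfl⟩)
    have hg : Function.Surjective g := by
      intro x
      obtain ⟨d, hd⟩ := hsurj x
      exact ⟨d, Subtype.ext hd⟩
    obtain ⟨q, hq⟩ := Polynomial.map_surjective g hg p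
    have hdeg : q.degree ≠ 0 := by
      rw [← degree_map_eq_of_injective g.injective q, hq]
      exact (degree_pos_of_irreducible hirr).ne'
    obtain ⟨a, ha⟩ := IsAlgClosed.exists_root q hdeg
    refine ⟨g a, ?_⟩
    rw [← hq, eval_map, eval₂_hom, ha, map_zero]
  intro b hb hbalg
  have h12 := P.isAlgebraic_ev (adj l y) κ hadj hbalg hb
  obtain ⟨d, hd, h13⟩ := RAC_of_isAlgClosed κ hκac _ h12
  exact ⟨d, hd, h13.symm⟩

/-- existence of good residues for finite sums. -/
theorem Pl.gauss_sum (P : Pl K Ω) {l A B : Subfield K} (hlA : l ≤ A) (hlB : l ≤ B)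
    (hA : ∀ a ∈ A, a ∈ P.O) (hB : ∀ b ∈ B, b ∈ P.O → ∃ d ∈ l, P.ev b = P.ev d)
    {ι : Type*} (n : ℕ) : ∀ (s : Finset ι) (a b : ι → K), s.card = n → (∀ i ∈ s, a i ∈ A) →
      (∀ i ∈ s, b i ∈ B) → ∑ i ∈ s, a i * b i ≠ 0 →
    ∃ β ∈ B, β ≠ 0 ∧ P.U (β * ∑ i ∈ s, a i * b i) ∧
      ∃ α ∈ A, P.ev (β * ∑ i ∈ s, a i * b i) = P.ev α := by
  classical
  have hUA : ∀ a ∈ A, a ≠ 0 → P.U a := fun a ha h0 =>
    P.U_of_isAlgebraic A hA (isAlgebraic_of_mem ha) h0
  induction n with
  | zero =>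
    intro s a b hs ha hb hne
    rw [Finset.card_eq_zero.1 hs, Finset.sum_empty] at hne
    exact absurd rfl hne
  | succ n ih =>
    intro s a b hs ha hb hne
    have hsne : s.Nonempty := by
      rw [← Finset.card_pos, hs]; exact Nat.succ_pos n
    obtain ⟨j, hj, hjmax⟩ := s.exists_max_image (fun i => P.O.valuation (b i)) hsne
    have hbj : b j ≠ 0 := by
      intro h
      apply hne
      refine Finset.sum_eq_zero fun i hi => ?_
      have h1 := hjmax i hi
      rw [h, map_zero, le_zero_iff, Valuation.zero_iff] at h1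
      rw [h1, mul_zero]
    have hvj : P.O.valuation (b j) ≠ 0 := (Valuation.ne_zero_iff _).2 hbj
    set b' : ι → K := fun i => (b j)⁻¹ * b i with hb'
    have hb'B : ∀ i ∈ s, b' i ∈ B := fun i hi => B.mul_mem (B.inv_mem (hb j hj)) (hb i hi)
    have hb'O : ∀ i ∈ s, b' i ∈ P.O := by
      intro i hi
      rw [← P.O.valuation_le_one_iff, hb']
      simp only
      rw [map_mul, map_inv₀, mul_comm, ← div_eq_mul_inv]
      exact div_le_one_of_le₀ (hjmax i hi) zero_le
    have hb'j : b' j = 1 := inv_mul_cancel₀ hbj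
    have hdex : ∀ i, ∃ d, i ∈ s → (d ∈ l ∧ P.ev (b' i) = P.ev d) := by
      intro i
      by_cases hi : i ∈ s
      · obtain ⟨d, hd, h⟩ := hB _ (hb'B i hi) (hb'O i hi)
        exact ⟨d, fun _ => ⟨hd, h⟩⟩
      · exact ⟨0, fun h => absurd h hi⟩
    choose d0 hd0 using hdex
    set d : ι → K := fun i => if i = j then 1 else d0 i with hd
    have hdl : ∀ i ∈ s, d i ∈ l := by
      intro i hi
      rw [hd]
      simp only
      split_ifs with h
      · exact l.one_mem
      · exact (hd0 i hi).1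
    have hdev : ∀ i ∈ s, P.ev (b' i) = P.ev (d i) := by
      intro i hi
      rw [hd]
      simp only
      split_ifs with h
      · rw [h, hb'j]
      · exact (hd0 i hi).2
    have hdj : d j = 1 := by rw [hd]; simp
    have hdO : ∀ i ∈ s, d i ∈ P.O := fun i hi => hA _ (hlA (hdl i hi))
    have hx' : (b j)⁻¹ * ∑ i ∈ s, a i * b i = ∑ i ∈ s, a i * b' i := by
      rw [Finset.mul_sum]
      refine Finset.sum_congr rfl fun i _ => ?_
      rw [hb']; ring
    have hx'0 : ∑ i ∈ s, a i * b' i ≠ 0 := by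
      rw [← hx']; exact mul_ne_zero (inv_ne_zero hbj) hne
    set s0 : K := ∑ i ∈ s, a i * d i with hs0
    have hs0A : s0 ∈ A := A.sum_mem fun i hi => A.mul_mem (ha i hi) (hlA (hdl i hi))
    by_cases hs00 : s0 = 0
    · -- reduce
      have hj' : a j = - ∑ i ∈ s.erase j, a i * d i := by
        have h1 := Finset.add_sum_erase s (fun i => a i * d i) hj
        simp only [hdj, mul_one] at h1
        rw [← hs0, hs00] at h1
        exact eq_neg_of_add_eq_zero_left h1
      have hx'' : ∑ i ∈ s, a i * b' i = ∑ i ∈ s.erase j, a i * (b' i - d i) := by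
        rw [← Finset.add_sum_erase s (fun i => a i * b' i) hj]
        simp only [hb'j, mul_one]
        rw [hj', neg_add_eq_sub, ← Finset.sum_sub_distrib]
        exact Finset.sum_congr rfl fun i _ => by ring
      obtain ⟨β, hβ, hβ0, hU, α, hα, hev⟩ := ih (s.erase j) a (fun i => b' i - d i)
        (by rw [Finset.card_erase_of_mem hj, hs]; rfl)
        (fun i hi => ha i (Finset.mem_of_mem_erase hi))
        (fun i hi => B.sub_mem (hb'B i (Finset.mem_of_mem_erase hi))
          (hlB (hdl i (Finset.mem_of_mem_erase hi))))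
        (by rw [← hx'']; exact hx'0)
      refine ⟨β * (b j)⁻¹, B.mul_mem hβ (B.inv_mem (hb j hj)),
        mul_ne_zero hβ0 (inv_ne_zero hbj), ?_, α, hα, ?_⟩
      · rw [mul_assoc, hx', hx'']; exact hU
      · rw [mul_assoc, hx', hx'']; exact hev
    · have hev : P.ev (∑ i ∈ s, a i * b' i) = P.ev s0 := by
        rw [P.ev_sum s _ fun i hi => P.O.mul_mem _ _ (hA _ (ha i hi)) (hb'O i hi), hs0,
          P.ev_sum s _ fun i hi => P.O.mul_mem _ _ (hA _ (ha i hi)) (hdO i hi)]
        refine Finset.sum_congr rfl fun i hi => ?_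
        rw [P.ev_mul (hA _ (ha i hi)) (hb'O i hi), P.ev_mul (hA _ (ha i hi)) (hdO i hi),
          hdev i hi]
      have hUs : P.U s0 := hUA s0 hs0A hs00
      refine ⟨(b j)⁻¹, B.inv_mem (hb j hj), inv_ne_zero hbj, ?_, s0, hs0A, ?_⟩
      · rw [hx']
        refine ⟨P.O.toSubring.sum_mem fun i hi =>
          P.O.mul_mem _ _ (hA _ (ha i hi)) (hb'O i hi), ?_⟩
        rw [hev]; exact hUs.2
      · rw [hx']; exact hev

/-- elements of a compositum are quotients of finite sums. -/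
theorem exists_sum_of_mem_sup {A B : Subfield K} {z : K}
    (hz : z ∈ Subring.closure ((A : Set K) ∪ B)) :
    ∃ (n : ℕ) (a b : Fin n → K), (∀ i, a i ∈ A) ∧ (∀ i, b i ∈ B) ∧ z = ∑ i, a i * b i := by
  rw [Subring.mem_closure_iff] at hz
  have hmul : ∀ w ∈ Submonoid.closure ((A : Set K) ∪ B), ∃ a ∈ A, ∃ b ∈ B, w = a * b := by
    intro w hw
    induction hw using Submonoid.closure_induction with
    | mem x hx =>
      rcases hx with hx | hx
      · exact ⟨x, hx, 1, B.one_mem, (mul_one x).symm⟩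
      · exact ⟨1, A.one_mem, x, hx, (one_mul x).symm⟩
    | one => exact ⟨1, A.one_mem, 1, B.one_mem, (one_mul 1).symm⟩
    | mul x y hx hy ihx ihy =>
      obtain ⟨a, ha, b, hb, rfl⟩ := ihx
      obtain ⟨a', ha', b', hb', rfl⟩ := ihy
      exact ⟨a * a', A.mul_mem ha ha', b * b', B.mul_mem hb hb', by ring⟩
  induction hz using AddSubgroup.closure_induction with
  | mem x hx =>
    obtain ⟨a, ha, b, hb, rfl⟩ := hmul x hx
    exact ⟨1, fun _ => a, fun _ => b, fun _ => ha, fun _ => hb, by simp⟩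
  | zero => exact ⟨0, Fin.elim0, Fin.elim0, fun i => i.elim0, fun i => i.elim0, by simp⟩
  | add x y hx hy ihx ihy =>
    obtain ⟨n, a, b, ha, hb, rfl⟩ := ihx
    obtain ⟨m, a', b', ha', hb', rfl⟩ := ihy
    refine ⟨n + m, Fin.append a a', Fin.append b b', ?_, ?_, ?_⟩
    · intro i
      refine Fin.addCases (fun i => ?_) (fun i => ?_) i
      · rw [Fin.append_left]; exact ha i
      · rw [Fin.append_right]; exact ha' i
    · intro i
      refine Fin.addCases (fun i => ?_) (fun i => ?_) i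
      · rw [Fin.append_left]; exact hb i
      · rw [Fin.append_right]; exact hb' i
    · rw [Fin.sum_univ_add]
      simp only [Fin.append_left, Fin.append_right]
  | neg x hx ih =>
    obtain ⟨n, a, b, ha, hb, rfl⟩ := ih
    refine ⟨n, fun i => - a i, b, fun i => A.neg_mem (ha i), hb, ?_⟩
    rw [← Finset.sum_neg_distrib]
    exact Finset.sum_congr rfl fun i _ => by ring

/-- S04 Gauss lemma. -/
theorem Pl.gauss (P : Pl K Ω) {l A B : Subfield K} (hlA : l ≤ A) (hlB : l ≤ B)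
    (hA : ∀ a ∈ A, a ∈ P.O) (hB : ∀ b ∈ B, b ∈ P.O → ∃ d ∈ l, P.ev b = P.ev d)
    {z : K} (hz : z ∈ A ⊔ B) (hz0 : z ≠ 0) :
    ∃ b ∈ B, b ≠ 0 ∧ P.U (b * z) ∧ ∃ a ∈ A, P.ev (b * z) = P.ev a := by
  have h1 : A ⊔ B = Subfield.closure ((A : Set K) ∪ B) := by
    rw [Subfield.closure_union, Subfield.closure_eq, Subfield.closure_eq]
  rw [h1, Subfield.mem_closure_iff] at hz
  obtain ⟨y, hy, w, hw, rfl⟩ := hz
  have hy0 : y ≠ 0 := by rintro rfl; exact hz0 (zero_div _)
  have hw0 : w ≠ 0 := by rintro rfl; exact hz0 (div_zero _)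
  obtain ⟨n, a, b, ha, hb, rfl⟩ := exists_sum_of_mem_sup hy
  obtain ⟨m, a', b', ha', hb', rfl⟩ := exists_sum_of_mem_sup hw
  obtain ⟨β, hβ, hβ0, hU, α, hα, hev⟩ := P.gauss_sum hlA hlB hA hB _ Finset.univ a b rfl
    (fun i _ => ha i) (fun i _ => hb i) hy0
  obtain ⟨β', hβ', hβ'0, hU', α', hα', hev'⟩ := P.gauss_sum hlA hlB hA hB _ Finset.univ a' b' rfl
    (fun i _ => ha' i) (fun i _ => hb' i) hw0
  set y := ∑ i, a i * b i
  set w := ∑ i, a' i * b' i
  have he : β / β' * (y / w) = (β * y) / (β' * w) := by field_simp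
  refine ⟨β / β', B.div_mem hβ hβ', div_ne_zero hβ0 hβ'0, ?_, α / α', A.div_mem hα hα', ?_⟩
  · rw [he]; exact hU.div hU'
  · have hα'U : P.U α' := ⟨hA _ hα', by rw [← hev']; exact hU'.2⟩
    rw [he, P.ev_div hU.1 hU', P.ev_div (hA _ hα) hα'U, hev, hev']

/-- S05 -/
theorem rac_sup {l A B : Subfield K} (hl : IsAlgClosed l) (hlA : l ≤ A) (hlB : l ≤ B) {y : K}
    (hyB : y ∈ B) (hyA : ¬ IsAlgebraic A y) (hB : ∀ b ∈ B, IsAlgebraic (adj l y) b) {h : K}
    (hh : h ∈ A ⊔ B) (hha : IsAlgebraic A h) : h ∈ A := by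
  by_cases hh0 : h = 0
  · rw [hh0]; exact A.zero_mem
  obtain ⟨P, hPA, -, -, hPB⟩ := exists_one (Ω := AlgebraicClosure K) hl hlA hyA l.zero_mem
  have hAO : ∀ a ∈ A, a ∈ P.O := fun a ha => (hPA a ha).1
  have hBd : ∀ b ∈ B, b ∈ P.O → ∃ d ∈ l, P.ev b = P.ev d := by
    intro b hb hbO
    obtain ⟨d, hd, he⟩ := hPB b hbO (hB b hb)
    exact ⟨d, hd, by rw [he, (hPA d (hlA hd)).2]⟩
  obtain ⟨b, hb, hb0, hU, a, ha, hev⟩ := P.gauss hlA hlB hAO hBd hh hh0
  have hUh : P.U h := P.U_of_isAlgebraic A hAO hha hh0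
  have hUb : P.U b := by
    have h1 : b = (b * h) / h := by field_simp
    rw [h1]; exact hU.div hUh
  obtain ⟨d, hd, hbd⟩ := hBd b hb hUb.1
  have hUd : P.U d := ⟨hAO _ (hlA hd), by rw [← hbd]; exact hUb.2⟩
  have hdA : a / d ∈ A := A.div_mem ha (hlA hd)
  have hevh : P.ev h = P.ev (a / d) := by
    have h1 : h = (b * h) / b := by field_simp
    rw [P.ev_div (hAO _ ha) hUd, ← hev, ← hbd, ← P.ev_div hU.1 hUb, ← h1]
  by_contra hcon
  have hne : h - a / d ≠ 0 := by
    intro h0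
    rw [sub_eq_zero] at h0
    exact hcon (h0 ▸ hdA)
  have hsub : IsAlgebraic A (h - a / d) := hha.sub (isAlgebraic_of_mem hdA)
  have hU' := P.U_of_isAlgebraic A hAO hsub hne
  apply hU'.2
  rw [P.ev_sub hUh.1 (hAO _ hdA), hevh, sub_self]

/-- S06 -/
theorem pow_descent {l A B : Subfield K} (hl : IsAlgClosed l) (hlA : l ≤ A) (hlB : l ≤ B) {y : K}
    (hyB : y ∈ B) (hyA : ¬ IsAlgebraic A y) (hB : ∀ b ∈ B, IsAlgebraic (adj l y) b) {ℓ : ℕ}
    (hℓ : 0 < ℓ) {a b g : K} (ha : a ∈ A) (hb : b ∈ B) (hg : g ∈ A ⊔ B) (h : a = b * g ^ ℓ) :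
    ∃ w ∈ A, a = w ^ ℓ := by
  by_cases ha0 : a = 0
  · exact ⟨0, A.zero_mem, by rw [ha0, zero_pow hℓ.ne']⟩
  have hg0 : g ≠ 0 := by
    rintro rfl
    rw [zero_pow hℓ.ne', mul_zero] at h
    exact ha0 h
  obtain ⟨P, hPA, -, -, hPB⟩ := exists_one (Ω := AlgebraicClosure K) hl hlA hyA l.zero_mem
  have hAO : ∀ a ∈ A, a ∈ P.O := fun a ha => (hPA a ha).1
  have hBd : ∀ b ∈ B, b ∈ P.O → ∃ d ∈ l, P.ev b = P.ev d := by
    intro b hb hbO
    obtain ⟨d, hd, he⟩ := hPB b hbO (hB b hb)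
    exact ⟨d, hd, by rw [he, (hPA d (hlA hd)).2]⟩
  obtain ⟨b', hb', hb'0, hU, a', ha', hev⟩ := P.gauss hlA hlB hAO hBd hg hg0
  have hUa : P.U a := P.U_of_isAlgebraic A hAO (isAlgebraic_of_mem ha) ha0
  have hb''B : b / b' ^ ℓ ∈ B := B.div_mem hb (pow_mem hb' ℓ)
  have he1 : b / b' ^ ℓ = a / (b' * g) ^ ℓ := by
    rw [h, mul_pow]
    field_simp
  have hUb'' : P.U (b / b' ^ ℓ) := by
    rw [he1]; exact hUa.div (hU.pow ℓ)
  obtain ⟨d, hd, hbd⟩ := hBd _ hb''B hUb''.1
  obtain ⟨d', hd'⟩ := IsAlgClosed.exists_pow_nat_eq (⟨d, hd⟩ : l) hℓ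
  have hd'' : (d' : K) ^ ℓ = d := congrArg Subtype.val hd'
  have hwA : (d' : K) * a' ∈ A := A.mul_mem (hlA d'.2) ha'
  refine ⟨(d' : K) * a', hwA, ?_⟩
  apply (algebraMap K (AlgebraicClosure K)).injective
  rw [← (hPA a ha).2, ← (hPA _ (pow_mem hwA ℓ)).2]
  have he2 : a = (b / b' ^ ℓ) * (b' * g) ^ ℓ := by
    rw [he1]
    have := (hU.pow ℓ).ne_zero
    field_simp
  rw [mul_pow, hd'', P.ev_mul (hAO _ (hlA hd)) (pow_mem (hAO _ ha') ℓ), P.ev_pow (hAO _ ha'),
    ← hbd, ← hev]
  conv_lhs => rw [he2]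
  rw [P.ev_mul hUb''.1 (pow_mem hU.1 ℓ), P.ev_pow hU.1]

theorem adj_eq (E : Subfield K) (b : K) :
    adj E b = (IntermediateField.adjoin E {b}).toSubfield := by
  apply le_antisymm
  · refine adj_le ?_ ?_
    · intro c hc
      exact (IntermediateField.adjoin E {b}).algebraMap_mem ⟨c, hc⟩
    · exact IntermediateField.mem_adjoin_simple_self E b
  · intro x hx
    let M : IntermediateField E K := (adj E b).toIntermediateField (fun c => le_adj E b c.2)
    have h1 : IntermediateField.adjoin E {b} ≤ M := by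
      rw [IntermediateField.adjoin_le_iff, Set.singleton_subset_iff]
      exact mem_adj E b
    exact h1 hx

/-- S07 exchange property of algebraic dependence. -/
theorem exchange {E : Subfield K} {a b : K} (ha : ¬ IsAlgebraic E a)
    (h : IsAlgebraic (adj E b) a) : IsAlgebraic (adj E a) b := by
  by_cases hb : IsAlgebraic E b
  · exact isAlgebraic_mono (le_adj E a) hb
  · rw [adj_eq] at h ⊢
    have h1 : IsAlgebraic (IntermediateField.adjoin E {b}) a := h
    rw [IntermediateField.isAlgebraic_adjoin_iff] at h1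
    have h2 := IsAlgebraic.adjoin_singleton (R := E) (A := K) (B := K) (x := b) (y := a) hb ha h1
    have h3 : IsAlgebraic (Algebra.adjoin E {a}) b := h2
    rw [← IntermediateField.isAlgebraic_adjoin_iff] at h3
    exact h3

end places

end Vale.Agent.P019
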