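import Vale.Agent.P019.RatB

/-!
# The correspondence of points on rational curves
-/

set_option linter.unusedSectionVars false
set_option linter.unusedVariables false

namespace Vale.Agent.P019

open Polynomial Filter

variable {K L : Type*} [Field K] [Field L] [CharZero K] [CharZero L] {ℓ : ℕ} [Fact ℓ.Prime]
  {k : Subfield K} {l : Subfield L} {Θ : V ℓ K ≃ₗ[ZMod ℓ] V ℓ L}

theorem Rt.symm {s : K} {s' : L} (h : Rt k l Θ s s') : Rt l k Θ.symm s' s where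
  good := h.good'
  good' := h.good
  map := by
    intro v
    rw [← h.map, LinearEquiv.apply_symm_apply]

theorem Cor.symm {s : K} {s' : L} (hR : Rt k l Θ s s') {e : ZMod ℓ} (he : e ≠ 0) {b : K} {β : L}
    (h : Cor k l Θ s s' e b β) : Cor l k Θ.symm s' s e⁻¹ β b := by
  intro v hv
  have h1 : Θ.symm v ∈ VS ℓ (adj k s) := (hR.symm.map v).2 hv
  rw [h _ h1, LinearEquiv.apply_symm_apply, inv_mul_cancel_left₀ he]

/-- the corresponding point and the coefficient are unique. -/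
theorem Cor.unique (hk : IsAlgClosed k) (hl : IsAlgClosed l) {s : K} {s' : L}
    (hR : Rt k l Θ s s') {e e' : ZMod ℓ} (he : e ≠ 0) {b : K} (hb : b ∈ k) {β β' : L}
    (hβ : β ∈ l) (hβ' : β' ∈ l) (h : Cor k l Θ s s' e b β) (h' : Cor k l Θ s s' e' b β') :
    β = β' ∧ e = e' := by
  have hv : cl ℓ (s' - β) ∈ VS ℓ (adj l s') :=
    cl_mem_VS ((adj l s').sub_mem (mem_adj l s') (le_adj l s' hβ))
  have h1 : Θ.symm (cl ℓ (s' - β)) ∈ VS ℓ (adj k s) := (hR.symm.map _).2 hv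
  have h2 := h _ h1
  have h3 := h' _ h1
  rw [LinearEquiv.apply_symm_apply] at h2 h3
  rw [del_self hl hR.good' hβ, mul_one] at h2
  by_cases hβ1 : β = β'
  · subst hβ1
    rw [del_self hl hR.good' hβ, mul_one] at h3
    exact ⟨rfl, h2.symm.trans h3⟩
  · rw [del_ne hl hR.good' hβ' hβ hβ1, mul_zero] at h3
    exact absurd (h2.symm.trans h3) he

/-- correspondence is injective. -/
theorem Cor.inj (hk : IsAlgClosed k) (hl : IsAlgClosed l) {s : K} {s' : L}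
    (hR : Rt k l Θ s s') {e e' : ZMod ℓ} (he : e ≠ 0) (he' : e' ≠ 0) {b b' : K} (hb : b ∈ k)
    (hb' : b' ∈ k) {β : L} (hβ : β ∈ l) (h : Cor k l Θ s s' e b β)
    (h' : Cor k l Θ s s' e' b' β) : b = b' := by
  have hv : cl ℓ (s - b) ∈ VS ℓ (adj k s) :=
    cl_mem_VS ((adj k s).sub_mem (mem_adj k s) (le_adj k s hb))
  have h2 := h _ hv
  have h3 := h' _ hv
  rw [del_self hk hR.good hb] at h2
  by_contra hne
  rw [del_ne hk hR.good hb' hb hne] at h3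
  have h4 : del ℓ l s' β (Θ (cl ℓ (s - b))) ≠ 0 := by
    intro h0
    rw [h0, mul_zero] at h2
    exact one_ne_zero h2
  exact (mul_ne_zero he' h4) h3.symm

/-- a good element independent of a given one. -/
theorem Hyp.exists_indep (H : Hyp ℓ k l Θ) {s : K} (hs : Good k s) :
    ∃ t, Good k t ∧ ¬ IsAlgebraic (adj k s) t := by
  have hRAC := RAC_of_isAlgClosed k H.ack
  have hsk : ¬ IsAlgebraic k s := fun h => hs.1 (hRAC s h)
  obtain ⟨x, y, hx, hxy⟩ := H.trk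
  have hex : ∃ w : K, ¬ IsAlgebraic (adj k s) w := by
    by_contra hcon
    push Not at hcon
    have h1 : ¬ IsAlgebraic k x := fun h => hx (hRAC x h)
    have h2 : IsAlgebraic (adj k x) s := exchange h1 (hcon x)
    have h3 : adj k s ≤ rac (adj k x) :=
      adj_le ((le_adj k x).trans (le_rac _)) (mem_rac.2 h2)
    exact hxy (mem_rac.1 ((RAC_rac (adj k x)).le h3 (mem_rac.2 (hcon y))))
  obtain ⟨w, hw⟩ := hex
  have hwk : w ∉ k := fun h => hw (isAlgebraic_of_mem (le_adj k s h))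
  have hws : ¬ IsAlgebraic (adj k w) s := fun h => hw (exchange hsk h)
  have hne := ae_neBot k
  obtain ⟨c, hc, hck⟩ := ((H.bert w s hwk hws).and (ae_mem k)).exists
  refine ⟨w + c * s, hc, fun h => hw ?_⟩
  have h1 : w + c * s ∈ rac (adj k s) := mem_rac.2 h
  have h2 : c * s ∈ rac (adj k s) :=
    le_rac _ ((adj k s).mul_mem (le_adj k s hck) (mem_adj k s))
  have h3 := (rac (adj k s)).sub_mem h1 h2
  rw [add_sub_cancel_right] at h3
  exact mem_rac.1 h3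

/-- the functionals of the points corresponding to a pole. -/
def PoleAt (k : Subfield K) (l : Subfield L) (Θ : V ℓ K ≃ₗ[ZMod ℓ] V ℓ L) (s : K) (s' : L)
    (b : K) : Prop :=
  ∃ f : V ℓ L →ₗ[ZMod ℓ] ZMod ℓ, (∀ v ∈ VS ℓ (adj k s), del ℓ k s b v = f (Θ v)) ∧
    ∀ c ∈ l, f (cl ℓ (s' - c)) = f (cl ℓ s')

theorem PoleAt.prop (hl : IsAlgClosed l) {s' : L} (hs' : Good l s')
    {f : V ℓ L →ₗ[ZMod ℓ] ZMod ℓ} (hf : ∀ c ∈ l, f (cl ℓ (s' - c)) = f (cl ℓ s'))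
    {g : V ℓ L →ₗ[ZMod ℓ] ZMod ℓ} (hg : ∀ c ∈ l, g (cl ℓ (s' - c)) = g (cl ℓ s'))
    {w : V ℓ L} (hw : w ∈ VS ℓ (adj l s')) : f w * g (cl ℓ s') = g w * f (cl ℓ s') := by
  classical
  obtain ⟨T, n, hT, rfl⟩ := adj_factor hl hs'.1 hw
  have key : ∀ {h : V ℓ L →ₗ[ZMod ℓ] ZMod ℓ}, (∀ c ∈ l, h (cl ℓ (s' - c)) = h (cl ℓ s')) →
      h (∑ c ∈ T, n c • cl ℓ (s' - c)) = (∑ c ∈ T, n c) * h (cl ℓ s') := by
    intro h hh
    rw [map_sum, Finset.sum_mul]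
    refine Finset.sum_congr rfl fun c hc => ?_
    rw [map_smul, hh c (hT c hc), smul_eq_mul]
  rw [key hf, key hg]
  ring

theorem PoleAt.unique (hk : IsAlgClosed k) (hl : IsAlgClosed l) {s : K} {s' : L}
    (hR : Rt k l Θ s s') {b₁ b₂ : K} (h₁ : b₁ ∈ k) (h₂ : b₂ ∈ k) (hp₁ : PoleAt k l Θ s s' b₁)
    (hp₂ : PoleAt k l Θ s s' b₂) : b₁ = b₂ := by
  by_contra hne
  obtain ⟨f₁, hf₁, hf₁'⟩ := hp₁
  obtain ⟨f₂, hf₂, hf₂'⟩ := hp₂
  have hv₁ : cl ℓ (s - b₁) ∈ VS ℓ (adj k s) :=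
    cl_mem_VS ((adj k s).sub_mem (mem_adj k s) (le_adj k s h₁))
  have hv₂ : cl ℓ (s - b₂) ∈ VS ℓ (adj k s) :=
    cl_mem_VS ((adj k s).sub_mem (mem_adj k s) (le_adj k s h₂))
  have a11 := hf₁ _ hv₁
  have a21 := hf₂ _ hv₁
  have a12 := hf₁ _ hv₂
  have a22 := hf₂ _ hv₂
  rw [del_self hk hR.good h₁] at a11
  rw [del_ne hk hR.good h₂ h₁ hne] at a21
  rw [del_ne hk hR.good h₁ h₂ (Ne.symm hne)] at a12
  rw [del_self hk hR.good h₂] at a22
  have k1 := PoleAt.prop hl hR.good' hf₁' hf₂' ((hR.map _).2 hv₁)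
  have k2 := PoleAt.prop hl hR.good' hf₁' hf₂' ((hR.map _).2 hv₂)
  rw [← a11, ← a21, one_mul, zero_mul] at k1
  rw [← a12, ← a22, one_mul, zero_mul] at k2
  -- both constants vanish
  obtain ⟨T, n, hT, hw⟩ := adj_factor hl hR.good'.1 ((hR.map _).2 hv₁)
  rw [hw, map_sum] at a11
  rw [Finset.sum_eq_zero] at a11
  · exact one_ne_zero a11
  · intro c hc
    rw [map_smul, hf₁' c (hT c hc), ← k2, smul_zero]

/-- almost all points have a corresponding point. -/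
theorem Hyp.exists_cor (H : Hyp ℓ k l Θ) {s : K} {s' : L} (hR : Rt k l Θ s s') :
    ∀ᶠ b in ae k, ∃ β ∈ l, ∃ e : ZMod ℓ, e ≠ 0 ∧ Cor k l Θ s s' e b β := by
  obtain ⟨t, ht, hst⟩ := H.exists_indep hR.good
  have hRAC := RAC_of_isAlgClosed k H.ack
  have htk : ¬ IsAlgebraic k t := fun h => ht.1 (hRAC t h)
  have hsk : ¬ IsAlgebraic k s := fun h => hR.good.1 (hRAC s h)
  have hts : ¬ IsAlgebraic (adj k t) s := fun h => hst (exchange hsk h)
  obtain ⟨G, hG⟩ := exists_frame H.fgk htk hts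
  obtain ⟨θ, hθ⟩ := hG.nice H.fgk
  have hkF : k ≤ adj G t := hG.le.trans (le_adj G t)
  have hθ' := (ae_mono hkF) hθ
  have hmain : ∀ᶠ b in ae k, (∃ β ∈ l, ∃ e : ZMod ℓ, e ≠ 0 ∧ Cor k l Θ s s' e b β) ∨
      PoleAt k l Θ s s' b := by
    filter_upwards [hθ', ae_mem k] with b hb hbk
    obtain ⟨W, hW⟩ := exists_over hG.tt (hkF hbk)
    have hN := hb W hW
    have hWt : TrivOn W (adj k t) := hN.triv.mono (adj_mono hG.le t)
    have hWk : TrivOn W k := hN.triv.mono hkF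
    obtain ⟨O, hOl, hT⟩ := H.exists_tr hkF (hG.fg.adj t) hN ht hWt
    have hsb : cl ℓ (s - b) ∈ VS ℓ (adj k s) :=
      cl_mem_VS ((adj k s).sub_mem (mem_adj k s) (le_adj k s hbk))
    have hnt : ¬ TrivOn O (adj l s') := hT.not_triv hN.unif ((hR.map _).2 hsb)
    set f : V ℓ L →ₗ[ZMod ℓ] ZMod ℓ := (hN.unif.fn ℓ) ∘ₗ Θ.symm.toLinearMap with hf
    have hfu : ∀ z, O.valuation z = 1 → f (cl ℓ z) = 0 := fun z hz => hT.unit hN.unif z hz
    have hdel : ∀ v ∈ VS ℓ (adj k s), del ℓ k s b v = f (Θ v) := by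
      intro v hv
      have h1 := del_of_kills H.ack hR.good hWk hbk hW.lt (hN.unif.fn ℓ)
        (fun z hz => hN.unif.fn_unit ℓ z hz) hv
      rw [hN.unif.fn_self, one_mul] at h1
      rw [← h1]
      change _ = hN.unif.fn ℓ (Θ.symm (Θ v))
      rw [LinearEquiv.symm_apply_apply]
    rcases exists_centre H.acl hR.good' hOl hnt with ⟨β, hβ, hβ1⟩ | hinf
    · left
      have hcor : ∀ v ∈ VS ℓ (adj k s),
          del ℓ k s b v = f (cl ℓ (s' - β)) * del ℓ l s' β (Θ v) := by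
        intro v hv
        rw [hdel v hv]
        exact del_of_kills H.acl hR.good' hOl hβ hβ1 f hfu ((hR.map v).2 hv)
      refine ⟨β, hβ, f (cl ℓ (s' - β)), ?_, hcor⟩
      intro h0
      have h1 := hcor _ hsb
      rw [h0, zero_mul, del_self H.ack hR.good hbk] at h1
      exact one_ne_zero h1
    · right
      refine ⟨f, hdel, fun c hc => ?_⟩
      have hs0 : s' ≠ 0 := by
        rintro rfl
        rw [map_zero] at hinf
        exact absurd hinf (not_lt.2 zero_le_one)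
      have hcle : O.valuation c < O.valuation s' := (hOl.le_one hc).trans_lt hinf
      have hval : O.valuation (s' - c) = O.valuation s' :=
        Valuation.map_sub_eq_of_lt_left _ hcle
      have hsc0 : s' - c ≠ 0 := by
        intro h
        rw [h, map_zero] at hval
        exact (Valuation.ne_zero_iff O.valuation).2 hs0 hval.symm
      have h1 : O.valuation ((s' - c) / s') = 1 := by
        rw [map_div₀, hval, div_self ((Valuation.ne_zero_iff O.valuation).2 hs0)]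
      have h2 := hfu _ h1
      rw [cl_div ℓ hsc0 hs0, map_sub, sub_eq_zero] at h2
      exact h2
  have hpole : ∀ᶠ b in ae k, ¬ PoleAt k l Θ s s' b := by
    rw [ae_iff]
    refine Set.Subsingleton.finite ?_
    rintro b₁ ⟨h₁, hp₁⟩ b₂ ⟨h₂, hp₂⟩
    rw [not_not] at hp₁ hp₂
    exact PoleAt.unique H.ack H.acl hR h₁ h₂ hp₁ hp₂
  filter_upwards [hmain, hpole] with b h1 h2
  exact h1.resolve_right h2

/-- the correspondence as a map. -/
structure Psi (k : Subfield K) (l : Subfield L) (Θ : V ℓ K ≃ₗ[ZMod ℓ] V ℓ L) (s : K) (s' : L)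
    (ψ : K → L) (e : K → ZMod ℓ) : Prop where
  cor : ∀ᶠ b in ae k, ψ b ∈ l ∧ e b ≠ 0 ∧ Cor k l Θ s s' (e b) b (ψ b)
  surj : ∀ᶠ β in ae l, ∃ b ∈ k, ψ b = β ∧ e b ≠ 0 ∧ Cor k l Θ s s' (e b) b (ψ b)

theorem Hyp.exists_psi (H : Hyp ℓ k l Θ) {s : K} {s' : L} (hR : Rt k l Θ s s') :
    ∃ ψ e, Psi k l Θ s s' ψ e := by
  classical
  have hex : ∃ (ψ : K → L) (e : K → ZMod ℓ), ∀ b, (∃ β ∈ l, ∃ e : ZMod ℓ, e ≠ 0 ∧
      Cor k l Θ s s' e b β) → ψ b ∈ l ∧ e b ≠ 0 ∧ Cor k l Θ s s' (e b) b (ψ b) := by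
    refine ⟨fun b => if h : ∃ β ∈ l, ∃ e : ZMod ℓ, e ≠ 0 ∧ Cor k l Θ s s' e b β then h.choose
      else 0, fun b => if h : ∃ β ∈ l, ∃ e : ZMod ℓ, e ≠ 0 ∧ Cor k l Θ s s' e b β then
        h.choose_spec.2.choose else 0, fun b h => ?_⟩
    simp only [dif_pos h]
    exact ⟨h.choose_spec.1, h.choose_spec.2.choose_spec.1, h.choose_spec.2.choose_spec.2⟩
  obtain ⟨ψ, e, hψ⟩ := hex
  have hcor : ∀ᶠ b in ae k, ψ b ∈ l ∧ e b ≠ 0 ∧ Cor k l Θ s s' (e b) b (ψ b) := by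
    filter_upwards [H.exists_cor hR] with b hb
    exact hψ b hb
  refine ⟨ψ, e, hcor, ?_⟩
  have h1 := H.symm.exists_cor hR.symm
  rw [ae_iff] at hcor
  rw [ae_iff] at h1 ⊢
  have h2 : (⋃ b ∈ {a : K | a ∈ k ∧ ¬ (ψ a ∈ l ∧ e a ≠ 0 ∧ Cor k l Θ s s' (e a) a (ψ a))},
      {β : L | β ∈ l ∧ ∃ e : ZMod ℓ, e ≠ 0 ∧ Cor k l Θ s s' e b β}).Finite := by
    refine hcor.biUnion fun b hb => Set.Subsingleton.finite ?_
    rintro β ⟨hβ, e₁, he₁, hc₁⟩ β' ⟨hβ', e₂, he₂, hc₂⟩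
    exact (Cor.unique H.ack H.acl hR he₁ hb.1 hβ hβ' hc₁ hc₂).1
  refine (h1.union h2).subset ?_
  rintro β ⟨hβ, hno⟩
  by_cases hQ : ∃ b ∈ k, ∃ e : ZMod ℓ, e ≠ 0 ∧ Cor l k Θ.symm s' s e β b
  · right
    obtain ⟨b, hb, e', he', hc⟩ := hQ
    have hc' : Cor k l Θ s s' e'⁻¹ b β := Cor.symm hR.symm he' hc
    rw [Set.mem_iUnion₂]
    refine ⟨b, ⟨hb, fun hgood => hno ?_⟩, hβ, e'⁻¹, inv_ne_zero he', hc'⟩
    exact ⟨b, hb, (Cor.unique H.ack H.acl hR hgood.2.1 hb hgood.1 hβ hgood.2.2 hc').1,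
      hgood.2.1, hgood.2.2⟩
  · left
    exact ⟨hβ, hQ⟩

end Vale.Agent.P019
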