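import Vale.Agent.P019.PsiB
import Vale.Agent.P019.MobB

/-!
# Shifts on fibres and centres
-/

namespace Vale.Agent.P019

open Polynomial Filter

section shift

variable {K : Type*} [Field K] [CharZero K] {ℓ : ℕ} [Fact ℓ.Prime] {k : Subfield K}

theorem del_aeval (hk : IsAlgClosed k) {s : K} (hs : Good k s) {b : k} {F : k[X]} (hF : F ≠ 0) :
    del ℓ k s b (cl ℓ (aeval s F)) = (F.rootMultiplicity b : ZMod ℓ) := by
  classical
  have hsub : ∀ c : k, s - (c : K) ≠ 0 := by
    intro c h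
    apply hs.1
    rw [sub_eq_zero] at h
    rw [h]
    exact c.2
  have key : ∀ m : Multiset k, del ℓ k s b (cl ℓ (aeval s ((m.map fun a => X - C a).prod : k[X])))
      = (m.count b : ZMod ℓ) ∧ aeval s ((m.map fun a => X - C a).prod : k[X]) ≠ 0 := by
    intro m
    induction m using Multiset.induction_on with
    | empty => simp [cl_one]
    | cons a m ih =>
      have e : aeval s (((a ::ₘ m).map fun a => X - C a).prod : k[X]) =
          (s - (a : K)) * aeval s ((m.map fun a => X - C a).prod : k[X]) := by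
        rw [Multiset.map_cons, Multiset.prod_cons, map_mul, map_sub, aeval_X, aeval_C]
        rfl
      rw [e]
      refine ⟨?_, mul_ne_zero (hsub a) ih.2⟩
      rw [cl_mul ℓ (hsub a) ih.2, map_add, ih.1, Multiset.count_cons]
      by_cases hab : b = a
      · subst hab
        rw [del_self hk hs b.2, if_pos rfl]
        push_cast
        ring
      · rw [del_ne hk hs b.2 a.2 (fun h => hab (Subtype.ext h.symm)), if_neg hab]
        simp
  have h1 : F = C F.leadingCoeff * (F.roots.map fun a => X - C a).prod :=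
    (IsAlgClosed.splits F).eq_prod_roots
  have h2 : aeval s F = ((F.leadingCoeff : k) : K) *
      aeval s ((F.roots.map fun a => X - C a).prod : k[X]) := by
    conv_lhs => rw [h1]
    rw [map_mul, aeval_C]
    rfl
  have h3 : ((F.leadingCoeff : k) : K) ≠ 0 := by
    intro h
    exact hF (leadingCoeff_eq_zero.1 (Subtype.ext h))
  rw [h2, cl_mul ℓ h3 (key F.roots).2, line_cl_const hk (F.leadingCoeff).2, zero_add,
    (key F.roots).1, count_roots]

/-- on the fibres of `t`, the function `z` is a shift of `s`. -/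
structure Shift (ℓ : ℕ) (k : Subfield K) (t s z : K) (m : K → K → K) : Prop where
  mem : ∀ a ∈ k, ∀ b ∈ k, m a b ∈ k
  ev : ∀ᶠ a in ae k, (∀ b ∈ k, ∀ b' ∈ k, m a b = m a b' → b = b') ∧
    (∀ c ∈ k, ∃ b ∈ k, m a b = c) ∧
    ∀ O : ValuationSubring K, TrivOn O (adj k s) → O.valuation (t - a) < 1 →
      ∀ b ∈ k, cl ℓ (s - b) - cl ℓ (z - m a b) ∈ U1 ℓ O

theorem shift_add (hk : IsAlgClosed k) {s : K} (hs : s ∉ k) (t : K) :
    Shift ℓ k t s (t + s) (fun a b => a + b) := by
  refine ⟨fun a ha b hb => add_mem ha hb, ?_⟩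
  filter_upwards [ae_mem k] with a ha
  refine ⟨fun b _ b' _ h => add_left_cancel h, fun c hc => ⟨c - a, sub_mem hc ha, by ring⟩, ?_⟩
  intro O hO hta b hb
  have hsb : s - b ∈ adj k s := sub_mem (mem_adj k s) (le_adj k s hb)
  have hsb0 : s - b ≠ 0 := by
    intro h
    rw [sub_eq_zero] at h
    exact hs (h ▸ hb)
  rw [← neg_mem_iff, neg_sub]
  refine cl_sub_cl_mem_U1 (hO.eq_one hsb hsb0) ?_
  have : t + s - (a + b) - (s - b) = t - a := by ring
  rwa [this]

theorem shift_mul (hk : IsAlgClosed k) {s : K} (hs : s ∉ k) (t : K) :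
    Shift ℓ k t s (t * s) (fun a b => a * b) := by
  refine ⟨fun a ha b hb => mul_mem ha hb, ?_⟩
  have h0 : ∀ᶠ a in ae k, a ≠ 0 := by
    rw [ae_iff]
    refine (Set.finite_singleton (0 : K)).subset ?_
    rintro a ⟨_, ha⟩
    exact not_not.1 ha
  filter_upwards [ae_mem k, h0] with a ha ha0
  refine ⟨fun b _ b' _ h => mul_left_cancel₀ ha0 h,
    fun c hc => ⟨c / a, div_mem hc ha, by field_simp⟩, ?_⟩
  intro O hO hta b hb
  have hsb : s - b ∈ adj k s := sub_mem (mem_adj k s) (le_adj k s hb)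
  have hsb0 : s - b ≠ 0 := by
    intro h
    rw [sub_eq_zero] at h
    exact hs (h ▸ hb)
  have hs0 : s ≠ 0 := by
    rintro rfl
    exact hs (zero_mem k)
  have hasb : a * (s - b) ∈ adj k s := mul_mem (le_adj k s ha) hsb
  have e1 : cl ℓ (a * (s - b)) = cl ℓ (s - b) := by
    rw [cl_mul ℓ ha0 hsb0, line_cl_const hk ha, zero_add]
  rw [← neg_mem_iff, neg_sub, ← e1]
  refine cl_sub_cl_mem_U1 (hO.eq_one hasb (mul_ne_zero ha0 hsb0)) ?_
  have : t * s - a * b - a * (s - b) = (t - a) * s := by ring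
  rw [this, map_mul, hO.eq_one (mem_adj k s) hs0, mul_one]
  exact hta

end shift

variable {K L : Type*} [Field K] [Field L] [CharZero K] [CharZero L] {ℓ : ℕ} [Fact ℓ.Prime]
  {k : Subfield K} {l : Subfield L} {Θ : V ℓ K ≃ₗ[ZMod ℓ] V ℓ L}

/-- the transferred valuation is centred at the corresponding point. -/
theorem Hyp.centre (H : Hyp ℓ k l Θ) {t : K} {t' : L} (hR : Rt k l Θ t t') {a : K} (ha : a ∈ k)
    {α : L} (hα : α ∈ l) {e : ZMod ℓ} (he : e ≠ 0) (hc : Cor k l Θ t t' e a α)
    {W : ValuationSubring L} (hWl : TrivOn W l) (hW : IsUnif W (t' - α)) {O : ValuationSubring K}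
    (hOk : TrivOn O k) (hT : Tr Θ.symm W (t' - α) O) : O.valuation (t - a) < 1 := by
  set f : V ℓ K →ₗ[ZMod ℓ] ZMod ℓ := (hW.fn ℓ) ∘ₗ Θ.toLinearMap with hfdef
  have hf : ∀ z, O.valuation z = 1 → f (cl ℓ z) = 0 := by
    intro z hz
    have := hT.unit hW z hz
    rwa [LinearEquiv.symm_symm] at this
  have hfv : ∀ v ∈ VS ℓ (adj k t), del ℓ k t a v = e * f v := by
    intro v hv
    have h1 : Θ v ∈ VS ℓ (adj l t') := (hR.map v).2 hv
    have h2 := del_of_kills (ℓ := ℓ) H.acl hR.good' hWl hα hW.lt (hW.fn ℓ) (hW.fn_unit ℓ) h1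
    rw [hW.fn_self, one_mul] at h2
    rw [hc v hv, ← h2]
    rfl
  have hmem : ∀ b ∈ k, cl ℓ (t - b) ∈ VS ℓ (adj k t) := fun b hb =>
    cl_mem_VS (sub_mem (mem_adj k t) (le_adj k t hb))
  have hta : e * f (cl ℓ (t - a)) = 1 := by
    rw [← hfv _ (hmem a ha), del_self H.ack hR.good ha]
  have hne : f (cl ℓ (t - a)) ≠ 0 := by
    intro h
    rw [h, mul_zero] at hta
    exact zero_ne_one hta
  have hnt : ¬ TrivOn O (adj k t) := by
    refine hT.not_triv hW ?_
    rw [← hR.map, LinearEquiv.apply_symm_apply]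
    exact cl_mem_VS (sub_mem (mem_adj l t') (le_adj l t' hα))
  rcases exists_centre H.ack hR.good hOk hnt with ⟨b, hb, hbt⟩ | hbig
  · have h1 := del_of_kills (ℓ := ℓ) H.ack hR.good hOk hb hbt f hf (hmem a ha)
    have h2 : a = b := by
      by_contra hab
      rw [del_ne H.ack hR.good hb ha hab, mul_zero] at h1
      exact hne h1
    rw [h2]
    exact hbt
  · exfalso
    have ha' : a + 1 ∈ k := add_mem ha (one_mem k)
    have hval : ∀ b ∈ k, O.valuation (t - b) = O.valuation t := by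
      intro b hb
      rw [Valuation.map_sub_eq_of_lt_left]
      exact lt_of_le_of_lt (hOk.le_one hb) hbig
    have hsub : ∀ b ∈ k, t - b ≠ 0 := by
      intro b hb h
      rw [sub_eq_zero] at h
      exact hR.good.1 (h ▸ hb)
    have ht0 : O.valuation t ≠ 0 := by
      intro h
      rw [h] at hbig
      exact absurd hbig (not_lt.2 zero_le_one)
    have h1 : O.valuation ((t - a) / (t - (a + 1))) = 1 := by
      rw [map_div₀, hval a ha, hval _ ha', div_self ht0]
    have h2 := hf _ h1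
    rw [cl_div ℓ (hsub a ha) (hsub _ ha'), map_sub, sub_eq_zero] at h2
    have h3 := hfv _ (hmem _ ha')
    rw [del_ne H.ack hR.good ha ha' (by simp)] at h3
    rcases mul_eq_zero.1 h3.symm with h4 | h4
    · exact he h4
    · exact hne (h2.trans h4)

end Vale.Agent.P019
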