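import Vale.Agent.P019.RelA

/-!
# Moebius relations between the correspondences
-/

namespace Vale.Agent.P019

set_option linter.unusedVariables false

open Polynomial Filter

section relb_ae

variable {K L : Type*} [Field K] [Field L]

theorem relb_comap {k : Subfield K} {l : Subfield L} {f : K → L} {G : K → Prop}
    (hG : ∀ᶠ a in ae k, G a) (hf : ∀ a ∈ k, G a → f a ∈ l)
    (hinj : ∀ a ∈ k, G a → ∀ b ∈ k, G b → f a = f b → a = b) {P : L → Prop}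
    (hP : ∀ᶠ β in ae l, P β) : ∀ᶠ a in ae k, P (f a) := by
  rw [ae_iff] at hG hP ⊢
  have h1 : {a : K | a ∈ k ∧ G a ∧ ¬ P (f a)}.Finite := by
    refine Set.Finite.of_finite_image (f := f) (hP.subset ?_) ?_
    · rintro _ ⟨a, ⟨ha, hGa, hPa⟩, rfl⟩
      exact ⟨hf a ha hGa, hPa⟩
    · rintro a ⟨ha, hGa, -⟩ b ⟨hb, hGb, -⟩ hab
      exact hinj a ha hGa b hb hGb hab
  refine (hG.union h1).subset ?_
  rintro a ⟨ha, hPa⟩
  by_cases hGa : G a
  · exact Or.inr ⟨ha, hGa, hPa⟩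
  · exact Or.inl ⟨ha, hGa⟩

theorem relb_aeval_mem {k : Subfield K} (x : K) (F : k[X]) : aeval x F ∈ adj k x := by
  rw [aeval_eq_sum_range]
  refine sum_mem fun i _ => ?_
  rw [Algebra.smul_def]
  exact mul_mem (le_adj k x (F.coeff i).2) (pow_mem (mem_adj k x) i)

theorem relb_coprime {k : Subfield K} (hk : IsAlgClosed k) {x z : K} (hx : x ∉ k)
    (hz : z ∈ adj k x) :
    ∃ p q : k[X], IsCoprime p q ∧ q ≠ 0 ∧ z = aeval x p / aeval x q := by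
  classical
  obtain ⟨p, q, rfl⟩ := line_mem hz
  by_cases hq : q = 0
  · refine ⟨0, 1, isCoprime_one_right, one_ne_zero, ?_⟩
    rw [hq]
    simp
  · set g := EuclideanDomain.gcd p q with hg
    have hg0 : g ≠ 0 := by
      intro h
      exact hq (EuclideanDomain.gcd_eq_zero_iff.1 h).2
    have h1 : p = g * (p / g) := (EuclideanDomain.mul_div_cancel' hg0
      (EuclideanDomain.gcd_dvd_left p q)).symm
    have h2 : q = g * (q / g) := (EuclideanDomain.mul_div_cancel' hg0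
      (EuclideanDomain.gcd_dvd_right p q)).symm
    refine ⟨p / g, q / g, ?_, ?_, ?_⟩
    · obtain ⟨u, v, h3⟩ : ∃ u v, g = p * u + q * v :=
        ⟨_, _, EuclideanDomain.gcd_eq_gcd_ab p q⟩
      refine ⟨u, v, mul_left_cancel₀ hg0 ?_⟩
      calc g * (u * (p / g) + v * (q / g)) = (g * (p / g)) * u + (g * (q / g)) * v := by ring
        _ = p * u + q * v := by rw [← h1, ← h2]
        _ = g * 1 := by rw [← h3, mul_one]
    · intro h
      rw [h, mul_zero] at h2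
      exact hq h2
    · have h3 : aeval x g ≠ 0 := line_aeval_ne hk hx hg0
      conv_lhs => rw [h1, h2]
      rw [map_mul, map_mul, mul_div_mul_left _ _ h3]

end relb_ae

section relb_psi

variable {K L : Type*} [Field K] [Field L] [CharZero K] [CharZero L] {ℓ : ℕ} [Fact ℓ.Prime]
  {k : Subfield K} {l : Subfield L} {Θ : V ℓ K ≃ₗ[ZMod ℓ] V ℓ L}

/-- the correspondence is generically injective. -/
theorem Psi.relb_pull (hk : IsAlgClosed k) (hl : IsAlgClosed l) {s : K} {s' : L}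
    (hR : Rt k l Θ s s') {ψ : K → L} {e : K → ZMod ℓ} (p : Psi k l Θ s s' ψ e) {P : L → Prop}
    (hP : ∀ᶠ β in ae l, P β) : ∀ᶠ b in ae k, P (ψ b) := by
  refine relb_comap p.cor (fun a _ h => h.1) ?_ hP
  intro a ha h b hb h' hab
  refine Cor.inj hk hl hR h.2.1 h'.2.1 ha hb h.1 h.2.2 ?_
  rw [hab]
  exact h'.2.2

omit [CharZero L] in
/-- value of the functional at the corresponding point. -/
theorem Cor.relb_theta (hk : IsAlgClosed k) {s : K} {s' : L} (hR : Rt k l Θ s s')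
    {e : ZMod ℓ} {b : K} (hb : b ∈ k) {β : L} (h : Cor k l Θ s s' e b β) :
    del ℓ l s' β (Θ (cl ℓ (s - b))) = e⁻¹ := by
  have h1 := h (cl ℓ (s - b)) (cl_mem_VS (sub_mem (mem_adj k s) (le_adj k s hb)))
  rw [del_self hk hR.good hb] at h1
  exact eq_inv_of_mul_eq_one_right h1.symm

omit [CharZero L] in
theorem Cor.relb_theta_ne (hk : IsAlgClosed k) {s : K} {s' : L} (hR : Rt k l Θ s s')
    {e : ZMod ℓ} (he : e ≠ 0) {b c : K} (hb : b ∈ k) (hc : c ∈ k) (hcb : c ≠ b) {β : L}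
    (h : Cor k l Θ s s' e b β) : del ℓ l s' β (Θ (cl ℓ (s - c))) = 0 := by
  have h1 := h (cl ℓ (s - c)) (cl_mem_VS (sub_mem (mem_adj k s) (le_adj k s hc)))
  rw [del_ne hk hR.good hb hc hcb] at h1
  exact (mul_eq_zero.1 h1.symm).resolve_left he

theorem Psi.relb_sum (hk : IsAlgClosed k) (hl : IsAlgClosed l) {s : K} {s' : L}
    (hR : Rt k l Θ s s') {ψ : K → L} {e : K → ZMod ℓ} {X : Finset L} (hX : ∀ x ∈ X, x ∈ l)
    (hX' : ∀ β ∈ l, β ∉ X → ∃ b ∈ k, ψ b = β ∧ e b ≠ 0 ∧ Cor k l Θ s s' (e b) b (ψ b))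
    {b : K} (hb : b ∈ k) (hψ : ψ b ∈ l) [DecidableEq L] :
    Θ (cl ℓ (s - b)) = ∑ x ∈ insert (ψ b) X,
      del ℓ l s' x (Θ (cl ℓ (s - b))) • cl ℓ (s' - x) := by
  have hmem : Θ (cl ℓ (s - b)) ∈ VS ℓ (adj l s') :=
    (hR.map _).2 (cl_mem_VS (sub_mem (mem_adj k s) (le_adj k s hb)))
  refine del_sum hl hR.good' hmem _ ?_ ?_
  · intro x hx
    rcases Finset.mem_insert.1 hx with rfl | hx
    · exact hψ
    · exact hX x hx
  · intro x hx hxS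
    rw [Finset.mem_insert, not_or] at hxS
    obtain ⟨b₁, hb₁, h1, h2, h3⟩ := hX' x hx hxS.2
    rw [h1] at h3
    refine Cor.relb_theta_ne hk hR h2 hb₁ hb ?_ h3
    rintro rfl
    exact hxS.1 h1.symm

end relb_psi

section relb_poly

set_option linter.unusedSectionVars false

variable {L : Type*} [Field L] [CharZero L] {ℓ : ℕ} [Fact ℓ.Prime] {l : Subfield L}

open Classical in
/-- the polynomial `P - x Q`. -/
noncomputable def relbF (P Q : l[X]) (x : L) : l[X] :=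
  P - C (if h : x ∈ l then ⟨x, h⟩ else 0) * Q

theorem relbF_of_mem (P Q : l[X]) {x : L} (hx : x ∈ l) :
    relbF P Q x = P - C (⟨x, hx⟩ : l) * Q := by
  unfold relbF
  rw [dif_pos hx]

theorem relbF_aeval (P Q : l[X]) {x : L} (hx : x ∈ l) (s : L) :
    aeval s (relbF P Q x) = aeval s P - x * aeval s Q := by
  rw [relbF_of_mem P Q hx, map_sub, map_mul, aeval_C]
  rfl

variable (hl : IsAlgClosed l) {s' z' R : L} (hs' : s' ∉ l) (hz' : z' ∉ l)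
  {W : ValuationSubring L} (hWs : TrivOn W (adj l s')) (hWz : TrivOn W (adj l z'))
  {P Q : l[X]} (hQ : Q ≠ 0) (hR : R = aeval s' P / aeval s' Q) (hW : W.valuation (z' - R) < 1)

include hWz hz' hW in
theorem relb_ne {x : L} (hx : x ∈ l) : R ≠ x := by
  rintro rfl
  have h1 : z' - R ∈ adj l z' := sub_mem (mem_adj l z') (le_adj l z' hx)
  have h2 := hWz.eq_zero h1 hW
  rw [sub_eq_zero] at h2
  rw [h2] at hz'
  exact hz' hx

include hl hs' hWz hz' hQ hR hW in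
theorem relbF_ne {x : L} (hx : x ∈ l) : relbF P Q x ≠ 0 := by
  intro h
  have h1 := relbF_aeval P Q hx s'
  rw [h, map_zero] at h1
  have h2 : aeval s' Q ≠ 0 := line_aeval_ne hl hs' hQ
  apply relb_ne hz' hWz hW hx
  rw [hR, div_eq_iff h2]
  exact (sub_eq_zero.1 h1.symm)

include hl hs' hWz hz' hQ hR hW in
theorem relb_U1 {x : L} (hx : x ∈ l) :
    cl ℓ (z' - x) - (cl ℓ (aeval s' (relbF P Q x)) - cl ℓ (aeval s' Q)) ∈ U1 ℓ W := by
  have h2 : aeval s' Q ≠ 0 := line_aeval_ne hl hs' hQ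
  have h3 : aeval s' (relbF P Q x) ≠ 0 :=
    line_aeval_ne hl hs' (relbF_ne hl hs' hz' hWz hQ hR hW hx)
  have h4 : R - x = aeval s' (relbF P Q x) / aeval s' Q := by
    rw [relbF_aeval P Q hx, hR]
    field_simp
  have h5 : z' - x ≠ 0 := by
    intro h
    rw [sub_eq_zero] at h
    rw [h] at hz'
    exact hz' hx
  have h6 : W.valuation (z' - x) = 1 :=
    hWz.eq_one (sub_mem (mem_adj l z') (le_adj l z' hx)) h5
  rw [← cl_div ℓ h3 h2, ← h4, ← neg_mem_iff, neg_sub]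
  refine cl_sub_cl_mem_U1 h6 ?_
  have : R - x - (z' - x) = -(z' - R) := by ring
  rw [this, Valuation.map_neg]
  exact hW

include hl hs' hWz hz' hQ hR hW in
/-- the congruence for sums. -/
theorem relb_sum_U1 (S : Finset L) (hS : ∀ x ∈ S, x ∈ l) (n : L → ZMod ℓ) :
    ∑ x ∈ S, n x • cl ℓ (z' - x) -
      ∑ x ∈ S, n x • (cl ℓ (aeval s' (relbF P Q x)) - cl ℓ (aeval s' Q)) ∈ U1 ℓ W := by
  rw [← Finset.sum_sub_distrib]
  refine sum_mem fun x hx => ?_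
  rw [← smul_sub]
  exact Submodule.smul_mem _ _ (relb_U1 hl hs' hz' hWz hQ hR hW (hS x hx))

theorem relb_sum_VS (S : Finset L) (n : L → ZMod ℓ) (P Q : l[X]) (s' : L) :
    ∑ x ∈ S, n x • (cl ℓ (aeval s' (relbF P Q x)) - cl ℓ (aeval s' Q)) ∈ VS ℓ (adj l s') :=
  sum_mem fun _ _ => Submodule.smul_mem _ _ (sub_mem (cl_mem_VS (relb_aeval_mem s' _))
    (cl_mem_VS (relb_aeval_mem s' _)))

include hl hs' hWz hz' hQ hR hW in
/-- value of the functionals. -/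
theorem relb_del (hg : Good l s') {β : L} (hβ : β ∈ l) {x : L} (hx : x ∈ l) :
    del ℓ l s' β (cl ℓ (aeval s' (relbF P Q x)) - cl ℓ (aeval s' Q)) =
      ((relbF P Q x).rootMultiplicity ⟨β, hβ⟩ : ZMod ℓ) -
        (Q.rootMultiplicity ⟨β, hβ⟩ : ZMod ℓ) := by
  rw [map_sub]
  have h1 := del_aeval (ℓ := ℓ) hl hg (b := ⟨β, hβ⟩)
    (relbF_ne hl hs' hz' hWz hQ hR hW hx)
  have h2 := del_aeval (ℓ := ℓ) hl hg (b := ⟨β, hβ⟩) hQ
  rw [← h1, ← h2]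

/-- almost all points are not roots of a given polynomial. -/
theorem relb_root_ae {F : l[X]} (hF : F ≠ 0) :
    ∀ᶠ β in ae l, ∀ h : β ∈ l, F.rootMultiplicity ⟨β, h⟩ = 0 ∧ F.eval ⟨β, h⟩ ≠ 0 := by
  classical
  rw [ae_iff]
  refine ((F.roots.toFinset.finite_toSet).image (Subtype.val : l → L)).subset ?_
  rintro β ⟨hβ, h⟩
  refine ⟨⟨β, hβ⟩, ?_, rfl⟩
  rw [Finset.mem_coe, Multiset.mem_toFinset, mem_roots hF]
  by_contra hcon
  apply h
  intro _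
  exact ⟨rootMultiplicity_eq_zero hcon, hcon⟩

end relb_poly

section relb_main

set_option linter.unusedSectionVars false

variable {K L : Type*} [Field K] [Field L] [CharZero K] [CharZero L] {ℓ : ℕ} [Fact ℓ.Prime]
  {k : Subfield K} {l : Subfield L} {Θ : V ℓ K ≃ₗ[ZMod ℓ] V ℓ L}

/-- one generic point. -/
theorem relb_point (hk : IsAlgClosed k) (hl : IsAlgClosed l) {s z : K} {s' z' : L}
    (hs : Rt k l Θ s s') (hz : Rt k l Θ z z') {ψz : K → L} {ez : K → ZMod ℓ}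
    {W : ValuationSubring L} (hWs : TrivOn W (adj l s')) (hWz : TrivOn W (adj l z'))
    {P Q : l[X]} {R : L} (hQ : Q ≠ 0) (hR : R = aeval s' P / aeval s' Q)
    (hW : W.valuation (z' - R) < 1) {Xz : Finset L} (hXz : ∀ x ∈ Xz, x ∈ l)
    (hXz' : ∀ β ∈ l, β ∉ Xz → ∃ b ∈ k, ψz b = β ∧ ez b ≠ 0 ∧ Cor k l Θ z z' (ez b) b (ψz b))
    {b c : K} (hb : b ∈ k) (hc : c ∈ k)
    (hU : Θ (cl ℓ (s - b)) - Θ (cl ℓ (z - c)) ∈ U1 ℓ W)
    {e : ZMod ℓ} (he : e ≠ 0) {β : L} (hβ : β ∈ l) (hcor : Cor k l Θ s s' e b β)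
    (hβ' : ψz c ∈ l) (hcor' : Cor k l Θ z z' (ez c) c (ψz c))
    (h1 : ∀ y ∈ (U1 ℓ W ⊓ VS ℓ (adj l s') : Submodule (ZMod ℓ) (V ℓ L)), del ℓ l s' β y = 0)
    (h2 : Q.rootMultiplicity ⟨β, hβ⟩ = 0)
    (h3 : ∀ x ∈ Xz, (relbF P Q x).rootMultiplicity ⟨β, hβ⟩ = 0) :
    e⁻¹ = (ez c)⁻¹ * ((relbF P Q (ψz c)).rootMultiplicity ⟨β, hβ⟩ : ZMod ℓ) := by
  classical
  have hs'l : s' ∉ l := hs.good'.1
  have hz'l : z' ∉ l := hz.good'.1
  set n : L → ZMod ℓ := fun x => del ℓ l z' x (Θ (cl ℓ (z - c))) with hn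
  have hw : Θ (cl ℓ (z - c)) = ∑ x ∈ insert (ψz c) Xz, n x • cl ℓ (z' - x) :=
    Psi.relb_sum hk hl hz hXz hXz' hc hβ'
  have hSl : ∀ x ∈ insert (ψz c) Xz, x ∈ l := by
    intro x hx
    rcases Finset.mem_insert.1 hx with rfl | hx
    · exact hβ'
    · exact hXz x hx
  have h4 := relb_sum_U1 (ℓ := ℓ) hl hs'l hz'l hWz hQ hR hW _ hSl n
  rw [← hw] at h4
  have h5 := add_mem hU h4
  rw [sub_add_sub_cancel] at h5
  have h6 : Θ (cl ℓ (s - b)) - ∑ x ∈ insert (ψz c) Xz,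
      n x • (cl ℓ (aeval s' (relbF P Q x)) - cl ℓ (aeval s' Q)) ∈ VS ℓ (adj l s') :=
    sub_mem ((hs.map _).2 (cl_mem_VS (sub_mem (mem_adj k s) (le_adj k s hb))))
      (relb_sum_VS _ n P Q s')
  have h7 := h1 _ ⟨h5, h6⟩
  rw [map_sub, Cor.relb_theta hk hs hb hcor, map_sum, sub_eq_zero] at h7
  rw [h7, Finset.sum_eq_single (ψz c)]
  · rw [map_smul, relb_del hl hs'l hz'l hWz hQ hR hW hs.good' hβ hβ', h2, Nat.cast_zero,
      sub_zero, smul_eq_mul]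
    congr 1
    exact Cor.relb_theta hk hz hc hcor'
  · intro x hx hxc
    have hxX : x ∈ Xz := (Finset.mem_insert.1 hx).resolve_left hxc
    rw [map_smul, relb_del hl hs'l hz'l hWz hQ hR hW hs.good' hβ (hXz x hxX), h2, h3 x hxX]
    simp
  · intro h
    exact absurd (Finset.mem_insert_self _ _) h

theorem Hyp.relb_at (H : Hyp ℓ k l Θ) {s z : K} {s' z' : L} (hs : Rt k l Θ s s')
    (hz : Rt k l Θ z z') {ψs ψz : K → L} {es ez : K → ZMod ℓ} (ps : Psi k l Θ s s' ψs es)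
    (pz : Psi k l Θ z z' ψz ez) {μ : K → K} (hμ : ∀ b ∈ k, μ b ∈ k)
    (hμi : ∀ b ∈ k, ∀ b' ∈ k, μ b = μ b' → b = b') {G' : Subfield L} (hlG : l ≤ G')
    (hfg : FG l G') (hss : ¬ IsAlgebraic G' s') {W : ValuationSubring L} {π θ : L}
    (hW : Nice W (adj G' s') π θ) (hWz : TrivOn W (adj l z'))
    (hV : VS ℓ (adj l z') ≤ VS ℓ (adj l s') ⊔ U1 ℓ W)
    (hU : ∀ b ∈ k, Θ (cl ℓ (s - b)) - Θ (cl ℓ (z - μ b)) ∈ U1 ℓ W) :
    ∃ A ∈ l, ∃ B ∈ l, ∃ C ∈ l, ∃ D ∈ l, A * D - B * C ≠ 0 ∧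
      (∀ᶠ b in ae k, ψz (μ b) * (C * ψs b + D) = A * ψs b + B ∧ ez (μ b) = es b) ∧
      W.valuation (z' * (C * s' + D) - (A * s' + B)) < 1 := by
  classical
  have hk := H.ack
  have hl := H.acl
  have hs'l : s' ∉ l := hs.good'.1
  have hz'l : z' ∉ l := hz.good'.1
  have hWs : TrivOn W (adj l s') := hW.triv.mono (adj_mono hlG s')
  obtain ⟨R, hRmem, hWR⟩ := core hl hlG hfg hss hW (le_adj l z') hWz hV z' (mem_adj l z')
  obtain ⟨P, Q, hcop, hQ0, hR⟩ := relb_coprime hl hs'l hRmem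
  -- the exceptional points
  set Xz : Finset L := (ae_iff.1 pz.surj).toFinset with hXzd
  have hXz : ∀ x ∈ Xz, x ∈ l := fun x hx => ((Set.Finite.mem_toFinset _).1 hx).1
  have hXz' : ∀ β ∈ l, β ∉ Xz →
      ∃ b ∈ k, ψz b = β ∧ ez b ≠ 0 ∧ Cor k l Θ z z' (ez b) b (ψz b) := by
    intro β hβ h
    by_contra hcon
    exact h ((Set.Finite.mem_toFinset _).2 ⟨hβ, hcon⟩)
  have hfin : ((U1 ℓ W ⊓ VS ℓ (adj l s') : Submodule (ZMod ℓ) (V ℓ L)) : Set (V ℓ L)).Finite :=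
    hW.finite hl (hlG.trans (le_adj G' s')) (hfg.adj s') (le_adj l s') hWs
  have c1 : ∀ᶠ β in ae l, ∀ y ∈ ((U1 ℓ W ⊓ VS ℓ (adj l s') : Submodule (ZMod ℓ) (V ℓ L)) :
      Set (V ℓ L)), del ℓ l s' β y = 0 :=
    (eventually_all_finite hfin).2 fun y hy => del_ae hl hs.good' hy.2
  have c2 := relb_root_ae hQ0
  have c3 : ∀ᶠ β in ae l, ∀ x ∈ Xz, ∀ h : β ∈ l,
      (relbF P Q x).rootMultiplicity ⟨β, h⟩ = 0 ∧ (relbF P Q x).eval ⟨β, h⟩ ≠ 0 :=
    (eventually_all_finset Xz).2 fun x hx =>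
      relb_root_ae (relbF_ne hl hs'l hz'l hWz hQ0 hR hWR (hXz x hx))
  have hnc : P.natDegree ≠ 0 ∨ Q.natDegree ≠ 0 := by
    by_contra hcon
    push Not at hcon
    have h1 : R ∈ l := by
      rw [hR, eq_C_of_natDegree_eq_zero hcon.1, eq_C_of_natDegree_eq_zero hcon.2, aeval_C,
        aeval_C]
      exact div_mem (P.coeff 0).2 (Q.coeff 0).2
    exact relb_ne hz'l hWz hWR h1 rfl
  have c4 : ∀ᶠ β' in ae l, ∀ h : β' ∈ l, ∀ x : l, (relbF P Q β').eval x = 0 →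
      (relbF P Q β').rootMultiplicity x = 1 := by
    rw [ae_iff]
    refine ((rootMultiplicity_fibre P Q hcop hnc).image (Subtype.val : l → L)).subset ?_
    rintro β' ⟨hβ', h⟩
    refine ⟨⟨β', hβ'⟩, ?_, rfl⟩
    by_contra hcon
    apply h
    intro _ x hx
    rw [relbF_of_mem P Q hβ'] at hx ⊢
    by_contra hm
    exact hcon ⟨x, hx, hm⟩
  have c5 : ∀ᶠ b in ae k, (ψz (μ b) ∈ l ∧ ez (μ b) ≠ 0 ∧
      Cor k l Θ z z' (ez (μ b)) (μ b) (ψz (μ b))) ∧ ∀ h : ψz (μ b) ∈ l, ∀ x : l,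
      (relbF P Q (ψz (μ b))).eval x = 0 → (relbF P Q (ψz (μ b))).rootMultiplicity x = 1 :=
    relb_comap (l := k) (f := μ) (G := fun _ => True) (Eventually.of_forall fun _ => trivial)
      (fun a ha _ => hμ a ha) (fun a ha _ b hb _ h => hμi a ha b hb h)
      (pz.cor.and (Psi.relb_pull hk hl hz pz c4))
  -- the generic points
  have key : ∀ᶠ b in ae k, b ∈ k ∧ (es b ≠ 0 ∧ Cor k l Θ s s' (es b) b (ψs b)) ∧
      (ez (μ b) ≠ 0 ∧ Cor k l Θ z z' (ez (μ b)) (μ b) (ψz (μ b))) ∧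
      ∃ (h : ψs b ∈ l) (h' : ψz (μ b) ∈ l), P.eval ⟨ψs b, h⟩ =
        ⟨ψz (μ b), h'⟩ * Q.eval ⟨ψs b, h⟩ ∧ Q.eval ⟨ψs b, h⟩ ≠ 0 ∧ ez (μ b) = es b := by
    filter_upwards [ae_mem k, ps.cor, Psi.relb_pull hk hl hs ps (c1.and (c2.and c3)), c5]
      with b hb hcor hgen hz5
    obtain ⟨hβ, hes, hcs⟩ := hcor
    obtain ⟨g1, g2, g3⟩ := hgen
    obtain ⟨⟨hβ', hez, hcz⟩, g4⟩ := hz5
    refine ⟨hb, ⟨hes, hcs⟩, ⟨hez, hcz⟩, hβ, hβ', ?_⟩
    have h1 := relb_point hk hl hs hz hWs hWz hQ0 hR hWR hXz hXz' hb (hμ b hb) (hU b hb) hes hβ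
      hcs hβ' hcz g1 (g2 hβ).1 (fun x hx => (g3 x hx hβ).1)
    have h2 : (relbF P Q (ψz (μ b))).rootMultiplicity ⟨ψs b, hβ⟩ ≠ 0 := by
      intro h
      rw [h, Nat.cast_zero, mul_zero] at h1
      exact inv_ne_zero hes h1
    have h3 : (relbF P Q (ψz (μ b))).eval ⟨ψs b, hβ⟩ = 0 := by
      have h4 := (rootMultiplicity_pos (relbF_ne hl hs'l hz'l hWz hQ0 hR hWR hβ')).1
        (Nat.pos_of_ne_zero h2)
      exact h4
    rw [g4 hβ' _ h3, Nat.cast_one, mul_one] at h1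
    refine ⟨?_, (g2 hβ).2, (inv_injective h1).symm⟩
    rw [relbF_of_mem P Q hβ', eval_sub, eval_mul, eval_C, sub_eq_zero] at h3
    exact h3
  -- the set of generic points is cofinite
  set S : Set l := {x | ∃ b ∈ k, (es b ≠ 0 ∧ Cor k l Θ s s' (es b) b (ψs b)) ∧
      (ez (μ b) ≠ 0 ∧ Cor k l Θ z z' (ez (μ b)) (μ b) (ψz (μ b))) ∧ ψs b = x ∧
      ∃ (h : ψs b ∈ l) (h' : ψz (μ b) ∈ l), P.eval ⟨ψs b, h⟩ =
        ⟨ψz (μ b), h'⟩ * Q.eval ⟨ψs b, h⟩ ∧ Q.eval ⟨ψs b, h⟩ ≠ 0} with hSd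
  have hSfin : Sᶜ.Finite := by
    have f1 := ae_iff.1 ps.surj
    have f2 := ae_iff.1 key
    refine Set.Finite.of_finite_image (f := (Subtype.val : l → L))
      ((f1.union (f2.image ψs)).subset ?_) Subtype.val_injective.injOn
    rintro _ ⟨x, hx, rfl⟩
    by_contra hcon
    rw [Set.mem_union, not_or] at hcon
    obtain ⟨n1, n2⟩ := hcon
    have n3 : ∃ b ∈ k, ψs b = x ∧ es b ≠ 0 ∧ Cor k l Θ s s' (es b) b (ψs b) := by
      by_contra h
      exact n1 ⟨x.2, h⟩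
    obtain ⟨b, hb, hbx, -, -⟩ := n3
    have n4 : b ∈ k ∧ (es b ≠ 0 ∧ Cor k l Θ s s' (es b) b (ψs b)) ∧
      (ez (μ b) ≠ 0 ∧ Cor k l Θ z z' (ez (μ b)) (μ b) (ψz (μ b))) ∧
      ∃ (h : ψs b ∈ l) (h' : ψz (μ b) ∈ l), P.eval ⟨ψs b, h⟩ =
        ⟨ψz (μ b), h'⟩ * Q.eval ⟨ψs b, h⟩ ∧ Q.eval ⟨ψs b, h⟩ ≠ 0 ∧ ez (μ b) = es b := by
      by_contra h
      exact n2 ⟨b, ⟨hb, h⟩, hbx⟩
    obtain ⟨-, m1, m2, h, h', m3, m4, -⟩ := n4
    exact hx ⟨b, hb, m1, m2, hbx, h, h', m3, m4⟩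
  have hinj : ∀ x ∈ S, ∀ y ∈ S, P.eval x * Q.eval y = P.eval y * Q.eval x → x = y := by
    rintro x ⟨b, hb, u1, u2, hbx, h, h', u3, u4⟩ y ⟨b', hb', v1, v2, hby, i, i', v3, v4⟩ hxy
    have hx : x = ⟨ψs b, h⟩ := Subtype.ext hbx.symm
    have hy : y = ⟨ψs b', i⟩ := Subtype.ext hby.symm
    rw [hx, hy, u3, v3] at hxy
    have w1 : (⟨ψz (μ b), h'⟩ : l) = ⟨ψz (μ b'), i'⟩ := by
      have w2 : (⟨ψz (μ b), h'⟩ : l) * (Q.eval ⟨ψs b, h⟩ * Q.eval ⟨ψs b', i⟩) =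
          ⟨ψz (μ b'), i'⟩ * (Q.eval ⟨ψs b, h⟩ * Q.eval ⟨ψs b', i⟩) := by
        linear_combination hxy
      exact mul_right_cancel₀ (mul_ne_zero u4 v4) w2
    have w3 : ψz (μ b) = ψz (μ b') := congrArg Subtype.val w1
    have w4 : μ b = μ b' := by
      refine Cor.inj hk hl hz u2.1 v2.1 (hμ b hb) (hμ b' hb') h' u2.2 ?_
      rw [w3]
      exact v2.2
    rw [hx, hy]
    rw [Subtype.mk.injEq, hμi b hb b' hb' w4]
  have : IsAlgClosed l := hl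
  obtain ⟨A, B, C', D, hdet, hP, hQ⟩ := mob_of_inj P Q hcop S hSfin hinj
  have eP : ∀ x : L, ∀ hx : x ∈ l, ((P.eval ⟨x, hx⟩ : l) : L) = A * x + B := by
    intro x hx
    rw [hP]
    simp
  have eQ : ∀ x : L, ∀ hx : x ∈ l, ((Q.eval ⟨x, hx⟩ : l) : L) = C' * x + D := by
    intro x hx
    rw [hQ]
    simp
  have aP : aeval s' P = A * s' + B := by
    rw [hP, map_add, map_mul, aeval_C, aeval_C, aeval_X]
    rfl
  have aQ : aeval s' Q = C' * s' + D := by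
    rw [hQ, map_add, map_mul, aeval_C, aeval_C, aeval_X]
    rfl
  refine ⟨A, A.2, B, B.2, C', C'.2, D, D.2, ?_, ?_, ?_⟩
  · intro h
    apply hdet
    apply Subtype.ext
    exact h
  · filter_upwards [key] with b hb
    obtain ⟨-, -, -, h, h', m3, -, m5⟩ := hb
    refine ⟨?_, m5⟩
    have m6 := congrArg (Subtype.val : l → L) m3
    rw [eP] at m6
    rw [m6]
    change _ = (ψz (μ b)) * ((Q.eval ⟨ψs b, h⟩ : l) : L)
    rw [eQ]
  · have hQs : aeval s' Q ≠ 0 := line_aeval_ne hl hs'l hQ0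
    have h1 : z' * (C' * s' + D) - (A * s' + B) = aeval s' Q * (z' - R) := by
      rw [← aP, ← aQ, hR]
      field_simp
    rw [h1, map_mul, hWs.eq_one (relb_aeval_mem s' Q) hQs, one_mul]
    exact hWR

end relb_main

variable {K L : Type*} [Field K] [Field L] [CharZero K] [CharZero L] {ℓ : ℕ} [Fact ℓ.Prime]
  {k : Subfield K} {l : Subfield L} {Θ : V ℓ K ≃ₗ[ZMod ℓ] V ℓ L}

/-- the Moebius relation on the fibres. -/
theorem Hyp.rel (H : Hyp ℓ k l Θ) {t s z : K} {t' s' z' : L}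
    (hts : ¬ IsAlgebraic (adj k s) t) (ht : Rt k l Θ t t') (hs : Rt k l Θ s s')
    (hz : Rt k l Θ z z') {m : K → K → K} (hm : Shift ℓ k t s z m) {ψt ψs ψz : K → L}
    {et es ez : K → ZMod ℓ} (pt : Psi k l Θ t t' ψt et) (ps : Psi k l Θ s s' ψs es)
    (pz : Psi k l Θ z z' ψz ez) :
    ∃ G' : Subfield L, Frame l G' t' s' ∧ ∀ᶠ a in ae k,
      ∃ A ∈ l, ∃ B ∈ l, ∃ C ∈ l, ∃ D ∈ l, A * D - B * C ≠ 0 ∧
        (∀ᶠ b in ae k, ψz (m a b) * (C * ψs b + D) = A * ψs b + B ∧ ez (m a b) = es b) ∧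
        ∃ W : ValuationSubring L, Over W (adj G' s') t' (ψt a) ∧
          W.valuation (z' * (C * s' + D) - (A * s' + B)) < 1 := by
  have hk := H.ack
  have hl := H.acl
  have hRl : RAC l := RAC_of_isAlgClosed l hl
  have hs'l : s' ∉ l := hs.good'.1
  have ht'l : t' ∉ l := ht.good'.1
  -- `t'` and `s'` are independent
  have ht's' : ¬ IsAlgebraic (adj l s') t' := by
    intro h
    have h1 : t' ∈ adj l s' := hs.good'.2 t' h
    have h2 : adj l t' = adj l s' :=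
      Crv.eq hRl (Crv.of_good ht.good') (Crv.of_good hs.good') (mem_adj l t') h1 ht'l
    exact H.crv_ne hs.good.1 hts ht.map hs.map h2
  obtain ⟨G', hfr⟩ := exists_frame H.fgl (fun h => hs'l (hRl _ h)) ht's'
  refine ⟨G', hfr, ?_⟩
  obtain ⟨θ, hθ⟩ := hfr.nice H.fgl
  have hlF : l ≤ adj G' s' := hfr.le.trans (le_adj G' s')
  have hθ' := (ae_mono hlF) hθ
  filter_upwards [ae_mem k, pt.cor, Psi.relb_pull hk hl ht pt hθ', hm.ev] with a ha hcor hnice hev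
  obtain ⟨hα, he, hc⟩ := hcor
  obtain ⟨hinj, hsurj, hO⟩ := hev
  obtain ⟨W, hWo⟩ := exists_over hfr.tt (hlF hα)
  have hW : Nice W (adj G' s') (t' - ψt a) θ := hnice W hWo
  have hfgF : FG l (adj G' s') := hfr.fg.adj s'
  have hWs : TrivOn W (adj l s') := hW.triv.mono (adj_mono hfr.le s')
  have hWl : TrivOn W l := hW.triv.mono hlF
  obtain ⟨O, hOk, hT⟩ := H.symm.exists_tr hlF hfgF hW hs.good' hWs
  have hys : ∀ v ∈ VS ℓ (adj l s'), Θ.symm v ∈ VS ℓ (adj k s) := by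
    intro v hv
    refine (hs.map _).1 ?_
    rwa [LinearEquiv.apply_symm_apply]
  have hOs : TrivOn O (adj k s) :=
    H.symm.triv_crv hlF hfgF hW hOk hT hs'l hWs (Crv.of_good hs.good) hys
  have hcen : O.valuation (t - a) < 1 := H.centre ht ha hα he hc hWl hW.unif hOk hT
  have hU := hO O hOs hcen
  have hUL : ∀ b ∈ k, Θ (cl ℓ (s - b)) - Θ (cl ℓ (z - m a b)) ∈ U1 ℓ W := by
    intro b hb
    rw [← map_sub]
    refine (hT.iff _).1 ?_
    rw [LinearEquiv.symm_apply_apply]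
    exact hU b hb
  have hV1 : VS ℓ (adj k s) ≤ VS ℓ (adj k z) ⊔ U1 ℓ O :=
    VS_le_of_shift hk hs.good.1 (m a) (fun b hb => hm.mem a ha b hb) hU
  have hV2 : VS ℓ (adj k z) ≤ VS ℓ (adj k s) ⊔ U1 ℓ O := by
    have h1 : ∀ c : K, ∃ b : K, c ∈ k → b ∈ k ∧ m a b = c := by
      intro c
      by_cases hc : c ∈ k
      · obtain ⟨b, hb, h⟩ := hsurj c hc
        exact ⟨b, fun _ => ⟨hb, h⟩⟩
      · exact ⟨0, fun h => absurd h hc⟩
    choose m' hm' using h1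
    refine VS_le_of_shift hk hz.good.1 m' (fun c hc => (hm' c hc).1) ?_
    intro c hc
    have h2 := hU (m' c) (hm' c hc).1
    rw [(hm' c hc).2] at h2
    rw [← neg_mem_iff, neg_sub]
    exact h2
  obtain ⟨hWz, hV⟩ := H.symm.rat_of hfr.le hfr.fg hW hT hs.good.1 hV2 hV1
    (fun v hv => (hs.map v).2 hv) (Crv.of_good hz.good') hz.map
  obtain ⟨A, hA, B, hB, C', hC, D, hD, hdet, hgen, hval⟩ := H.relb_at hs hz ps pz
    (μ := m a) (fun b hb => hm.mem a ha b hb) hinj hfr.le hfr.fg hfr.ss hW hWz hV hUL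
  exact ⟨A, hA, B, hB, C', hC, D, hD, hdet, hgen, W, hWo, hval⟩

end Vale.Agent.P019
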