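import Vale.Agent.P019.DefB

/-!
# Residue fields of valuation subrings and images of trivially valued subfields
-/

namespace Vale.Agent.P019

open Polynomial Filter

variable {K : Type*} [Field K]

open Classical in
/-- residue of an element (zero for non-integral elements). -/
noncomputable def rs (W : ValuationSubring K) (z : K) : IsLocalRing.ResidueField W :=
  if h : z ∈ W then IsLocalRing.residue W ⟨z, h⟩ else 0

section

variable {W : ValuationSubring K}

theorem rs_of_mem {z : K} (h : z ∈ W) : rs W z = IsLocalRing.residue W ⟨z, h⟩ := by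
  simp [rs, h]

theorem rs_add {x y : K} (hx : x ∈ W) (hy : y ∈ W) : rs W (x + y) = rs W x + rs W y := by
  rw [rs_of_mem hx, rs_of_mem hy, rs_of_mem (add_mem hx hy), ← map_add]
  rfl

theorem rs_mul {x y : K} (hx : x ∈ W) (hy : y ∈ W) : rs W (x * y) = rs W x * rs W y := by
  rw [rs_of_mem hx, rs_of_mem hy, rs_of_mem (mul_mem hx hy), ← map_mul]
  rfl

theorem rs_neg {x : K} (hx : x ∈ W) : rs W (-x) = -rs W x := by
  rw [rs_of_mem hx, rs_of_mem (neg_mem hx), ← map_neg]
  rfl

theorem rs_sub {x y : K} (hx : x ∈ W) (hy : y ∈ W) : rs W (x - y) = rs W x - rs W y := by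
  rw [rs_of_mem hx, rs_of_mem hy, rs_of_mem (sub_mem hx hy), ← map_sub]
  rfl

theorem rs_one : rs W (1 : K) = 1 := by
  rw [rs_of_mem (one_mem W)]
  exact map_one _

theorem rs_zero : rs W (0 : K) = 0 := by
  rw [rs_of_mem (zero_mem W)]
  exact map_zero _

theorem rs_pow {x : K} (hx : x ∈ W) (n : ℕ) : rs W (x ^ n) = rs W x ^ n := by
  induction n with
  | zero => rw [pow_zero, pow_zero, rs_one]
  | succ n ih => rw [pow_succ, pow_succ, rs_mul (pow_mem hx n) hx, ih]

theorem rs_eq_zero {x : K} (hx : x ∈ W) : rs W x = 0 ↔ W.valuation x < 1 := by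
  rw [rs_of_mem hx, IsLocalRing.residue_eq_zero_iff, ValuationSubring.valuation_lt_one_iff]

theorem rs_eq {x y : K} (hx : x ∈ W) (hy : y ∈ W) :
    rs W x = rs W y ↔ W.valuation (x - y) < 1 := by
  rw [← sub_eq_zero, ← rs_sub hx hy, rs_eq_zero (sub_mem hx hy)]

theorem rs_ne_zero {x : K} (hx : x ∈ W) : rs W x ≠ 0 ↔ W.valuation x = 1 := by
  rw [Ne, rs_eq_zero hx]
  have h := (W.valuation_le_one_iff x).2 hx
  constructor
  · intro h'; exact le_antisymm h (not_lt.1 h')
  · intro h' h''; rw [h'] at h''; exact lt_irrefl _ h''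

theorem rs_surj (c : IsLocalRing.ResidueField W) : ∃ z ∈ W, rs W z = c := by
  obtain ⟨z, hz⟩ := IsLocalRing.residue_surjective c
  refine ⟨z, z.2, ?_⟩
  rw [rs_of_mem z.2, ← hz]

theorem mem_of_val {z : K} (h : W.valuation z = 1) : z ∈ W :=
  (W.valuation_le_one_iff z).1 h.le

theorem rs_inv {z : K} (h : W.valuation z = 1) : rs W z⁻¹ = (rs W z)⁻¹ := by
  have h' : W.valuation z⁻¹ = 1 := by rw [map_inv₀, h, inv_one]
  have hz0 : z ≠ 0 := by rintro rfl; rw [map_zero] at h; exact zero_ne_one h
  apply eq_inv_of_mul_eq_one_left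
  rw [← rs_mul (mem_of_val h') (mem_of_val h), inv_mul_cancel₀ hz0, rs_one]

end

section bar

variable {W : ValuationSubring K} {E : Subfield K}

/-- the residue map on a trivially valued subfield. -/
noncomputable def barHom (h : TrivOn W E) : E →+* IsLocalRing.ResidueField W where
  toFun e := rs W e
  map_one' := rs_one
  map_zero' := rs_zero
  map_add' x y := rs_add (h _ x.2) (h _ y.2)
  map_mul' x y := rs_mul (h _ x.2) (h _ y.2)

/-- the image of a trivially valued subfield in the residue field. -/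
noncomputable def bar (h : TrivOn W E) : Subfield (IsLocalRing.ResidueField W) :=
  (barHom h).fieldRange

theorem mem_bar (h : TrivOn W E) {c : IsLocalRing.ResidueField W} :
    c ∈ bar h ↔ ∃ e ∈ E, rs W e = c := by
  constructor
  · rintro ⟨e, rfl⟩; exact ⟨e, e.2, rfl⟩
  · rintro ⟨e, he, rfl⟩; exact ⟨⟨e, he⟩, rfl⟩

theorem rs_mem_bar (h : TrivOn W E) {e : K} (he : e ∈ E) : rs W e ∈ bar h :=
  (mem_bar h).2 ⟨e, he, rfl⟩

theorem rs_injOn (h : TrivOn W E) {e e' : K} (he : e ∈ E) (he' : e' ∈ E)
    (heq : rs W e = rs W e') : e = e' := by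
  rw [rs_eq (h _ he) (h _ he')] at heq
  exact sub_eq_zero.1 (h.eq_zero (E.sub_mem he he') heq)

/-- the residue map on a trivially valued subfield as an isomorphism onto its image. -/
noncomputable def barEquiv (h : TrivOn W E) : E ≃+* bar h :=
  RingEquiv.ofBijective (barHom h).rangeRestrictField
    ⟨(barHom h).rangeRestrictField.injective, by
      rintro ⟨c, e, he⟩
      exact ⟨e, Subtype.ext he⟩⟩

theorem barEquiv_coe (h : TrivOn W E) (e : E) :
    ((barEquiv h e : bar h) : IsLocalRing.ResidueField W) = rs W e := rfl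

theorem bar_mono {E' : Subfield K} (h : TrivOn W E) (h' : TrivOn W E') (hE : E ≤ E') :
    bar h ≤ bar h' := by
  intro c hc
  obtain ⟨e, he, rfl⟩ := (mem_bar h).1 hc
  exact rs_mem_bar h' (hE he)

theorem bar_isAlgClosed (h : TrivOn W E) (hE : IsAlgClosed E) : IsAlgClosed (bar h) :=
  IsAlgClosed.of_ringEquiv _ _ (barEquiv h)

theorem bar_adj (h : TrivOn W E) {x : K} (hx : TrivOn W (adj E x)) :
    bar hx = adj (bar h) (rs W x) := by
  apply le_antisymm
  · have key : ∀ e ∈ adj E x, rs W e ∈ adj (bar h) (rs W x) := by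
      intro e he
      have h1 : adj E x ≤ ((adj (bar h) (rs W x)).comap (barHom hx)).map
          (adj E x).subtype := by
        refine adj_le ?_ ?_
        · intro c hc
          exact ⟨⟨c, le_adj E x hc⟩, le_adj _ _ (rs_mem_bar h hc), rfl⟩
        · exact ⟨⟨x, mem_adj E x⟩, mem_adj _ _, rfl⟩
      obtain ⟨⟨c, hc⟩, hc', rfl⟩ := h1 he
      exact hc'
    intro c hc
    obtain ⟨e, he, rfl⟩ := (mem_bar hx).1 hc
    exact key e he
  · refine adj_le (bar_mono h hx (le_adj E x)) (rs_mem_bar hx (mem_adj E x))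

/-- reduction of a polynomial with coefficients in a trivially valued subfield. -/
theorem rs_aeval (h : TrivOn W E) {z : K} (hz : z ∈ W) (P : E[X]) :
    rs W (aeval z P) = aeval (rs W z) (P.map (barEquiv h).toRingHom) := by
  have hz' : ∀ Q : E[X], aeval z Q ∈ W := fun Q => aeval_mem hz (fun i => h _ (Q.coeff i).2)
  induction P using Polynomial.induction_on' with
  | add p q hp hq =>
    rw [map_add, rs_add (hz' p) (hz' q), hp, hq, Polynomial.map_add, map_add]
  | monomial n a =>
    rw [← C_mul_X_pow_eq_monomial, map_mul, aeval_C, map_pow, aeval_X, Polynomial.map_mul,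
      map_C, Polynomial.map_pow, map_X, map_mul, aeval_C, map_pow, aeval_X]
    change rs W ((a : K) * z ^ n) = _
    rw [rs_mul (h _ a.2) (pow_mem hz n), rs_pow hz]
    rfl

theorem isAlgebraic_bar (h : TrivOn W E) {z : K} (hz : z ∈ W) (halg : IsAlgebraic E z) :
    IsAlgebraic (bar h) (rs W z) := by
  refine ⟨(minpoly E z).map (barEquiv h).toRingHom, ?_, ?_⟩
  · exact (Monic.map _ (minpoly.monic halg.isIntegral)).ne_zero
  · rw [← rs_aeval h hz, minpoly.aeval, rs_zero]

theorem isAlgebraic_of_bar (h : TrivOn W E) {z : K} (hz : TrivOn W (adj E z))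
    (halg : IsAlgebraic (bar h) (rs W z)) : IsAlgebraic E z := by
  obtain ⟨P, hP0, hP⟩ := halg
  refine ⟨P.map (barEquiv h).symm.toRingHom, ?_, ?_⟩
  · rw [Ne, Polynomial.map_eq_zero_iff (RingEquiv.injective _)]
    exact hP0
  · have hzW : z ∈ W := hz _ (mem_adj E z)
    set Q := P.map (barEquiv h).symm.toRingHom with hQ
    have h1 : rs W (aeval z Q) = 0 := by
      rw [rs_aeval h hzW, hQ, Polynomial.map_map]
      have : (barEquiv h).toRingHom.comp (barEquiv h).symm.toRingHom = RingHom.id _ := by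
        ext x; simp
      rw [this, Polynomial.map_id]
      exact hP
    have h2 : aeval z Q ∈ adj E z := by
      rw [aeval_eq_sum_range]
      refine sum_mem fun i _ => ?_
      rw [Algebra.smul_def]
      exact mul_mem (le_adj E z (Q.coeff i).2) (pow_mem (mem_adj E z) i)
    refine hz.eq_zero h2 ?_
    exact (rs_eq_zero (hz _ h2)).1 h1

theorem rs_charZero [CharZero K] (h : TrivOn W E) : CharZero (IsLocalRing.ResidueField W) := by
  have : CharZero E := inferInstance
  exact charZero_of_injective_ringHom (barHom h).injective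

end bar

end Vale.Agent.P019
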