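import Vale.Agent.P019.RelA

/-!
# Normalized coordinates
-/

namespace Vale.Agent.P019

set_option linter.unusedSectionVars false
set_option linter.unusedVariables false

open Polynomial Filter

/-- `σ` restricts to an isomorphism of the subfields `k` and `l`. -/
structure IsoOn {K L : Type*} [Field K] [Field L] (k : Subfield K) (l : Subfield L) (σ : K → L) :
    Prop where
  mem : ∀ a ∈ k, σ a ∈ l
  add : ∀ a ∈ k, ∀ b ∈ k, σ (a + b) = σ a + σ b
  mul : ∀ a ∈ k, ∀ b ∈ k, σ (a * b) = σ a * σ b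
  one : σ 1 = 1
  surj : ∀ β ∈ l, ∃ b ∈ k, σ b = β

variable {K L : Type*} [Field K] [Field L]
  {ℓ : ℕ} {k : Subfield K} {l : Subfield L} {Θ : V ℓ K ≃ₗ[ZMod ℓ] V ℓ L}

/-- `s'` is the normalized coordinate corresponding to `s`. -/
structure Nm (k : Subfield K) (l : Subfield L) (Θ : V ℓ K ≃ₗ[ZMod ℓ] V ℓ L) (σ : K → L)
    (e : ZMod ℓ) (s : K) (s' : L) : Prop where
  rt : Rt k l Θ s s'
  cor : ∀ᶠ b in ae k, Cor k l Θ s s' e b (σ b)

theorem IsoOn.zero {σ : K → L} (hσ : IsoOn k l σ) : σ 0 = 0 := by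
  have h := hσ.add 0 k.zero_mem 0 k.zero_mem
  rw [add_zero] at h
  exact (left_eq_add).1 h

theorem IsoOn.neg {σ : K → L} (hσ : IsoOn k l σ) {a : K} (ha : a ∈ k) : σ (-a) = - σ a := by
  have h := hσ.add a ha (-a) (k.neg_mem ha)
  rw [add_neg_cancel, hσ.zero] at h
  exact (neg_eq_of_add_eq_zero_right h.symm).symm

theorem IsoOn.sub {σ : K → L} (hσ : IsoOn k l σ) {a b : K} (ha : a ∈ k) (hb : b ∈ k) :
    σ (a - b) = σ a - σ b := by
  rw [sub_eq_add_neg, hσ.add a ha (-b) (k.neg_mem hb), hσ.neg hb, sub_eq_add_neg]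

theorem IsoOn.ne_zero {σ : K → L} (hσ : IsoOn k l σ) {a : K} (ha : a ∈ k) (h0 : a ≠ 0) :
    σ a ≠ 0 := by
  intro h
  have h1 := hσ.mul a ha a⁻¹ (k.inv_mem ha)
  rw [mul_inv_cancel₀ h0, hσ.one, h, zero_mul] at h1
  exact one_ne_zero h1

theorem IsoOn.inj {σ : K → L} (hσ : IsoOn k l σ) {a b : K} (ha : a ∈ k) (hb : b ∈ k)
    (h : σ a = σ b) : a = b := by
  by_contra hab
  refine hσ.ne_zero (k.sub_mem ha hb) (sub_ne_zero.2 hab) ?_
  rw [hσ.sub ha hb, h, sub_self]

theorem Nm.psi [CharZero K] [CharZero L] [Fact ℓ.Prime] {σ : K → L} (hσ : IsoOn k l σ) {e : ZMod ℓ} (he : e ≠ 0) {s : K} {s' : L}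
    (h : Nm k l Θ σ e s s') : Psi k l Θ s s' σ (fun _ => e) := by
  refine ⟨?_, ?_⟩
  · filter_upwards [h.cor, ae_mem k] with b hb hbk
    exact ⟨hσ.mem b hbk, he, hb⟩
  · have h1 := ae_iff.1 h.cor
    rw [ae_iff]
    refine (h1.image σ).subset ?_
    rintro β ⟨hβ, hne⟩
    obtain ⟨b, hb, rfl⟩ := hσ.surj β hβ
    refine ⟨b, ⟨hb, fun hc => hne ⟨b, hb, rfl, he, hc⟩⟩, rfl⟩

variable [CharZero K] [CharZero L] [Fact ℓ.Prime]

/-- a functional with the values of `del` on the generators agrees with `del`. -/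
theorem sigA_del_congr (hl : IsAlgClosed l) {t : L} (ht : Good l t) {x : L} (hx : x ∈ l)
    (f : V ℓ L →ₗ[ZMod ℓ] ZMod ℓ) (h1 : f (cl ℓ (t - x)) = 1)
    (h0 : ∀ x' ∈ l, x' ≠ x → f (cl ℓ (t - x')) = 0) {v : V ℓ L} (hv : v ∈ VS ℓ (adj l t)) :
    f v = del ℓ l t x v := by
  obtain ⟨T, n, hT, rfl⟩ := adj_factor hl ht.1 hv
  rw [map_sum, map_sum]
  refine Finset.sum_congr rfl ?_
  intro c hc
  rw [map_smul, map_smul]
  congr 1
  by_cases hcx : c = x
  · subst hcx
    rw [h1, del_self hl ht hx]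
  · rw [h0 c (hT c hc) hcx, del_ne hl ht hx (hT c hc) hcx]

theorem sigA_sub_ne {t : L} (ht : t ∉ l) {c : L} (hc : c ∈ l) : t - c ≠ 0 := by
  intro h
  rw [sub_eq_zero] at h
  exact ht (h ▸ hc)

/-- scaling by a constant does not change the class. -/
theorem sigA_cl_const_mul (hl : IsAlgClosed l) {a z : L} (ha : a ∈ l) (ha0 : a ≠ 0)
    (hz : z ≠ 0) : cl ℓ (a * z) = cl ℓ z := by
  rw [cl_mul ℓ ha0 hz, line_cl_const hl ha, zero_add]

/-- renormalization of the coordinate. -/
theorem exists_Nm_of_mob (hk : IsAlgClosed k) (hl : IsAlgClosed l) {σ : K → L}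
    (hσ : IsoOn k l σ) {e : ZMod ℓ} (he : e ≠ 0) {s : K} {s' : L} (hR : Rt k l Θ s s')
    {A B C D : L} (hA : A ∈ l) (hB : B ∈ l) (hC : C ∈ l) (hD : D ∈ l) (hdet : A * D - B * C ≠ 0)
    {ψ : K → L} (hψ : ∀ᶠ b in ae k, ψ b ∈ l ∧ Cor k l Θ s s' e b (ψ b) ∧
      ψ b * (C * σ b + D) = A * σ b + B) : ∃ s₁', Nm k l Θ σ e s s₁' := by
  have hs' : s' ∉ l := hR.good'.1
  have hden : A - C * s' ≠ 0 := by
    intro h
    by_cases hC0 : C = 0
    · rw [hC0, zero_mul, sub_zero] at h
      rw [h, hC0] at hdet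
      simp at hdet
    · apply hs'
      have : s' = A / C := by
        rw [eq_div_iff hC0, mul_comm]
        exact (sub_eq_zero.1 h).symm
      rw [this]
      exact l.div_mem hA hC
  set t := (D * s' - B) / (A - C * s') with ht
  have htden : C * t + D ≠ 0 := by
    have : C * t + D = (A * D - B * C) / (A - C * s') := by
      rw [ht]
      field_simp
      ring
    rw [this]
    exact div_ne_zero hdet hden
  have htm : t * (A - C * s') = D * s' - B := div_mul_cancel₀ _ hden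
  have hs't : s' = (A * t + B) / (C * t + D) := by
    rw [eq_div_iff htden]
    linear_combination (-1) * htm
  have hmem : t ∈ adj l s' := by
    have h1 : s' ∈ adj l s' := mem_adj l s'
    have h2 := le_adj l s'
    exact (adj l s').div_mem ((adj l s').sub_mem ((adj l s').mul_mem (h2 hD) h1) (h2 hB))
      ((adj l s').sub_mem (h2 hA) ((adj l s').mul_mem (h2 hC) h1))
  have hmem' : s' ∈ adj l t := by
    have h1 : t ∈ adj l t := mem_adj l t
    have h2 := le_adj l t
    rw [hs't]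
    exact (adj l t).div_mem ((adj l t).add_mem ((adj l t).mul_mem (h2 hA) h1) (h2 hB))
      ((adj l t).add_mem ((adj l t).mul_mem (h2 hC) h1) (h2 hD))
  have hadj : adj l t = adj l s' := le_antisymm (adj_le (le_adj l s') hmem)
    (adj_le (le_adj l t) hmem')
  have htl : t ∉ l := by
    intro h
    apply hs'
    rw [hs't]
    exact l.div_mem (l.add_mem (l.mul_mem hA h) hB) (l.add_mem (l.mul_mem hC h) hD)
  have hgt : Good l t := ⟨htl, by rw [hadj]; exact hR.good'.2⟩
  have hRt : Rt k l Θ s t := ⟨hR.good, hgt, fun v => by rw [hadj]; exact hR.map v⟩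
  refine ⟨t, hRt, ?_⟩
  filter_upwards [hψ, ae_mem k] with b hb hbk
  obtain ⟨hy, hcor, hmob⟩ := hb
  intro v hv
  rw [hcor v hv]
  congr 1
  have hΘ : Θ v ∈ VS ℓ (adj l t) := (hRt.map v).2 hv
  have hx := hσ.mem b hbk
  have hyAC : C ≠ 0 → A / C ≠ ψ b := by
    intro hC0 h
    apply hdet
    rw [← h] at hmob
    have : A / C * (C * σ b + D) = A * σ b + A * D / C := by
      field_simp
    rw [this] at hmob
    have h3 : A * D / C = B := add_left_cancel hmob
    rw [div_eq_iff hC0] at h3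
    rw [h3, sub_self]
  have hxden : C * σ b + D ≠ 0 := by
    intro h
    rw [h, mul_zero] at hmob
    apply hdet
    linear_combination A * h + C * hmob
  have hfd : del ℓ l s' (ψ b) (cl ℓ (A - C * s')) = 0 := by
    by_cases hC0 : C = 0
    · rw [hC0, zero_mul, sub_zero, line_cl_const hl hA, map_zero]
    · have h1 : A - C * s' = (-C) * (s' - A / C) := by
        field_simp
        ring
      rw [h1, sigA_cl_const_mul hl (l.neg_mem hC) (neg_ne_zero.2 hC0)
        (sigA_sub_ne hs' (l.div_mem hA hC))]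
      exact del_ne hl hR.good' hy (l.div_mem hA hC) (hyAC hC0)
  have hgen : ∀ x' ∈ l, ∀ hx' : C * x' + D ≠ 0,
      cl ℓ (t - x') = cl ℓ (s' - (A * x' + B) / (C * x' + D)) - cl ℓ (A - C * s') := by
    intro x' hx'l hx'
    have hy'l : (A * x' + B) / (C * x' + D) ∈ l :=
      l.div_mem (l.add_mem (l.mul_mem hA hx'l) hB) (l.add_mem (l.mul_mem hC hx'l) hD)
    have hy' : (A * x' + B) / (C * x' + D) * (C * x' + D) = A * x' + B := div_mul_cancel₀ _ hx'
    have h1 : t - x' = (C * x' + D) * (s' - (A * x' + B) / (C * x' + D)) / (A - C * s') := by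
      rw [eq_div_iff hden]
      linear_combination htm + hy'
    have h2 := sigA_sub_ne hs' hy'l
    rw [h1, cl_div ℓ (mul_ne_zero hx' h2) hden,
      sigA_cl_const_mul hl (l.add_mem (l.mul_mem hC hx'l) hD) hx' h2]
  have hyeq : ψ b = (A * σ b + B) / (C * σ b + D) := by
    rw [eq_div_iff hxden]
    exact hmob
  refine sigA_del_congr hl hgt hx _ ?_ ?_ hΘ
  · rw [hgen _ hx hxden, map_sub, hfd, sub_zero, ← hyeq]
    exact del_self hl hR.good' hy
  · intro x' hx'l hx'ne
    by_cases hx' : C * x' + D = 0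
    · have h1 : A * x' + B ≠ 0 := by
        intro h
        apply hdet
        linear_combination A * hx' - C * h
      have h2 : t - x' = (-(A * x' + B)) / (A - C * s') := by
        rw [ht]
        rw [eq_div_iff hden, sub_mul, div_mul_cancel₀ _ hden]
        linear_combination s' * hx'
      rw [h2, cl_div ℓ (neg_ne_zero.2 h1) hden,
        line_cl_const hl (l.neg_mem (l.add_mem (l.mul_mem hA hx'l) hB)), zero_sub, map_neg, hfd,
        neg_zero]
    · rw [hgen _ hx'l hx', map_sub, hfd, sub_zero]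
      refine del_ne hl hR.good' hy
        (l.div_mem (l.add_mem (l.mul_mem hA hx'l) hB) (l.add_mem (l.mul_mem hC hx'l) hD)) ?_
      intro h
      apply hx'ne
      rw [hyeq, div_eq_div_iff hx' hxden] at h
      have h3 : (A * D - B * C) * (x' - σ b) = 0 := by linear_combination h
      rcases mul_eq_zero.1 h3 with h4 | h4
      · exact absurd h4 hdet
      · exact sub_eq_zero.1 h4

theorem sigA_VS_infinite (hl : IsAlgClosed l) {t : L} (ht : Good l t) :
    ¬ ((VS ℓ (adj l t) : Submodule (ZMod ℓ) (V ℓ L)) : Set (V ℓ L)).Finite := by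
  intro hfin
  have hli := cl_sub_independent (ℓ := ℓ) hl ht
  have hinj := hli.injective
  refine Set.infinite_of_injective_forall_mem
    (f := fun n : ℕ => cl ℓ (t - ((n : l) : L))) ?_ (fun n => ?_) hfin
  · intro m n h
    have h1 := hinj (a₁ := (m : l)) (a₂ := (n : l)) h
    exact_mod_cast h1
  · exact cl_mem_VS (sub_mem (mem_adj l t) (le_adj l t (n : l).2))

theorem Nm.unique (hk : IsAlgClosed k) (hl : IsAlgClosed l) (hfg : FG l (⊤ : Subfield L))
    {σ : K → L} (hσ : IsoOn k l σ)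
    {e : ZMod ℓ} (he : e ≠ 0) {s : K} {s' s'' : L} (h : Nm k l Θ σ e s s')
    (h' : Nm k l Θ σ e s s'') : s' = s'' := by
  classical
  have hg' := h.rt.good'
  have hg'' := h'.rt.good'
  have hVS : VS ℓ (adj l s') = VS ℓ (adj l s'') := by
    ext w
    have h1 := h.rt.map (Θ.symm w)
    have h2 := h'.rt.map (Θ.symm w)
    rw [LinearEquiv.apply_symm_apply] at h1 h2
    exact h1.trans h2.symm
  have halg : IsAlgebraic (adj l s') s'' := by
    by_contra hna
    have h1 := int_top ℓ hl hfg (le_adj l s') (le_adj l s'') (mem_adj l s'') hna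
      (fun z hz => isAlgebraic_of_mem hz)
    rw [← hVS, inf_idem] at h1
    exact sigA_VS_infinite hl hg' h1
  have hmem : s'' ∈ adj l s' := hg'.2 _ halg
  obtain ⟨p, q, hpq⟩ := line_mem hmem
  have hq : q ≠ 0 := by
    rintro rfl
    rw [map_zero, div_zero] at hpq
    exact hg''.1 (hpq ▸ l.zero_mem)
  have hq0 := line_aeval_ne hl hg'.1 hq
  have key : ∀ᶠ b in ae k, ∃ β : l, (β : L) = σ b ∧ (p - X * q).IsRoot β := by
    have hcq : ∀ᶠ b in ae k, ∀ β : l, (β : L) = σ b → q.eval β ≠ 0 := by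
      rw [ae_iff]
      have hfin : {b : K | b ∈ k ∧ ∃ β : l, (β : L) = σ b ∧ q.IsRoot β}.Finite := by
        have hr : {β : l | q.IsRoot β}.Finite := Polynomial.finite_setOfPred_isRoot hq
        refine Set.Finite.of_finite_image (f := σ) ((hr.image (Subtype.val)).subset ?_) ?_
        · rintro _ ⟨b, ⟨hb, β, hβ, hr⟩, rfl⟩
          exact ⟨β, hr, hβ⟩
        · rintro a ⟨ha, -⟩ b ⟨hb, -⟩ hab
          exact hσ.inj ha hb hab
      refine hfin.subset ?_
      rintro b ⟨hb, hne⟩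
      push Not at hne
      obtain ⟨β, hβ, hβ'⟩ := hne
      exact ⟨hb, β, hβ, hβ'⟩
    filter_upwards [h.cor, h'.cor, ae_mem k, hcq] with b hb hb' hbk hqb
    have hβl := hσ.mem b hbk
    refine ⟨⟨σ b, hβl⟩, rfl, ?_⟩
    have hqβ := hqb ⟨σ b, hβl⟩ rfl
    set β : l := ⟨σ b, hβl⟩ with hβ
    have hw : cl ℓ (s'' - (β : L)) ∈ VS ℓ (adj l s') := by
      rw [hVS]
      exact cl_mem_VS (sub_mem (mem_adj l s'') (le_adj l s'' β.2))
    have hv : Θ.symm (cl ℓ (s'' - (β : L))) ∈ VS ℓ (adj k s) := by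
      rw [← h.rt.map, LinearEquiv.apply_symm_apply]
      exact hw
    have h1 := hb _ hv
    have h2 := hb' _ hv
    rw [LinearEquiv.apply_symm_apply] at h1 h2
    have h3 : del ℓ l s' (β : L) (cl ℓ (s'' - (β : L))) = 1 := by
      have h4 := mul_left_cancel₀ he (h1.symm.trans h2)
      change del ℓ l s' (σ b) _ = 1
      rw [h4]
      exact del_self hl hg'' hβl
    by_contra hroot
    have hF0 : p - C β * q ≠ 0 := by
      intro h5
      have h6 : s'' = (β : L) := by
        rw [hpq, div_eq_iff hq0]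
        have h7 := congrArg (aeval s') h5
        rw [map_sub, map_mul, aeval_C, map_zero, sub_eq_zero] at h7
        exact h7
      exact hg''.1 (h6 ▸ β.2)
    have h5 : s'' - (β : L) = aeval s' (p - C β * q) / aeval s' q := by
      rw [hpq, map_sub, map_mul, aeval_C, sub_div, mul_div_assoc, div_self hq0, mul_one]
      rfl
    have hF0' := line_aeval_ne hl hg'.1 hF0
    rw [h5, cl_div ℓ hF0' hq0, map_sub, del_aeval hl hg' hF0, del_aeval hl hg' hq] at h3
    have h6 : q.rootMultiplicity β = 0 := rootMultiplicity_eq_zero hqβ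
    have h7 : (p - C β * q).rootMultiplicity β = 0 := by
      apply rootMultiplicity_eq_zero
      intro h8
      apply hroot
      rw [IsRoot.def, eval_sub, eval_mul, eval_C] at h8
      rw [IsRoot.def, eval_sub, eval_mul, eval_X]
      exact h8
    rw [h6, h7] at h3
    simp at h3
  have hzero : p - X * q = 0 := by
    by_contra hne
    have hfin : {β : l | (p - X * q).IsRoot β}.Finite := Polynomial.finite_setOfPred_isRoot hne
    have h1 : {b : K | b ∈ k ∧ ∃ β : l, (β : L) = σ b ∧ (p - X * q).IsRoot β}.Finite := by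
      refine Set.Finite.of_finite_image (f := σ) ((hfin.image (Subtype.val)).subset ?_) ?_
      · rintro _ ⟨b, ⟨hb, β, hβ, hr⟩, rfl⟩
        exact ⟨β, hr, hβ⟩
      · rintro a ⟨ha, -⟩ b ⟨hb, -⟩ hab
        exact hσ.inj ha hb hab
    have h2 : ∀ᶠ b in ae k, ¬ ∃ β : l, (β : L) = σ b ∧ (p - X * q).IsRoot β := by
      rw [ae_iff]
      simpa using h1
    have := ae_neBot k
    obtain ⟨b, hb1, hb2⟩ := (key.and h2).exists
    exact hb2 hb1
  rw [hpq, sub_eq_zero.1 hzero, map_mul, aeval_X, mul_div_assoc, div_self hq0, mul_one]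

/-- affine changes of the coordinate. -/
theorem sigA_adj_affine {t a c : L} (ha : a ∈ l) (ha0 : a ≠ 0) (hc : c ∈ l) :
    adj l (a * t + c) = adj l t := by
  apply le_antisymm
  · refine adj_le (le_adj l t) ?_
    exact (adj l t).add_mem ((adj l t).mul_mem (le_adj l t ha) (mem_adj l t)) (le_adj l t hc)
  · refine adj_le (le_adj l _) ?_
    have h1 : t = ((a * t + c) - c) / a := by
      rw [add_sub_cancel_right, mul_div_cancel_left₀ _ ha0]
    have h2 : ((a * t + c) - c) / a ∈ adj l (a * t + c) :=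
      (adj l (a * t + c)).div_mem ((adj l (a * t + c)).sub_mem (mem_adj l _) (le_adj l _ hc))
        (le_adj l _ ha)
    rwa [← h1] at h2

theorem sigA_good_affine {t a c : L} (ht : Good l t) (ha : a ∈ l) (ha0 : a ≠ 0) (hc : c ∈ l) :
    Good l (a * t + c) := by
  refine ⟨?_, ?_⟩
  · intro h
    apply ht.1
    have h1 : t = ((a * t + c) - c) / a := by
      rw [add_sub_cancel_right, mul_div_cancel_left₀ _ ha0]
    rw [h1]
    exact l.div_mem (l.sub_mem h hc) ha
  · rw [sigA_adj_affine ha ha0 hc]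
    exact ht.2

theorem sigA_del_affine (hl : IsAlgClosed l) {t a c : L} (ht : Good l t) (ha : a ∈ l)
    (ha0 : a ≠ 0) (hc : c ∈ l) {x : L} (hx : x ∈ l) {v : V ℓ L} (hv : v ∈ VS ℓ (adj l t)) :
    del ℓ l (a * t + c) (a * x + c) v = del ℓ l t x v := by
  have hg := sigA_good_affine ht ha ha0 hc
  have hcl : ∀ x' ∈ l, cl ℓ (t - x') = cl ℓ ((a * t + c) - (a * x' + c)) := by
    intro x' hx'
    have h1 : (a * t + c) - (a * x' + c) = a * (t - x') := by ring
    rw [h1, sigA_cl_const_mul hl ha ha0 (sigA_sub_ne ht.1 hx')]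
  have hmem : ∀ x' ∈ l, a * x' + c ∈ l := fun x' hx' => l.add_mem (l.mul_mem ha hx') hc
  refine sigA_del_congr hl ht hx _ ?_ ?_ hv
  · rw [hcl x hx]
    exact del_self hl hg (hmem x hx)
  · intro x' hx' hne
    rw [hcl x' hx']
    refine del_ne hl hg (hmem x hx) (hmem x' hx') ?_
    intro h
    exact hne (mul_left_cancel₀ ha0 (add_right_cancel h))

theorem Nm.affine (hk : IsAlgClosed k) (hl : IsAlgClosed l) {σ : K → L} (hσ : IsoOn k l σ)
    {e : ZMod ℓ} {s : K} {s' : L} (h : Nm k l Θ σ e s s') {a c : K} (ha : a ∈ k)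
    (ha0 : a ≠ 0) (hc : c ∈ k) : Nm k l Θ σ e (a * s + c) (σ a * s' + σ c) := by
  have hσa := hσ.mem a ha
  have hσc := hσ.mem c hc
  have hσa0 := hσ.ne_zero ha ha0
  refine ⟨⟨sigA_good_affine h.rt.good ha ha0 hc, sigA_good_affine h.rt.good' hσa hσa0 hσc, ?_⟩, ?_⟩
  · intro v
    rw [sigA_adj_affine ha ha0 hc, sigA_adj_affine hσa hσa0 hσc]
    exact h.rt.map v
  · have h1 := ae_iff.1 h.cor
    rw [ae_iff]
    refine (h1.image (fun b => a * b + c)).subset ?_
    rintro b ⟨hb, hne⟩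
    have hb' : (b - c) / a ∈ k := k.div_mem (k.sub_mem hb hc) ha
    have hbb : a * ((b - c) / a) + c = b := by
      rw [mul_div_cancel₀ _ ha0, sub_add_cancel]
    refine ⟨(b - c) / a, ⟨hb', fun hcor => hne ?_⟩, hbb⟩
    have hσb : σ b = σ a * σ ((b - c) / a) + σ c := by
      rw [← hσ.mul a ha _ hb', ← hσ.add _ (k.mul_mem ha hb') c hc, hbb]
    intro v hv
    rw [sigA_adj_affine ha ha0 hc] at hv
    have h2 := hcor v hv
    have h3 : Θ v ∈ VS ℓ (adj l s') := (h.rt.map v).2 hv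
    have h4 := sigA_del_affine hk h.rt.good ha ha0 hc hb' hv
    have h5 := sigA_del_affine hl h.rt.good' hσa hσa0 hσc (hσ.mem _ hb') h3
    rw [hbb] at h4
    rw [← hσb] at h5
    rw [h4, h5]
    exact h2

theorem Nm.add_const (hk : IsAlgClosed k) (hl : IsAlgClosed l) {σ : K → L} (hσ : IsoOn k l σ)
    {e : ZMod ℓ} (he : e ≠ 0) {s : K} {s' : L} (h : Nm k l Θ σ e s s') {c : K} (hc : c ∈ k) :
    Nm k l Θ σ e (s + c) (s' + σ c) := by
  have h1 := h.affine hk hl hσ k.one_mem one_ne_zero hc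
  rw [one_mul, hσ.one, one_mul] at h1
  exact h1

theorem Nm.mul_const (hk : IsAlgClosed k) (hl : IsAlgClosed l) {σ : K → L} (hσ : IsoOn k l σ)
    {e : ZMod ℓ} (he : e ≠ 0) {s : K} {s' : L} (h : Nm k l Θ σ e s s') {c : K} (hc : c ∈ k)
    (hc0 : c ≠ 0) : Nm k l Θ σ e (c * s) (σ c * s') := by
  have h1 := h.affine hk hl hσ hc hc0 k.zero_mem
  rw [add_zero, hσ.zero, add_zero] at h1
  exact h1

end Vale.Agent.P019
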