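import Mathlib

/-!
# P019: Moebius transformations along translations and dilations give a field isomorphism

Main result `sigma_exists`.
-/

namespace Vale.Agent.P019

open Filter

/-- `y = m(x)` for the Moebius map with matrix entries `A B C D`. -/
def MobRel {l : Type*} [Field l] (A B C D x y : l) : Prop := y * (C * x + D) = A * x + B

namespace Sg

variable {k l : Type*} [Field k] [Field l]

/-- `y = g(x)` for the Moebius map of the linear automorphism `g` of `l × l`. -/
def Act (g : (l × l) ≃ₗ[l] (l × l)) (x y : l) : Prop :=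
  ∃ t : l, t ≠ 0 ∧ g (x, 1) = t • ((y, 1) : l × l)

/-- determinant of two vectors -/
def dt (v w : l × l) : l := v.1 * w.2 - v.2 * w.1

theorem Act.comp {g h : (l × l) ≃ₗ[l] (l × l)} {x y z : l} (h1 : Act g x y) (h2 : Act h y z) :
    Act (g.trans h) x z := by
  obtain ⟨t, ht, h1⟩ := h1
  obtain ⟨s, hs, h2⟩ := h2
  refine ⟨t * s, mul_ne_zero ht hs, ?_⟩
  rw [LinearEquiv.trans_apply, h1, map_smul, h2, smul_smul]

theorem Act.symm {g : (l × l) ≃ₗ[l] (l × l)} {x y : l} (h1 : Act g x y) : Act g.symm y x := by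
  obtain ⟨t, ht, h1⟩ := h1
  refine ⟨t⁻¹, inv_ne_zero ht, ?_⟩
  rw [LinearEquiv.symm_apply_eq, map_smul, h1, smul_smul, inv_mul_cancel₀ ht, one_smul]

theorem Act.eq_right {g : (l × l) ≃ₗ[l] (l × l)} {x y z : l} (h1 : Act g x y) (h2 : Act g x z) :
    y = z := by
  obtain ⟨t, ht, h1⟩ := h1
  obtain ⟨s, hs, h2⟩ := h2
  rw [h1] at h2
  have e2 : t = s := by simpa using congrArg Prod.snd h2
  have e1 : t * y = s * z := by simpa using congrArg Prod.fst h2
  rw [e2] at e1
  exact mul_left_cancel₀ hs e1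

theorem Act.eq_left {g : (l × l) ≃ₗ[l] (l × l)} {x y z : l} (h1 : Act g x z) (h2 : Act g y z) :
    x = y := h1.symm.eq_right h2.symm

theorem dt_self (v : l × l) : dt v v = 0 := by simp [dt, mul_comm]

theorem dt_smul_right (v w : l × l) (s : l) : dt v (s • w) = s * dt v w := by
  simp only [dt, Prod.smul_fst, Prod.smul_snd, smul_eq_mul]; ring

theorem exists_smul_of_dt {v w : l × l} (hv : v ≠ 0) (h : dt v w = 0) : ∃ s : l, w = s • v := by
  unfold dt at h
  by_cases h1 : v.1 = 0
  · have h2 : v.2 ≠ 0 := by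
      intro h2; exact hv (Prod.ext h1 h2)
    refine ⟨w.2 / v.2, ?_⟩
    rw [h1] at h
    have h3 : w.1 = 0 := by
      rcases mul_eq_zero.1 (by linear_combination -h : v.2 * w.1 = 0) with h' | h'
      · exact absurd h' h2
      · exact h'
    ext
    · simp [h1, h3]
    · simp [h2]
  · refine ⟨w.1 / v.1, ?_⟩
    ext
    · simp [h1]
    · simp only [Prod.smul_snd, smul_eq_mul]
      field_simp
      linear_combination h

/-- expansion in a basis -/
theorem dt_expand (v w u : l × l) : dt v w • u = dt u w • v + dt v u • w := by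
  ext
  · simp only [dt, Prod.smul_fst, Prod.fst_add, smul_eq_mul]; ring
  · simp only [dt, Prod.smul_snd, Prod.snd_add, smul_eq_mul]; ring

theorem scalar_of_two {f : (l × l) →ₗ[l] (l × l)} {v w : l × l} (h : dt v w ≠ 0) {a : l}
    (hv : f v = a • v) (hw : f w = a • w) (u : l × l) : f u = a • u := by
  have h1 := dt_expand v w u
  have h2 := congrArg f h1
  rw [map_smul, map_add, map_smul, map_smul, hv, hw] at h2
  have h3 : dt v w • f u = dt v w • (a • u) := by
    rw [h2, smul_comm (dt v w) a u, h1, smul_add]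
    simp only [smul_smul, mul_comm]
  exact smul_right_injective _ h h3

theorem scal3 {f : (l × l) →ₗ[l] (l × l)} {v₁ v₂ v₃ : l × l} {a₁ a₂ a₃ : l}
    (h12 : dt v₁ v₂ ≠ 0) (h13 : dt v₁ v₃ ≠ 0) (h32 : dt v₃ v₂ ≠ 0)
    (h1 : f v₁ = a₁ • v₁) (h2 : f v₂ = a₂ • v₂) (h3 : f v₃ = a₃ • v₃) :
    a₁ = a₂ ∧ ∀ u, f u = a₁ • u := by
  have e := dt_expand v₁ v₂ v₃
  have e2 := congrArg f e
  rw [map_smul, map_add, map_smul, map_smul, h1, h2, h3] at e2
  have e3 : dt v₁ v₂ • (a₃ • v₃) = a₃ • (dt v₃ v₂ • v₁ + dt v₁ v₃ • v₂) := by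
    rw [← e, smul_comm]
  rw [e3] at e2
  -- compare determinants with `v₁` and `v₂`
  have f1 := congrArg (fun z => dt v₁ z) e2
  have f2 := congrArg (fun z => dt z v₂) e2
  have g1 : a₃ * (dt v₁ v₃ * dt v₁ v₂) = a₂ * (dt v₁ v₃ * dt v₁ v₂) := by
    simp only [dt, Prod.smul_fst, Prod.smul_snd, Prod.fst_add, Prod.snd_add, smul_eq_mul] at f1 ⊢
    linear_combination f1
  have g2 : a₃ * (dt v₃ v₂ * dt v₁ v₂) = a₁ * (dt v₃ v₂ * dt v₁ v₂) := by
    simp only [dt, Prod.smul_fst, Prod.smul_snd, Prod.fst_add, Prod.snd_add, smul_eq_mul] at f2 ⊢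
    linear_combination f2
  have k1 : a₃ = a₂ := mul_right_cancel₀ (mul_ne_zero h13 h12) g1
  have k2 : a₃ = a₁ := mul_right_cancel₀ (mul_ne_zero h32 h12) g2
  have k3 : a₁ = a₂ := by rw [← k2, k1]
  refine ⟨k3, ?_⟩
  exact scalar_of_two h12 h1 (by rw [h2, k3])

theorem dt_pts (x y : l) : dt ((x, 1) : l × l) (y, 1) = x - y := by simp [dt]

/-- two automorphisms with the same Moebius values at three points are proportional -/
theorem Act.unique {g g' : (l × l) ≃ₗ[l] (l × l)} {x₁ x₂ x₃ y₁ y₂ y₃ : l}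
    (h12 : x₁ ≠ x₂) (h13 : x₁ ≠ x₃) (h32 : x₃ ≠ x₂)
    (g1 : Act g x₁ y₁) (g2 : Act g x₂ y₂) (g3 : Act g x₃ y₃)
    (g1' : Act g' x₁ y₁) (g2' : Act g' x₂ y₂) (g3' : Act g' x₃ y₃) :
    ∃ u : l, u ≠ 0 ∧ ∀ v, g v = u • g' v := by
  obtain ⟨t₁, ht₁, e₁⟩ := g1.comp g1'.symm
  obtain ⟨t₂, ht₂, e₂⟩ := g2.comp g2'.symm
  obtain ⟨t₃, ht₃, e₃⟩ := g3.comp g3'.symm
  have key := scal3 (f := (g.trans g'.symm).toLinearMap) (v₁ := (x₁, 1)) (v₂ := (x₂, 1))
    (v₃ := (x₃, 1)) (by rw [dt_pts]; exact sub_ne_zero.2 h12)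
    (by rw [dt_pts]; exact sub_ne_zero.2 h13) (by rw [dt_pts]; exact sub_ne_zero.2 h32) e₁ e₂ e₃
  refine ⟨t₁, ht₁, fun v => ?_⟩
  have := key.2 v
  simp only [LinearEquiv.coe_coe, LinearEquiv.trans_apply] at this
  rw [LinearEquiv.symm_apply_eq, map_smul] at this
  exact this

section ae

variable {φ : k → l}

omit [Field k] [Field l] in
theorem three_pts [Infinite k] {P : k → Prop} (hinj : ∃ S : Set k, S.Finite ∧ Set.InjOn φ Sᶜ)
    (hP : ∀ᶠ b in cofinite, P b) :
    ∃ b₁ b₂ b₃, P b₁ ∧ P b₂ ∧ P b₃ ∧ φ b₁ ≠ φ b₂ ∧ φ b₁ ≠ φ b₃ ∧ φ b₃ ≠ φ b₂ := by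
  classical
  obtain ⟨S, hS, hinj⟩ := hinj
  have h1 : ∀ᶠ b in cofinite, P b ∧ b ∈ Sᶜ := by
    refine hP.and ?_
    exact hS.compl_mem_cofinite
  have h2 : {b | P b ∧ b ∈ Sᶜ}.Infinite := by
    have h3 : {b | P b ∧ b ∈ Sᶜ}ᶜ.Finite := h1
    exact Set.infinite_of_finite_compl h3
  obtain ⟨T, hT, hc⟩ := h2.exists_subset_card_eq 3
  obtain ⟨b₁, b₂, b₃, n12, n13, n23, rfl⟩ := Finset.card_eq_three.1 hc
  have m1 : b₁ ∈ {b | P b ∧ b ∈ Sᶜ} := hT (by simp)
  have m2 : b₂ ∈ {b | P b ∧ b ∈ Sᶜ} := hT (by simp)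
  have m3 : b₃ ∈ {b | P b ∧ b ∈ Sᶜ} := hT (by simp)
  refine ⟨b₁, b₂, b₃, m1.1, m2.1, m3.1, ?_, ?_, ?_⟩
  · intro h; exact n12 (hinj m1.2 m2.2 h)
  · intro h; exact n13 (hinj m1.2 m3.2 h)
  · intro h; exact n23 (hinj m3.2 m2.2 h).symm

theorem unique_ae [Infinite k] (hinj : ∃ S : Set k, S.Finite ∧ Set.InjOn φ Sᶜ) {φ' : k → l}
    {g g' : (l × l) ≃ₗ[l] (l × l)}
    (h : ∀ᶠ b in cofinite, Act g (φ b) (φ' b)) (h' : ∀ᶠ b in cofinite, Act g' (φ b) (φ' b)) :
    ∃ u : l, u ≠ 0 ∧ ∀ v, g v = u • g' v := by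
  obtain ⟨b₁, b₂, b₃, ⟨p1, q1⟩, ⟨p2, q2⟩, ⟨p3, q3⟩, n12, n13, n32⟩ := three_pts hinj (h.and h')
  exact Act.unique n12 n13 n32 p1 p2 p3 q1 q2 q3

theorem ae_add {P : k → Prop} (c : k) (hP : ∀ᶠ b in cofinite, P b) :
    ∀ᶠ b in cofinite, P (b + c) :=
  (add_left_injective c).tendsto_cofinite.eventually hP

theorem ae_mul {P : k → Prop} {c : k} (hc : c ≠ 0) (hP : ∀ᶠ b in cofinite, P b) :
    ∀ᶠ b in cofinite, P (c * b) :=
  (mul_right_injective₀ hc).tendsto_cofinite.eventually hP

/-- Lemma A: the affine case. -/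
theorem affine_case [CharZero k] [Uncountable k] (φ : k → l)
    (hinj : ∃ S : Set k, S.Finite ∧ Set.InjOn φ Sᶜ)
    (hadd : ∀ c, ∃ α β : l, α ≠ 0 ∧ ∀ᶠ b in cofinite, φ (b + c) = α * φ b + β)
    (hmul : ∀ c, c ≠ 0 → ∃ α β : l, α ≠ 0 ∧ ∀ᶠ b in cofinite, φ (c * b) = α * φ b + β) :
    ∃ (σ : k →+* l) (p q : l), p ≠ 0 ∧ ∀ᶠ b in cofinite, φ b = p * σ b + q := by
  classical
  -- uniqueness of the affine map
  have huniq : ∀ (α β α' β' : l), (∀ᶠ b in cofinite, α * φ b + β = α' * φ b + β') →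
      α = α' ∧ β = β' := by
    intro α β α' β' h
    obtain ⟨b₁, b₂, b₃, p1, p2, p3, n12, n13, n32⟩ := three_pts hinj h
    have h1 : (α - α') * (φ b₁ - φ b₂) = 0 := by linear_combination p1 - p2
    have h2 : α = α' := by
      rcases mul_eq_zero.1 h1 with h | h
      · exact sub_eq_zero.1 h
      · exact absurd (sub_eq_zero.1 h) n12
    refine ⟨h2, ?_⟩
    rw [h2] at p1
    linear_combination p1
  choose al be hal0 hab using hadd
  have hmul' : ∀ c, ∃ α β : l, c ≠ 0 → (α ≠ 0 ∧ ∀ᶠ b in cofinite, φ (c * b) = α * φ b + β) := by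
    intro c
    by_cases hc : c = 0
    · exact ⟨0, 0, fun h => absurd hc h⟩
    · obtain ⟨α, β, h⟩ := hmul c hc
      exact ⟨α, β, fun _ => h⟩
  choose m n hmn using hmul'
  -- composition of translations
  have hcomp : ∀ c c', al (c + c') = al c' * al c ∧ be (c + c') = al c' * be c + be c' := by
    intro c c'
    apply huniq
    filter_upwards [hab (c + c'), hab c, ae_add c (hab c')] with b h1 h2 h3
    rw [← h1, ← add_assoc, h3, h2]
    ring
  -- conjugation by dilations
  have hconj : ∀ lam c, lam ≠ 0 → al (lam * c) = al c ∧ be (lam * c) = m lam * be c := by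
    intro lam c hlam
    have h1 := (hmn lam hlam).2
    have h2 : al (lam * c) * m lam = m lam * al c ∧
        al (lam * c) * n lam + be (lam * c) = m lam * be c + n lam := by
      apply huniq
      filter_upwards [h1, ae_mul hlam (hab (lam * c)), hab c, ae_add c h1] with b e1 e2 e3 e4
      rw [e1] at e2
      rw [mul_add, e2, e3] at e4
      linear_combination e4
    have h3 : al (lam * c) = al c := by
      apply mul_right_cancel₀ (hmn lam hlam).1
      rw [h2.1, mul_comm]
    -- now `al = 1`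
    refine ⟨h3, ?_⟩
    have h4 : ∀ d, al d = 1 := by
      intro d
      have two_ne : (2 : k) ≠ 0 := two_ne_zero
      have h1 := (hmn 2 two_ne).2
      have h2 : al (2 * d) * m 2 = m 2 * al d ∧
          al (2 * d) * n 2 + be (2 * d) = m 2 * be d + n 2 := by
        apply huniq
        filter_upwards [h1, ae_mul two_ne (hab (2 * d)), hab d, ae_add d h1] with b e1 e2 e3 e4
        rw [e1] at e2
        rw [mul_add, e2, e3] at e4
        linear_combination e4
      have h3 : al (2 * d) = al d := by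
        apply mul_right_cancel₀ (hmn 2 two_ne).1
        rw [h2.1, mul_comm]
      have h5 := (hcomp d d).1
      rw [← two_mul, h3] at h5
      have h6 : al d * al d = 1 * al d := by rw [← h5, one_mul]
      exact mul_right_cancel₀ (hal0 d) h6
    have h5 := h2.2
    rw [h4 (lam * c)] at h5
    linear_combination h5
  have hal : ∀ d, al d = 1 := by
    intro d
    have two_ne : (2 : k) ≠ 0 := two_ne_zero
    have h5 := (hcomp d d).1
    rw [← two_mul, (hconj 2 d two_ne).1] at h5
    have h6 : al d * al d = 1 * al d := by rw [← h5, one_mul]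
    exact mul_right_cancel₀ (hal0 d) h6
  have hbe_add : ∀ c c', be (c + c') = be c + be c' := by
    intro c c'
    rw [(hcomp c c').2, hal, one_mul]
  have htr : ∀ c, ∀ᶠ b in cofinite, φ (b + c) = φ b + be c := by
    intro c
    filter_upwards [hab c] with b hb
    rw [hb, hal, one_mul]
  have hbe_ne : ∀ c, c ≠ 0 → be c ≠ 0 := by
    intro c hc h0
    obtain ⟨S, hS, hinj'⟩ := hinj
    have h1 : ∀ᶠ b in cofinite, b ∈ Sᶜ := hS.compl_mem_cofinite
    obtain ⟨b, h2, h3, h4⟩ := ((htr c).and (h1.and (ae_add c h1))).exists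
    rw [h0, add_zero] at h2
    have := hinj' h4 h3 h2
    exact hc (by simpa using this)
  have hbe1 : be 1 ≠ 0 := hbe_ne 1 one_ne_zero
  have hm : ∀ lam, lam ≠ 0 → m lam = be lam / be 1 := by
    intro lam hlam
    have := (hconj lam 1 hlam).2
    rw [mul_one] at this
    rw [this]
    field_simp
  have hbe0 : be 0 = 0 := by
    have := hbe_add 0 0
    simpa using this
  let σ : k →+* l :=
    { toFun := fun c => be c / be 1
      map_one' := div_self hbe1
      map_mul' := by
        intro x y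
        by_cases hx : x = 0
        · simp [hx, hbe0]
        · rw [(hconj x y hx).2, hm x hx]
          ring
      map_zero' := by simp [hbe0]
      map_add' := by
        intro x y
        rw [hbe_add]
        ring }
  have hσ : ∀ c, be c = be 1 * σ c := by
    intro c
    change be c = be 1 * (be c / be 1)
    field_simp
  -- the difference is a.e. constant
  let δ : k → l := fun b => φ b - be 1 * σ b
  have hδ : ∀ c, ∀ᶠ b in cofinite, δ (b + c) = δ b := by
    intro c
    filter_upwards [htr c] with b hb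
    simp only [δ]
    rw [hb, map_add, hσ c]
    ring
  have hcount : ∀ S : Set k, S.Countable → ∃ d, {s ∈ S | δ s ≠ d}.Finite := by
    intro S hS
    have h1 : (⋃ s ∈ S, {b | δ (b + s) ≠ δ b}).Countable := by
      refine hS.biUnion fun s _ => ?_
      exact Set.Finite.countable (hδ s)
    have h2 : ∃ a, a ∉ (⋃ s ∈ S, {b | δ (b + s) ≠ δ b}) := by
      by_contra hcon
      push Not at hcon
      have : (Set.univ : Set k).Countable := h1.mono (fun a _ => hcon a)
      exact Set.not_countable_univ this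
    obtain ⟨a, ha⟩ := h2
    simp only [Set.mem_iUnion, Set.mem_ofPred_eq, not_exists, not_not] at ha
    refine ⟨δ a, ?_⟩
    refine Set.Finite.subset (hδ a) ?_
    intro s hs h
    simp only [Set.mem_ofPred_eq] at hs
    apply hs.2
    rw [← h, add_comm s a]
    exact ha s hs.1
  have hconst : ∃ d, ∀ᶠ b in cofinite, δ b = d := by
    have hZ : (Set.range (fun z : ℕ => (z : k))).Infinite :=
      Set.infinite_range_of_injective Nat.cast_injective
    obtain ⟨d, hd⟩ := hcount (Set.range (fun z : ℕ => (z : k))) (Set.countable_range _)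
    refine ⟨d, ?_⟩
    by_contra hcon
    have hinf : {b | δ b ≠ d}.Infinite := by
      intro hfin
      exact hcon hfin
    obtain ⟨T, hT, hTi, hTc⟩ : ∃ T ⊆ {b | δ b ≠ d}, T.Infinite ∧ T.Countable := by
      refine ⟨Set.range (fun i => ((hinf.natEmbedding _ i : {b | δ b ≠ d}) : k)), ?_, ?_,
        Set.countable_range _⟩
      · rintro _ ⟨i, rfl⟩
        exact (hinf.natEmbedding _ i).2
      · refine Set.infinite_range_of_injective ?_
        intro i j hij
        exact (hinf.natEmbedding _).injective (Subtype.ext hij)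
    obtain ⟨d', hd'⟩ := hcount (Set.range (fun z : ℕ => (z : k)) ∪ T)
      ((Set.countable_range _).union hTc)
    -- `d = d'`
    have h1 : d = d' := by
      by_contra hne
      apply hZ
      refine (hd.union hd').subset ?_
      intro z hz
      by_cases h : δ z = d
      · right
        exact ⟨Or.inl hz, by rw [h]; exact hne⟩
      · left
        exact ⟨hz, h⟩
    apply hTi
    refine hd'.subset ?_
    intro t ht
    exact ⟨Or.inr ht, by rw [← h1]; exact hT ht⟩
  obtain ⟨d, hd⟩ := hconst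
  refine ⟨σ, be 1, d, hbe1, ?_⟩
  filter_upwards [hd] with b hb
  simp only [δ] at hb
  linear_combination hb

/-- an automorphism fixing the line of `(1,0)` is affine -/
theorem affine_of_fix {g : (l × l) ≃ₗ[l] (l × l)} {s : l} (hg : g (1, 0) = s • (1, 0)) :
    ∃ α β : l, α ≠ 0 ∧ ∀ x y, Act g x y → y = α * x + β := by
  have hs : s ≠ 0 := by
    intro hs
    rw [hs, zero_smul] at hg
    have := (LinearEquiv.map_eq_zero_iff g).1 hg
    simp at this
  have hd : (g (0, 1)).2 ≠ 0 := by
    intro hd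
    have h1 : g (0, 1) = ((g (0, 1)).1 / s) • g (1, 0) := by
      rw [hg]
      ext
      · simp [hs]
      · simp [hd]
    rw [← map_smul] at h1
    have h2 := g.injective h1
    have := congrArg Prod.snd h2
    simp at this
  refine ⟨s / (g (0, 1)).2, (g (0, 1)).1 / (g (0, 1)).2, div_ne_zero hs hd, ?_⟩
  rintro x y ⟨t, ht, h⟩
  have h0 : ((x, 1) : l × l) = x • (1, 0) + (0, 1) := by ext <;> simp
  rw [h0, map_add, map_smul, hg] at h
  have e2 := congrArg Prod.snd h
  have e1 := congrArg Prod.fst h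
  simp only [Prod.snd_add, Prod.smul_snd, smul_eq_mul, mul_zero, zero_add, mul_one,
    Prod.fst_add, Prod.smul_fst] at e1 e2
  rw [e2]
  field_simp
  linear_combination -e1

/-- an automorphism moving a vector to the line of `(1,0)` -/
theorem exists_move {v : l × l} (hv : v ≠ 0) :
    ∃ (M : (l × l) ≃ₗ[l] (l × l)) (s : l), s ≠ 0 ∧ M v = s • (1, 0) := by
  by_cases h2 : v.2 = 0
  · refine ⟨LinearEquiv.refl l (l × l), v.1, ?_, ?_⟩
    · intro h1; exact hv (Prod.ext h1 h2)
    · ext <;> simp [h2]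
  · let r : l := v.1 / v.2
    let M : (l × l) ≃ₗ[l] (l × l) :=
      { toFun := fun w => (w.2, w.1 - r * w.2)
        invFun := fun w => (w.2 + r * w.1, w.1)
        map_add' := by
          intro x y
          ext
          · simp
          · simp only [Prod.fst_add, Prod.snd_add]; ring
        map_smul' := by
          intro c x
          ext
          · simp
          · simp only [Prod.smul_fst, Prod.smul_snd, smul_eq_mul, RingHom.id_apply]; ring
        left_inv := by
          intro x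
          ext
          · simp
          · simp
        right_inv := by
          intro x
          ext
          · simp
          · simp }
    refine ⟨M, v.2, h2, ?_⟩
    change (v.2, v.1 - r * v.2) = v.2 • ((1, 0) : l × l)
    ext
    · simp
    · simp only [r, Prod.smul_snd, smul_zero]
      field_simp
      ring

/-- the existence of a common fixed point on the projective line -/
theorem exists_common [CharZero k] [CharZero l] [IsAlgClosed k] [IsAlgClosed l] (φ : k → l)
    (hinj : ∃ S : Set k, S.Finite ∧ Set.InjOn φ Sᶜ)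
    (g h : k → ((l × l) ≃ₗ[l] (l × l)))
    (hg : ∀ c, ∀ᶠ b in cofinite, Act (g c) (φ b) (φ (b + c)))
    (hh : ∀ c, c ≠ 0 → ∀ᶠ b in cofinite, Act (h c) (φ b) (φ (c * b))) :
    ∃ v : l × l, v ≠ 0 ∧ (∀ c, ∃ s : l, g c v = s • v) ∧
      ∀ c, c ≠ 0 → ∃ s : l, h c v = s • v := by
  -- multiplicativity up to scalars
  have gmul : ∀ c c', ∃ u : l, u ≠ 0 ∧ ∀ v, g c (g c' v) = u • g (c + c') v := by
    intro c c'
    have h1 : ∀ᶠ b in cofinite, Act ((g c').trans (g c)) (φ b) (φ (b + (c + c'))) := by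
      filter_upwards [hg c', ae_add c' (hg c)] with b e1 e2
      have := e1.comp e2
      rwa [add_assoc, add_comm c' c] at this
    exact unique_ae hinj h1 (hg (c + c'))
  have hmul : ∀ c c', c ≠ 0 → c' ≠ 0 → ∃ u : l, u ≠ 0 ∧ ∀ v, h c (h c' v) = u • h (c * c') v := by
    intro c c' hc hc'
    have h1 : ∀ᶠ b in cofinite, Act ((h c').trans (h c)) (φ b) (φ ((c * c') * b)) := by
      filter_upwards [hh c' hc', ae_mul hc' (hh c hc)] with b e1 e2
      have := e1.comp e2
      rwa [← mul_assoc] at this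
    exact unique_ae hinj h1 (hh (c * c') (mul_ne_zero hc hc'))
  have hconj : ∀ m c, m ≠ 0 → ∃ u : l, u ≠ 0 ∧ ∀ v, h m (g c v) = u • g (m * c) (h m v) := by
    intro m c hm
    have h1 : ∀ᶠ b in cofinite, Act ((g c).trans (h m)) (φ b) (φ (m * (b + c))) := by
      filter_upwards [hg c, ae_add c (hh m hm)] with b e1 e2
      exact e1.comp e2
    have h2 : ∀ᶠ b in cofinite, Act ((h m).trans (g (m * c))) (φ b) (φ (m * (b + c))) := by
      filter_upwards [hh m hm, ae_mul hm (hg (m * c))] with b e1 e2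
      have := e1.comp e2
      rwa [← mul_add] at this
    exact unique_ae hinj h1 h2
  -- the translations commute
  have hcomm0 : ∀ c c', ∃ u : l, u ^ 2 = 1 ∧ ∀ v, g c (g c' v) = u • g c' (g c v) := by
    intro c c'
    obtain ⟨u1, hu1, e1⟩ := gmul c c'
    obtain ⟨u2, hu2, e2⟩ := gmul c' c
    have e3 : ∀ v, g c (g c' v) = (u1 * u2⁻¹) • g c' (g c v) := by
      intro v
      rw [e1, e2, add_comm c' c, smul_smul, mul_assoc, inv_mul_cancel₀ hu2, mul_one]
    refine ⟨u1 * u2⁻¹, ?_, e3⟩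
    have e4 : (g c).toLinearMap ∘ₗ (g c').toLinearMap =
        (u1 * u2⁻¹) • ((g c').toLinearMap ∘ₗ (g c).toLinearMap) := by
      apply LinearMap.ext
      intro v
      exact e3 v
    have e5 := congrArg LinearMap.det e4
    rw [LinearMap.det_smul, LinearMap.det_comp, LinearMap.det_comp] at e5
    have e6 : Module.finrank l (l × l) = 2 := by simp
    rw [e6] at e5
    have e7 : LinearMap.det (g c).toLinearMap ≠ 0 := (LinearEquiv.isUnit_det' (g c)).ne_zero
    have e8 : LinearMap.det (g c').toLinearMap ≠ 0 := (LinearEquiv.isUnit_det' (g c')).ne_zero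
    have e9 : (u1 * u2⁻¹) ^ 2 * (LinearMap.det (g c').toLinearMap *
        LinearMap.det (g c).toLinearMap) = 1 * (LinearMap.det (g c').toLinearMap *
        LinearMap.det (g c).toLinearMap) := by
      rw [← e5]; ring
    exact mul_right_cancel₀ (mul_ne_zero e8 e7) e9
  have hcomm : ∀ c c' v, g c (g c' v) = g c' (g c v) := by
    intro c c' v
    obtain ⟨u, hu, e⟩ := hcomm0 (c / 2) c'
    obtain ⟨w, hw, f⟩ := gmul (c / 2) (c / 2)
    rw [add_halves] at f
    have h1 : w • g c (g c' v) = w • g c' (g c v) := by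
      rw [← f, e, map_smul, e, smul_smul, ← pow_two, hu, one_smul, ← map_smul, ← f]
    exact smul_right_injective _ hw h1
  -- `g 1` is not scalar
  have hns : ∀ a : l, ¬ (∀ u, g 1 u = a • u) := by
    intro a ha
    obtain ⟨b₁, b₂, b₃, ⟨p1, q1⟩, -⟩ := three_pts hinj ((hg 1).and
      (show ∀ᶠ b in cofinite, φ b ≠ φ (b + 1) by
        obtain ⟨S, hS, hinj'⟩ := hinj
        have h1 : ∀ᶠ b in cofinite, b ∈ Sᶜ := hS.compl_mem_cofinite
        filter_upwards [h1, ae_add 1 h1] with b h2 h3 h4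
        have := hinj' h2 h3 h4
        simp at this))
    apply q1
    obtain ⟨t, ht, e⟩ := p1
    rw [ha] at e
    have e2 : a = t := by simpa using congrArg Prod.snd e
    have e1 : a * φ b₁ = t * φ (b₁ + 1) := by simpa using congrArg Prod.fst e
    rw [e2] at e1
    exact mul_left_cancel₀ ht e1
  -- an eigenvector
  obtain ⟨a, ha⟩ := Module.End.exists_eigenvalue ((g 1).toLinearMap : Module.End l (l × l))
  obtain ⟨v, hv⟩ := ha.exists_hasEigenvector
  have hv0 : v ≠ 0 := hv.2
  have hva : g 1 v = a • v := hv.apply_eq_smul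
  have hcv : ∀ c, ∃ s : l, g c v = s • v := by
    intro c
    apply exists_smul_of_dt hv0
    by_contra hne
    have h1 : g 1 (g c v) = a • g c v := by
      rw [hcomm 1 c v, hva, map_smul]
    exact hns a (scalar_of_two (f := (g 1).toLinearMap) hne hva h1)
  -- stability of the set of common eigenvectors under the dilations
  have hstab : ∀ (w : l × l), (∀ c, ∃ s : l, g c w = s • w) → ∀ m, m ≠ 0 →
      ∀ c, ∃ s : l, g c (h m w) = s • h m w := by
    intro w hw m hm c
    obtain ⟨u, hu, e⟩ := hconj m (c / m) hm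
    obtain ⟨s, hs⟩ := hw (c / m)
    have e1 := e w
    rw [mul_div_cancel₀ c hm, hs, map_smul] at e1
    refine ⟨u⁻¹ * s, ?_⟩
    rw [mul_smul, e1, smul_smul, inv_mul_cancel₀ hu, one_smul]
  have hsq : ∀ m, m ≠ 0 → ∃ s : l, h m (h m v) = s • v := by
    intro m hm
    have hw0 : h m v ≠ 0 := fun h0 => hv0 ((LinearEquiv.map_eq_zero_iff _).1 h0)
    have hu0 : h m (h m v) ≠ 0 := fun h0 => hw0 ((LinearEquiv.map_eq_zero_iff _).1 h0)
    by_cases h1 : dt v (h m v) = 0
    · obtain ⟨s, hs⟩ := exists_smul_of_dt hv0 h1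
      refine ⟨s * s, ?_⟩
      rw [hs, map_smul, hs, smul_smul]
    by_cases h2 : dt v (h m (h m v)) = 0
    · exact exists_smul_of_dt hv0 h2
    by_cases h3 : dt (h m (h m v)) (h m v) = 0
    · obtain ⟨s, hs⟩ := exists_smul_of_dt hu0 h3
      rw [← map_smul] at hs
      have h4 := (h m).injective hs
      have h5 : dt v (h m v) = 0 := by
        have h6 : dt (s • h m v) (h m v) = s * dt (h m v) (h m v) := by
          simp only [dt, Prod.smul_fst, Prod.smul_snd, smul_eq_mul]; ring
        rw [← h4, dt_self, mul_zero] at h6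
        exact h6
      exact absurd h5 h1
    · exfalso
      obtain ⟨s1, e1⟩ := hcv 1
      obtain ⟨s2, e2⟩ := hstab v hcv m hm 1
      obtain ⟨s3, e3⟩ := hstab _ (hstab v hcv m hm) m hm 1
      exact hns s1 (scal3 (f := (g 1).toLinearMap) h1 h2 h3 e1 e2 e3).2
  refine ⟨v, hv0, hcv, ?_⟩
  intro c hc
  obtain ⟨m, hm⟩ := IsAlgClosed.exists_eq_mul_self c
  have hm0 : m ≠ 0 := by
    rintro rfl
    exact hc (by simpa using hm)
  obtain ⟨u, hu, e⟩ := hmul m m hm0 hm0
  obtain ⟨s, hs⟩ := hsq m hm0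
  refine ⟨u⁻¹ * s, ?_⟩
  have e1 := e v
  rw [← hm, hs] at e1
  rw [mul_smul, e1, smul_smul, inv_mul_cancel₀ hu, one_smul]

/-- an automorphism of the plane from a matrix -/
theorem exists_of_matrix {A B C D : l} (h : A * D - B * C ≠ 0) :
    ∃ g : (l × l) ≃ₗ[l] (l × l), ∀ x y, MobRel A B C D x y → Act g x y := by
  let g : (l × l) ≃ₗ[l] (l × l) :=
    { toFun := fun w => (A * w.1 + B * w.2, C * w.1 + D * w.2)
      invFun := fun w => ((A * D - B * C)⁻¹ * (D * w.1 - B * w.2),
        (A * D - B * C)⁻¹ * (A * w.2 - C * w.1))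
      map_add' := by
        intro x y
        ext
        · simp only [Prod.fst_add, Prod.snd_add]; ring
        · simp only [Prod.fst_add, Prod.snd_add]; ring
      map_smul' := by
        intro c x
        ext
        · simp only [Prod.smul_fst, Prod.smul_snd, smul_eq_mul, RingHom.id_apply]; ring
        · simp only [Prod.smul_fst, Prod.smul_snd, smul_eq_mul, RingHom.id_apply]; ring
      left_inv := by
        intro x
        ext
        · simp only
          rw [show D * (A * x.1 + B * x.2) - B * (C * x.1 + D * x.2) =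
            (A * D - B * C) * x.1 by ring, inv_mul_cancel_left₀ h]
        · simp only
          rw [show A * (C * x.1 + D * x.2) - C * (A * x.1 + B * x.2) =
            (A * D - B * C) * x.2 by ring, inv_mul_cancel_left₀ h]
      right_inv := by
        intro x
        ext
        · simp only
          rw [show A * ((A * D - B * C)⁻¹ * (D * x.1 - B * x.2)) +
            B * ((A * D - B * C)⁻¹ * (A * x.2 - C * x.1)) =
            (A * D - B * C)⁻¹ * ((A * D - B * C) * x.1) by ring, inv_mul_cancel_left₀ h]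
        · simp only
          rw [show C * ((A * D - B * C)⁻¹ * (D * x.1 - B * x.2)) +
            D * ((A * D - B * C)⁻¹ * (A * x.2 - C * x.1)) =
            (A * D - B * C)⁻¹ * ((A * D - B * C) * x.2) by ring, inv_mul_cancel_left₀ h] }
  refine ⟨g, ?_⟩
  intro x y hxy
  unfold MobRel at hxy
  have hg : g (x, 1) = (A * x + B, C * x + D) := by
    change (A * x + B * 1, C * x + D * 1) = _
    simp
  refine ⟨C * x + D, ?_, ?_⟩
  · intro h0
    rw [h0, mul_zero] at hxy
    have : ((x, 1) : l × l) = 0 := by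
      apply (LinearEquiv.map_eq_zero_iff g).1
      rw [hg, h0, ← hxy]
      rfl
    simp at this
  · rw [hg]
    ext
    · simp only [Prod.smul_fst, smul_eq_mul]
      linear_combination -hxy
    · simp

/-- a matrix from an automorphism of the plane -/
theorem exists_matrix (g : (l × l) ≃ₗ[l] (l × l)) :
    ∃ A B C D : l, A * D - B * C ≠ 0 ∧ ∀ x y, Act g x y → MobRel A B C D x y := by
  refine ⟨(g (1, 0)).1, (g (0, 1)).1, (g (1, 0)).2, (g (0, 1)).2, ?_, ?_⟩
  · intro h
    have h1 : dt (g (1, 0)) (g (0, 1)) = 0 := by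
      unfold dt
      linear_combination h
    have h0 : g (1, 0) ≠ 0 := by
      intro h0
      have := (LinearEquiv.map_eq_zero_iff g).1 h0
      simp at this
    obtain ⟨s, hs⟩ := exists_smul_of_dt h0 h1
    rw [← map_smul] at hs
    have := congrArg Prod.snd (g.injective hs)
    simp at this
  · rintro x y ⟨t, ht, h⟩
    have h0 : ((x, 1) : l × l) = x • (1, 0) + (0, 1) := by ext <;> simp
    rw [h0, map_add, map_smul] at h
    have e2 := congrArg Prod.snd h
    have e1 := congrArg Prod.fst h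
    simp only [Prod.snd_add, Prod.smul_snd, smul_eq_mul, mul_one,
      Prod.fst_add, Prod.smul_fst] at e1 e2
    unfold MobRel
    linear_combination y * e2 - e1

end ae

end Sg

open Sg in
/-- Moebius transformations along translations and dilations give a field isomorphism. -/
theorem sigma_exists {k l : Type*} [Field k] [Field l] [CharZero k] [CharZero l]
    [IsAlgClosed k] [IsAlgClosed l] [Uncountable k] (ψ₁ ψ₂ ψ₃ : k → l)
    (hinj₁ : ∃ S : Set k, S.Finite ∧ Set.InjOn ψ₁ Sᶜ) (hsurj₁ : (Set.range ψ₁)ᶜ.Finite)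
    (hadd : ∀ᶠ a in cofinite, ∃ A B C D : l, A * D - B * C ≠ 0 ∧
      ∀ᶠ b in cofinite, MobRel A B C D (ψ₁ b) (ψ₂ (a + b)))
    (hmul : ∀ᶠ a in cofinite, ∃ A B C D : l, A * D - B * C ≠ 0 ∧
      ∀ᶠ b in cofinite, MobRel A B C D (ψ₁ b) (ψ₃ (a * b))) :
    ∃ (σ : k ≃+* l) (A B C D : l), A * D - B * C ≠ 0 ∧
      ∀ᶠ b in cofinite, MobRel A B C D (σ b) (ψ₁ b) := by
  -- translations and dilations
  have hg : ∀ c, ∃ g : (l × l) ≃ₗ[l] (l × l),
      ∀ᶠ b in cofinite, Act g (ψ₁ b) (ψ₁ (b + c)) := by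
    intro c
    obtain ⟨a, ⟨A, B, C, D, h0, h1⟩, ⟨A', B', C', D', h0', h1'⟩⟩ :=
      (hadd.and (ae_add c hadd)).exists
    obtain ⟨g, hg⟩ := exists_of_matrix h0
    obtain ⟨g', hg'⟩ := exists_of_matrix h0'
    refine ⟨g'.trans g.symm, ?_⟩
    filter_upwards [h1', ae_add c h1] with b e1 e2
    have f1 := hg' _ _ e1
    have f2 := hg _ _ e2
    rw [show a + c + b = a + (b + c) by ring] at f1
    exact f1.comp f2.symm
  have hh : ∀ c, ∃ g : (l × l) ≃ₗ[l] (l × l),
      c ≠ 0 → ∀ᶠ b in cofinite, Act g (ψ₁ b) (ψ₁ (c * b)) := by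
    intro c
    by_cases hc : c = 0
    · exact ⟨LinearEquiv.refl _ _, fun h => absurd hc h⟩
    obtain ⟨a, ⟨A, B, C, D, h0, h1⟩, ⟨A', B', C', D', h0', h1'⟩⟩ :=
      (hmul.and (ae_mul hc hmul)).exists
    obtain ⟨g, hg⟩ := exists_of_matrix h0
    obtain ⟨g', hg'⟩ := exists_of_matrix h0'
    refine ⟨g'.trans g.symm, fun _ => ?_⟩
    filter_upwards [h1', ae_mul hc h1] with b e1 e2
    have f1 := hg' _ _ e1
    have f2 := hg _ _ e2
    rw [show c * a * b = a * (c * b) by ring] at f1
    exact f1.comp f2.symm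
  choose g hg using hg
  choose h hh using hh
  obtain ⟨v, hv0, hgv, hhv⟩ := exists_common ψ₁ hinj₁ g h hg hh
  obtain ⟨M, s, hs, hM⟩ := exists_move hv0
  have hM' : M.symm (1, 0) = s⁻¹ • v := by
    rw [LinearEquiv.symm_apply_eq, map_smul, hM, smul_smul, inv_mul_cancel₀ hs, one_smul]
  -- the moved function
  let φ : k → l := fun b => (M (ψ₁ b, 1)).1 / (M (ψ₁ b, 1)).2
  have hMφ : ∀ᶠ b in cofinite, Act M (ψ₁ b) (φ b) := by
    obtain ⟨S, hS, hinj⟩ := hinj₁
    have h1 : ∀ᶠ b in cofinite, b ∈ Sᶜ := hS.compl_mem_cofinite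
    have h2 : {b | b ∈ Sᶜ ∧ (M (ψ₁ b, 1)).2 = 0}.Subsingleton := by
      rintro b ⟨hb, hb0⟩ b' ⟨hb', hb0'⟩
      apply hinj hb hb'
      have e : ∀ x : l, (M (x, 1)).2 = 0 → ((x, 1) : l × l) = ((M (x, 1)).1 * s⁻¹) • v := by
        intro x hx
        rw [mul_smul, ← hM', ← map_smul, ← LinearEquiv.symm_apply_eq, LinearEquiv.symm_symm]
        ext
        · simp
        · simp [hx]
      have e1 := e _ hb0
      have e2 := e _ hb0'
      have f1 := congrArg Prod.snd e1
      have f2 := congrArg Prod.snd e2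
      have g1 := congrArg Prod.fst e1
      have g2 := congrArg Prod.fst e2
      simp only [Prod.smul_snd, Prod.smul_fst, smul_eq_mul] at f1 f2 g1 g2
      have hv2 : v.2 ≠ 0 := by
        intro h0
        rw [h0, mul_zero] at f1
        exact one_ne_zero f1
      have k1 : (M (ψ₁ b, 1)).1 * s⁻¹ = (M (ψ₁ b', 1)).1 * s⁻¹ := by
        apply mul_right_cancel₀ hv2
        rw [← f1, ← f2]
      rw [g1, g2, k1]
    have h3 : ∀ᶠ b in cofinite, ¬ (b ∈ Sᶜ ∧ (M (ψ₁ b, 1)).2 = 0) := by
      exact h2.finite.compl_mem_cofinite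
    filter_upwards [h1, h3] with b hb1 hb3
    have hb : (M (ψ₁ b, 1)).2 ≠ 0 := fun h0 => hb3 ⟨hb1, h0⟩
    refine ⟨(M (ψ₁ b, 1)).2, hb, ?_⟩
    ext
    · simp only [φ, Prod.smul_fst, smul_eq_mul]
      field_simp
    · simp
  have hφinj : ∃ S : Set k, S.Finite ∧ Set.InjOn φ Sᶜ := by
    obtain ⟨S, hS, hinj⟩ := hinj₁
    refine ⟨S ∪ {b | ¬ Act M (ψ₁ b) (φ b)}, hS.union hMφ, ?_⟩
    intro b hb b' hb' hbb
    simp only [Set.mem_compl_iff, Set.mem_union, Set.mem_ofPred_eq, not_or, not_not] at hb hb'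
    apply hinj hb.1 hb'.1
    have := hb'.2
    rw [← hbb] at this
    exact hb.2.eq_left this
  obtain ⟨σ, p, q, hp, hσ⟩ := affine_case φ hφinj
    (by
      intro c
      obtain ⟨t, ht⟩ := hgv c
      obtain ⟨α, β, hα, hαβ⟩ := affine_of_fix (g := (M.symm.trans (g c)).trans M) (s := t) (by
        rw [LinearEquiv.trans_apply, LinearEquiv.trans_apply, hM', map_smul, ht, map_smul,
          map_smul, hM, smul_smul, smul_smul, mul_right_comm, inv_mul_cancel₀ hs, one_mul])
      refine ⟨α, β, hα, ?_⟩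
      filter_upwards [hMφ, ae_add c hMφ, hg c] with b e1 e2 e3
      exact hαβ _ _ ((e1.symm.comp e3).comp e2))
    (by
      intro c hc
      obtain ⟨t, ht⟩ := hhv c hc
      obtain ⟨α, β, hα, hαβ⟩ := affine_of_fix (g := (M.symm.trans (h c)).trans M) (s := t) (by
        rw [LinearEquiv.trans_apply, LinearEquiv.trans_apply, hM', map_smul, ht, map_smul,
          map_smul, hM, smul_smul, smul_smul, mul_right_comm, inv_mul_cancel₀ hs, one_mul])
      refine ⟨α, β, hα, ?_⟩
      filter_upwards [hMφ, ae_mul hc hMφ, hh c hc] with b e1 e2 e3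
      exact hαβ _ _ ((e1.symm.comp e3).comp e2))
  -- the composite Moebius transformation
  obtain ⟨N, hN⟩ := exists_of_matrix (A := p) (B := q) (C := 0) (D := 1) (l := l)
    (by simpa using hp)
  let K : (l × l) ≃ₗ[l] (l × l) := N.trans M.symm
  have hK : ∀ᶠ b in cofinite, Act K (σ b) (ψ₁ b) := by
    filter_upwards [hMφ, hσ] with b e1 e2
    have : Act N (σ b) (φ b) := hN _ _ (by unfold MobRel; rw [e2]; ring)
    exact this.comp e1.symm
  -- surjectivity
  have hrange : (Set.range σ)ᶜ.Finite := by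
    have hF : {b | ¬ Act K (σ b) (ψ₁ b)}.Finite := hK
    have hbad : ((Set.range ψ₁)ᶜ ∪ ψ₁ '' {b | ¬ Act K (σ b) (ψ₁ b)}).Finite :=
      hsurj₁.union (hF.image _)
    refine ((hbad.image (fun y => (K.symm (y, 1)).1 / (K.symm (y, 1)).2)).union
      (Set.finite_singleton ((K.symm (1, 0)).1 / (K.symm (1, 0)).2))).subset ?_
    intro w hw
    by_cases hT : (K (w, 1)).2 = 0
    · right
      have e : ((w, 1) : l × l) = (K (w, 1)).1 • K.symm (1, 0) := by
        rw [← map_smul, ← LinearEquiv.symm_apply_eq, LinearEquiv.symm_symm]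
        ext
        · simp
        · simp [hT]
      have e1 := congrArg Prod.fst e
      have e2 := congrArg Prod.snd e
      simp only [Prod.smul_fst, Prod.smul_snd, smul_eq_mul] at e1 e2
      have hne : (K.symm (1, 0)).2 ≠ 0 := by
        intro h0
        rw [h0, mul_zero] at e2
        exact one_ne_zero e2
      rw [Set.mem_singleton_iff, eq_div_iff hne, e1]
      linear_combination -(K.symm (1, 0)).1 * e2
    · left
      have hact : Act K w ((K (w, 1)).1 / (K (w, 1)).2) := by
        refine ⟨(K (w, 1)).2, hT, ?_⟩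
        ext
        · simp only [Prod.smul_fst, smul_eq_mul]
          field_simp
        · simp
      refine ⟨(K (w, 1)).1 / (K (w, 1)).2, ?_, ?_⟩
      · by_contra hnb
        simp only [Set.mem_union, Set.mem_compl_iff, Set.mem_image, not_or, not_not,
          Set.mem_ofPred_eq, Set.mem_range] at hnb
        obtain ⟨⟨b, hb⟩, h2⟩ := hnb
        have hb' : Act K (σ b) (ψ₁ b) := by
          by_contra hcon
          exact h2 ⟨b, hcon, hb⟩
        rw [hb] at hb'
        exact hw ⟨b, hb'.eq_left hact⟩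
      · obtain ⟨t, ht, e⟩ := hact.symm
        have e1 := congrArg Prod.fst e
        have e2 := congrArg Prod.snd e
        simp only [Prod.smul_fst, Prod.smul_snd, smul_eq_mul, mul_one] at e1 e2
        simp only
        rw [e1, e2]
        field_simp
  have hsurj : Function.Surjective σ := by
    intro y
    by_contra hy
    have h1 : (Set.range (fun z : k => y + σ z)).Infinite :=
      Set.infinite_range_of_injective (fun a b hab => σ.injective (add_left_cancel hab))
    apply h1
    refine hrange.subset ?_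
    rintro _ ⟨z, rfl⟩ ⟨w, hw⟩
    apply hy
    refine ⟨w - z, ?_⟩
    rw [map_sub, hw]
    simp
  obtain ⟨A, B, C, D, hdet, hmat⟩ := exists_matrix K
  refine ⟨RingEquiv.ofBijective σ ⟨σ.injective, hsurj⟩, A, B, C, D, hdet, ?_⟩
  filter_upwards [hK] with b hb
  exact hmat _ _ hb

end Vale.Agent.P019
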