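import Vale.Agent.P019.SigA
import Vale.Agent.P019.RelB
import Vale.Agent.P019.GenB
import Vale.Agent.P019.ConstB
import Vale.Agent.P019.Sigma

/-!
# The isomorphism of the fields of constants
-/

namespace Vale.Agent.P019

open Polynomial Filter

section aux

variable {K : Type*} [Field K]

/-- the filter `ae k` and cofinite sets of the type `k`. -/
theorem ae_iff_sub {k : Subfield K} {P : K → Prop} :
    (∀ᶠ a in ae k, P a) ↔ ∀ᶠ a : k in cofinite, P a := by
  rw [ae_iff, eventually_cofinite]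
  constructor
  · intro h
    refine Set.Finite.of_finite_image (f := Subtype.val) (h.subset ?_)
      Subtype.val_injective.injOn
    rintro _ ⟨a, ha, rfl⟩
    exact ⟨a.2, ha⟩
  · intro h
    refine (h.image Subtype.val).subset ?_
    rintro a ⟨ha, ha'⟩
    exact ⟨⟨a, ha⟩, ha', rfl⟩

theorem ae_shift {k : Subfield K} {P : K → Prop} {c : K} (hc : c ∈ k)
    (h : ∀ᶠ a in ae k, P a) : ∀ᶠ a in ae k, P (c + a) := by
  rw [ae_iff] at h ⊢
  refine Set.Finite.of_finite_image (f := fun a => c + a) (h.subset ?_)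
    (add_right_injective c).injOn
  rintro _ ⟨a, ⟨ha, ha'⟩, rfl⟩
  exact ⟨add_mem hc ha, ha'⟩

theorem ae_scale {k : Subfield K} {P : K → Prop} {c : K} (hc : c ∈ k) (hc0 : c ≠ 0)
    (h : ∀ᶠ a in ae k, P a) : ∀ᶠ a in ae k, P (c * a) := by
  rw [ae_iff] at h ⊢
  refine Set.Finite.of_finite_image (f := fun a => c * a) (h.subset ?_)
    (mul_right_injective₀ hc0).injOn
  rintro _ ⟨a, ⟨ha, ha'⟩, rfl⟩
  exact ⟨mul_mem hc ha, ha'⟩

theorem ae_ne {k : Subfield K} (c : K) : ∀ᶠ a in ae k, a ≠ c := by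
  rw [ae_iff]
  refine (Set.finite_singleton c).subset ?_
  rintro a ⟨-, ha⟩
  exact not_not.1 ha

end aux

variable {K L : Type*} [Field K] [Field L] [CharZero K] [CharZero L] {ℓ : ℕ} [Fact ℓ.Prime]
  {k : Subfield K} {l : Subfield L} {Θ : V ℓ K ≃ₗ[ZMod ℓ] V ℓ L}

open Classical in
/-- restriction of a map to the constants. -/
noncomputable def rst (k : Subfield K) (l : Subfield L) (ψ : K → L) : k → l :=
  fun b => if h : ψ b ∈ l then ⟨ψ b, h⟩ else 0

omit [CharZero K] [CharZero L] in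
theorem rst_eq {ψ : K → L} {b : k} (h : ψ b ∈ l) : (rst k l ψ b : L) = ψ b := by
  unfold rst
  rw [dif_pos h]

/-- first construction of `σ`. -/
theorem Hyp.exists_sigma₀ (H : Hyp ℓ k l Θ) : ∃ (σ : K → L) (e : ZMod ℓ) (s : K) (s' : L),
    IsoOn k l σ ∧ e ≠ 0 ∧ Nm k l Θ σ e s s' := by
  classical
  obtain ⟨t, ht0⟩ := exists_gen_add H.ack H.fgk H.trk {0} ∅ (by simp)
  have ht : Good k t := by
    have := (ht0 0 (Finset.mem_singleton_self 0)).1
    rwa [zero_add] at this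
  obtain ⟨s, hs, hts, hst, -, hist, -⟩ := exists_gen_mul H.ack H.fgk H.trk t t ht
  rw [mul_comm] at hst
  have hits : Ind k t s := hist.symm H.ack
  obtain ⟨t', rt⟩ := H.rt_all ht
  obtain ⟨s', rs⟩ := H.rt_all hs
  obtain ⟨z', rz⟩ := H.rt_all hts
  obtain ⟨w', rw'⟩ := H.rt_all hst
  obtain ⟨ψt, et, pt⟩ := H.exists_psi rt
  obtain ⟨ψs, es, ps⟩ := H.exists_psi rs
  obtain ⟨ψz, ez, pz⟩ := H.exists_psi rz
  obtain ⟨ψw, ew, pw⟩ := H.exists_psi rw'
  obtain ⟨_, -, h1⟩ := H.rel hist.2 rt rs rz (shift_add H.ack hs.1 t) pt ps pz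
  obtain ⟨_, -, h2⟩ := H.rel hist.2 rt rs rw' (shift_mul H.ack hs.1 t) pt ps pw
  have hsh3 : Shift ℓ k s t (t + s) (fun a b => a + b) := by
    rw [add_comm t s]
    exact shift_add H.ack ht.1 s
  obtain ⟨_, -, h3⟩ := H.rel hits.2 rs rt rz hsh3 ps pt pz
  have : IsAlgClosed k := H.ack
  have : IsAlgClosed l := H.acl
  have : Uncountable k := by
    rw [← not_countable_iff]
    exact fun hc => H.uk (Set.countable_coe_iff.1 hc)
  have := ae_neBot k
  -- the isomorphism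
  obtain ⟨σ, A, B, C, D, hdet, hσ⟩ := sigma_exists (rst k l ψs) (rst k l ψz) (rst k l ψw)
    (by
      refine ⟨{b : k | ¬ (ψs b ∈ l ∧ es b ≠ 0 ∧ Cor k l Θ s s' (es b) b (ψs b))}, ?_, ?_⟩
      · exact ae_iff_sub.1 ps.cor
      · intro b hb b' hb' hbb
        simp only [Set.mem_compl_iff, Set.mem_ofPred_eq, not_not] at hb hb'
        have h4 := congrArg (Subtype.val : l → L) hbb
        rw [rst_eq hb.1, rst_eq hb'.1] at h4
        have h5 := hb'.2.2
        rw [← h4] at h5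
        exact Subtype.ext (Cor.inj H.ack H.acl rs hb.2.1 hb'.2.1 b.2 b'.2 hb.1 hb.2.2 h5))
    (by
      have h4 := ae_iff_sub.1 ps.surj
      rw [eventually_cofinite] at h4
      refine h4.subset ?_
      intro β hβ hex
      obtain ⟨b, hb, hb1, -⟩ := hex
      refine hβ ⟨⟨b, hb⟩, Subtype.ext ?_⟩
      rw [rst_eq (by rw [hb1]; exact β.2), hb1])
    (by
      filter_upwards [ae_iff_sub.1 h1] with a ha
      obtain ⟨A, hA, B, hB, C, hC, D, hD, hdet, h1, -⟩ := ha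
      refine ⟨⟨A, hA⟩, ⟨B, hB⟩, ⟨C, hC⟩, ⟨D, hD⟩, fun h0 => hdet ?_, ?_⟩
      · exact congrArg (Subtype.val : l → L) h0
      · filter_upwards [ae_iff_sub.1 h1, ae_iff_sub.1 ps.cor,
          ae_iff_sub.1 (ae_shift a.2 pz.cor)] with b hb1 hb2 hb3
        refine Subtype.ext ?_
        change (rst k l ψz (a + b) : L) * (C * (rst k l ψs b : L) + D) =
          A * (rst k l ψs b : L) + B
        rw [rst_eq hb2.1, rst_eq (b := a + b) hb3.1]
        exact hb1.1)
    (by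
      have h0 : ∀ᶠ a : k in cofinite, (a : K) ≠ 0 := ae_iff_sub.1 (ae_ne 0)
      filter_upwards [ae_iff_sub.1 h2, h0] with a ha ha0
      obtain ⟨A, hA, B, hB, C, hC, D, hD, hdet, h1, -⟩ := ha
      refine ⟨⟨A, hA⟩, ⟨B, hB⟩, ⟨C, hC⟩, ⟨D, hD⟩, fun h0 => hdet ?_, ?_⟩
      · exact congrArg (Subtype.val : l → L) h0
      · filter_upwards [ae_iff_sub.1 h1, ae_iff_sub.1 ps.cor,
          ae_iff_sub.1 (ae_scale a.2 ha0 pw.cor)] with b hb1 hb2 hb3
        refine Subtype.ext ?_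
        change (rst k l ψw (a * b) : L) * (C * (rst k l ψs b : L) + D) =
          A * (rst k l ψs b : L) + B
        rw [rst_eq hb2.1, rst_eq (b := a * b) hb3.1]
        exact hb1.1)
  -- the coefficient
  have hc1 : ∀ᶠ a in ae k, ∀ᶠ b in ae k, ez (a + b) = es b := by
    filter_upwards [h1] with a ha
    obtain ⟨A, hA, B, hB, C, hC, D, hD, hdet, h1, -⟩ := ha
    filter_upwards [h1] with b hb
    exact hb.2
  have hc2 : ∀ᶠ b in ae k, ∀ᶠ a in ae k, ez (a + b) = et a := by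
    filter_upwards [h3] with b hb
    obtain ⟨A, hA, B, hB, C, hC, D, hD, hdet, h1, -⟩ := hb
    filter_upwards [h1] with a ha
    rw [add_comm]
    exact ha.2
  obtain ⟨e, he1, -⟩ := const_of_ae H.uk hc1 hc2
  have he : e ≠ 0 := by
    obtain ⟨b, hb1, hb2⟩ := (he1.and ps.cor).exists
    rw [← hb1]
    exact hb2.2.1
  let τ : K → L := fun b => if h : b ∈ k then (σ ⟨b, h⟩ : L) else 0
  have hτ : ∀ b (h : b ∈ k), τ b = σ ⟨b, h⟩ := fun b h => dif_pos h
  have hτo : IsoOn k l τ := by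
    refine ⟨?_, ?_, ?_, ?_, ?_⟩
    · intro a ha
      rw [hτ a ha]
      exact (σ ⟨a, ha⟩).2
    · intro a ha b hb
      rw [hτ a ha, hτ b hb, hτ _ (add_mem ha hb)]
      exact congrArg (Subtype.val : l → L) (map_add σ ⟨a, ha⟩ ⟨b, hb⟩)
    · intro a ha b hb
      rw [hτ a ha, hτ b hb, hτ _ (mul_mem ha hb)]
      exact congrArg (Subtype.val : l → L) (map_mul σ ⟨a, ha⟩ ⟨b, hb⟩)
    · rw [hτ 1 (one_mem k)]
      exact congrArg (Subtype.val : l → L) (map_one σ)
    · intro β hβ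
      refine ⟨σ.symm ⟨β, hβ⟩, (σ.symm ⟨β, hβ⟩).2, ?_⟩
      rw [hτ _ (σ.symm ⟨β, hβ⟩).2]
      exact congrArg (Subtype.val : l → L) (σ.apply_symm_apply ⟨β, hβ⟩)
  obtain ⟨s₁', hs₁'⟩ := exists_Nm_of_mob H.ack H.acl hτo he rs A.2 B.2 C.2 D.2
    (fun h0 => hdet (Subtype.ext h0)) (ψ := ψs) (by
      have h4 : ∀ᶠ b in ae k, ψs b * ((C : L) * τ b + D) = A * τ b + B := by
        rw [ae_iff_sub]
        filter_upwards [hσ, ae_iff_sub.1 ps.cor] with b hb1 hb2
        have h5 := congrArg (Subtype.val : l → L) hb1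
        rw [hτ b b.2, ← rst_eq hb2.1]
        exact h5
      filter_upwards [h4, ps.cor, he1] with b hb1 hb2 hb3
      refine ⟨hb2.1, ?_, hb1⟩
      rw [← hb3]
      exact hb2.2.2)
  exact ⟨τ, e, s, s₁', hτo, he, hs₁'⟩

/-- `σ` works for all independent good elements. -/
theorem Hyp.exists_Nm_of_ind (H : Hyp ℓ k l Θ) {σ : K → L} (hσ : IsoOn k l σ) {e : ZMod ℓ}
    (he : e ≠ 0) {s : K} {s' : L} (h : Nm k l Θ σ e s s') {t : K} (ht : Good k t)
    (hts : Ind k s t) : ∃ t', Nm k l Θ σ e t t' := by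
  have hst : Ind k t s := hts.symm H.ack
  have := ae_neBot k
  obtain ⟨c, hgood, hc0, hc⟩ := ((H.bert t s hst.1 hst.2).and
    ((ae_ne 0).and (ae_mem k))).exists
  have hu : Nm k l Θ σ e (c * s) (σ c * s') := h.mul_const H.ack H.acl hσ he hc hc0
  have hle : adj k (c * s) ≤ adj k s :=
    adj_le (le_adj k s) (mul_mem (le_adj k s hc) (mem_adj k s))
  have hut : ¬ IsAlgebraic (adj k (c * s)) t := fun h => hts.2 (isAlgebraic_mono hle h)
  have htu : ¬ IsAlgebraic (adj k t) (c * s) := by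
    intro h1
    apply hst.2
    have h2 : s = c⁻¹ * (c * s) := by rw [inv_mul_cancel_left₀ hc0]
    rw [h2]
    refine IsAlgebraic.mul (isAlgebraic_of_mem (inv_mem (le_adj k t hc))) h1
  obtain ⟨t', rt⟩ := H.rt_all ht
  obtain ⟨z', rz⟩ := H.rt_all hgood
  obtain ⟨ψt, et, pt⟩ := H.exists_psi rt
  obtain ⟨ψz, ez, pz⟩ := H.exists_psi rz
  have pu := hu.psi hσ he
  obtain ⟨_, -, h1⟩ := H.rel hut rt hu.rt rz (shift_add H.ack hu.rt.good.1 t) pt pu pz
  obtain ⟨a, ⟨A, hA, B, hB, C, hC, D, hD, hdet, h1, -⟩, ha⟩ := (h1.and (ae_mem k)).exists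
  have hsub : ∀ b ∈ k, σ (-a + b) = σ b - σ a := by
    intro b hb
    have := hσ.add (-a + b) (add_mem (neg_mem ha) hb) a ha
    rw [show -a + b + a = b by ring] at this
    rw [this]
    ring
  obtain ⟨z₁', hz⟩ : ∃ z₁', Nm k l Θ σ e (t + c * s) z₁' := by
    refine exists_Nm_of_mob H.ack H.acl hσ he rz (A := A) (B := B - A * σ a) (C := C)
      (D := D - C * σ a) hA (sub_mem hB (mul_mem hA (hσ.mem a ha))) hC
      (sub_mem hD (mul_mem hC (hσ.mem a ha))) (by
        intro h0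
        apply hdet
        linear_combination h0) (ψ := ψz) ?_
    filter_upwards [ae_shift (neg_mem ha) h1, pz.cor, ae_mem k] with b hb1 hb2 hb
    rw [show a + (-a + b) = b by ring, hsub b hb] at hb1
    refine ⟨hb2.1, ?_, ?_⟩
    · have := hb2.2.2
      rwa [hb1.2] at this
    · linear_combination hb1.1
  have hsh : Shift ℓ k (c * s) t (t + c * s) (fun a b => a + b) := by
    rw [add_comm t (c * s)]
    exact shift_add H.ack ht.1 (c * s)
  obtain ⟨_, -, h2⟩ := H.rel htu hu.rt rt hz.rt hsh pu pt (hz.psi hσ he)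
  obtain ⟨a, ⟨A, hA, B, hB, C, hC, D, hD, hdet, h2, -⟩, ha⟩ := (h2.and (ae_mem k)).exists
  refine exists_Nm_of_mob H.ack H.acl hσ he rt (A := -D) (B := B - D * σ a) (C := C)
    (D := C * σ a - A) (neg_mem hD) (sub_mem hB (mul_mem hD (hσ.mem a ha))) hC
    (sub_mem (mul_mem hC (hσ.mem a ha)) hA) (by
      intro h0
      apply hdet
      linear_combination h0) (ψ := ψt) ?_
  filter_upwards [h2, pt.cor, ae_mem k] with b hb1 hb2 hb
  rw [hσ.add a ha b hb] at hb1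
  refine ⟨hb2.1, ?_, ?_⟩
  · have := hb2.2.2
    rwa [← hb1.2] at this
  · linear_combination hb1.1

/-- the isomorphism of the fields of constants. -/
theorem Hyp.exists_sigma (H : Hyp ℓ k l Θ) : ∃ (σ : K → L) (e : ZMod ℓ),
    IsoOn k l σ ∧ e ≠ 0 ∧ ∀ s, Good k s → ∃ s', Nm k l Θ σ e s s' := by
  classical
  obtain ⟨σ, e, s, s', hσ, he, h⟩ := H.exists_sigma₀
  refine ⟨σ, e, hσ, he, fun s₁ hs₁ => ?_⟩
  obtain ⟨t, ht0⟩ := exists_gen_add H.ack H.fgk H.trk {0} {s, s₁} (by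
    intro b hb
    rw [Finset.mem_insert, Finset.mem_singleton] at hb
    rcases hb with rfl | rfl
    · exact h.rt.good
    · exact hs₁)
  obtain ⟨ht, hi⟩ := ht0 0 (Finset.mem_singleton_self 0)
  rw [zero_add] at ht hi
  have hi1 := hi s (by simp)
  have hi2 := hi s₁ (by simp)
  obtain ⟨t', ht'⟩ := H.exists_Nm_of_ind hσ he h ht (hi1.symm H.ack)
  exact H.exists_Nm_of_ind hσ he ht' hs₁ hi2

end Vale.Agent.P019
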